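import Vale.Agent.P146.Model

/-!
Analytic toolbox: tame functions, coordinate derivatives, Gaussian integration by parts.
-/

namespace Vale.Agent.P146

open MeasureTheory ProbabilityTheory

variable {ι κ : Type*} [Fintype ι] [DecidableEq ι] [Fintype κ] [DecidableEq κ]

theorem Tame.contDiff {f : (ι → ℝ) → ℝ} (hf : Tame f) : ContDiff ℝ (⊤ : ℕ∞) f := hf.1

/-- Polynomial growth. -/
def PolyBd (f : (ι → ℝ) → ℝ) : Prop := ∃ (C : ℝ) (p : ℕ), ∀ g, |f g| ≤ C * (1 + ‖g‖) ^ p

omit [DecidableEq ι] in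
theorem PolyBd.nonneg_const {f : (ι → ℝ) → ℝ} (hf : PolyBd f) :
    ∃ (C : ℝ) (p : ℕ), 0 ≤ C ∧ ∀ g, |f g| ≤ C * (1 + ‖g‖) ^ p := by
  obtain ⟨C, p, h⟩ := hf
  refine ⟨C, p, ?_, h⟩
  have := h 0
  simp at this
  exact (abs_nonneg _).trans this

omit [DecidableEq ι] in
theorem PolyBd.add {f h : (ι → ℝ) → ℝ} (hf : PolyBd f) (hh : PolyBd h) :
    PolyBd (fun g => f g + h g) := by
  obtain ⟨C, p, hC, hb⟩ := hf.nonneg_const
  obtain ⟨D, q, hD, hb'⟩ := hh.nonneg_const
  refine ⟨C + D, max p q, fun g => ?_⟩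
  have h1 : (1 : ℝ) ≤ 1 + ‖g‖ := le_add_of_nonneg_right (norm_nonneg g)
  refine (abs_add_le _ _).trans ((add_le_add (hb g) (hb' g)).trans ?_)
  rw [add_mul]
  exact add_le_add
    (mul_le_mul_of_nonneg_left (pow_le_pow_right₀ h1 (le_max_left _ _)) hC)
    (mul_le_mul_of_nonneg_left (pow_le_pow_right₀ h1 (le_max_right _ _)) hD)

omit [DecidableEq ι] in
theorem PolyBd.mul {f h : (ι → ℝ) → ℝ} (hf : PolyBd f) (hh : PolyBd h) :
    PolyBd (fun g => f g * h g) := by
  obtain ⟨C, p, hC, hb⟩ := hf.nonneg_const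
  obtain ⟨D, q, hD, hb'⟩ := hh.nonneg_const
  refine ⟨C * D, p + q, fun g => ?_⟩
  rw [abs_mul, pow_add]
  refine (mul_le_mul (hb g) (hb' g) (abs_nonneg _) (by positivity)).trans (le_of_eq ?_)
  ring

omit [DecidableEq ι] in
theorem PolyBd.const (c : ℝ) : PolyBd (fun _ : ι → ℝ => c) := ⟨|c|, 0, fun g => by simp⟩

section PdRules

omit [Fintype κ] [DecidableEq κ]

theorem contDiff_pd {f : (ι → ℝ) → ℝ} (e : ι) (hf : ContDiff ℝ (⊤ : ℕ∞) f) :
    ContDiff ℝ (⊤ : ℕ∞) (pd e f) :=
  (hf.fderiv_right (m := (⊤ : ℕ∞)) (by simp)).clm_apply contDiff_const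

theorem contDiff_pdL {f : (ι → ℝ) → ℝ} (L : List ι) (hf : ContDiff ℝ (⊤ : ℕ∞) f) :
    ContDiff ℝ (⊤ : ℕ∞) (pdL L f) := by
  induction L generalizing f with
  | nil => exact hf
  | cons e L ih => exact ih (contDiff_pd e hf)

theorem differentiable_of_smooth {f : (ι → ℝ) → ℝ} (hf : ContDiff ℝ (⊤ : ℕ∞) f) :
    Differentiable ℝ f :=
  hf.differentiable (by simp)

theorem pd_const (e : ι) (c : ℝ) : pd e (fun _ : ι → ℝ => c) = fun _ => 0 := by
  ext g
  simp [pd]

theorem pd_coord (e i : ι) :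
    pd e (fun g : ι → ℝ => g i) = fun _ => if i = e then 1 else 0 := by
  ext g
  have h : HasFDerivAt (fun g : ι → ℝ => g i)
      (ContinuousLinearMap.proj i : (ι → ℝ) →L[ℝ] ℝ) g := hasFDerivAt_apply i g
  simp [pd, h.fderiv, Pi.single_apply]

theorem pd_add_smooth {f h : (ι → ℝ) → ℝ} (e : ι) (hf : ContDiff ℝ (⊤ : ℕ∞) f)
    (hh : ContDiff ℝ (⊤ : ℕ∞) h) :
    pd e (fun g => f g + h g) = fun g => pd e f g + pd e h g := by
  ext g
  simp [pd, fderiv_fun_add (differentiable_of_smooth hf g) (differentiable_of_smooth hh g)]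

theorem pd_mul_smooth {f h : (ι → ℝ) → ℝ} (e : ι) (hf : ContDiff ℝ (⊤ : ℕ∞) f)
    (hh : ContDiff ℝ (⊤ : ℕ∞) h) :
    pd e (fun g => f g * h g) = fun g => pd e f g * h g + f g * pd e h g := by
  ext g
  simp [pd, fderiv_fun_mul (differentiable_of_smooth hf g) (differentiable_of_smooth hh g)]
  ring

theorem pd_const_mul_smooth {f : (ι → ℝ) → ℝ} (e : ι) (c : ℝ) (hf : ContDiff ℝ (⊤ : ℕ∞) f) :
    pd e (fun g => c * f g) = fun g => c * pd e f g := by
  rw [pd_mul_smooth e contDiff_const hf, pd_const]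
  simp

theorem pdL_zero (L : List ι) : pdL L (fun _ : ι → ℝ => (0 : ℝ)) = fun _ => 0 := by
  induction L with
  | nil => rfl
  | cons e L ih => simp only [pdL, pd_const, ih]

theorem pdL_add_smooth (L : List ι) : ∀ {f h : (ι → ℝ) → ℝ}, ContDiff ℝ (⊤ : ℕ∞) f →
    ContDiff ℝ (⊤ : ℕ∞) h →
    pdL L (fun g => f g + h g) = fun g => pdL L f g + pdL L h g := by
  induction L with
  | nil => intros; rfl
  | cons e L ih =>
    intro f h hf hh
    simp only [pdL]
    rw [pd_add_smooth e hf hh, ih (contDiff_pd e hf) (contDiff_pd e hh)]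

theorem pdL_const_mul_smooth (L : List ι) (c : ℝ) : ∀ {f : (ι → ℝ) → ℝ},
    ContDiff ℝ (⊤ : ℕ∞) f → pdL L (fun g => c * f g) = fun g => c * pdL L f g := by
  induction L with
  | nil => intros; rfl
  | cons e L ih =>
    intro f hf
    simp only [pdL]
    rw [pd_const_mul_smooth e c hf, ih (contDiff_pd e hf)]

theorem pdL_append (L M : List ι) (f : (ι → ℝ) → ℝ) : pdL (L ++ M) f = pdL M (pdL L f) := by
  induction L generalizing f with
  | nil => rfl
  | cons e L ih => simp only [List.cons_append, pdL, ih]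

theorem Tame.polyBd {f : (ι → ℝ) → ℝ} (hf : Tame f) (L : List ι) : PolyBd (P146.pdL L f) :=
  hf.2 L

theorem Tame.pd {f : (ι → ℝ) → ℝ} (e : ι) (hf : Tame f) : Tame (P146.pd e f) :=
  ⟨contDiff_pd e hf.1, fun L => hf.2 (e :: L)⟩

theorem Tame.pdL {f : (ι → ℝ) → ℝ} (L : List ι) (hf : Tame f) : Tame (P146.pdL L f) := by
  induction L generalizing f with
  | nil => exact hf
  | cons e L ih => exact ih (hf.pd e)

theorem Tame.const (c : ℝ) : Tame (fun _ : ι → ℝ => c) := by
  refine ⟨contDiff_const, fun L => ?_⟩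
  cases L with
  | nil => exact PolyBd.const c
  | cons e L => simp only [P146.pdL, pd_const, pdL_zero]; exact PolyBd.const 0

theorem Tame.coord (e : ι) : Tame (fun g : ι → ℝ => g e) := by
  refine ⟨contDiff_apply ℝ ℝ e, fun L => ?_⟩
  cases L with
  | nil =>
    refine ⟨1, 1, fun g => ?_⟩
    have := norm_le_pi_norm g e
    simp only [P146.pdL, Real.norm_eq_abs] at this ⊢
    linarith
  | cons i L =>
    simp only [P146.pdL, pd_coord]
    exact (Tame.const _).2 L

theorem Tame.add {f h : (ι → ℝ) → ℝ} (hf : Tame f) (hh : Tame h) :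
    Tame (fun g => f g + h g) := by
  refine ⟨hf.1.add hh.1, fun L => ?_⟩
  rw [pdL_add_smooth L hf.1 hh.1]
  exact PolyBd.add (hf.2 L) (hh.2 L)

theorem polyBd_pdL_mul : ∀ (m : ℕ) (L : List ι), L.length = m →
    ∀ f h : (ι → ℝ) → ℝ, Tame f → Tame h → PolyBd (P146.pdL L (fun g => f g * h g)) := by
  intro m
  induction m with
  | zero =>
    intro L hL f h hf hh
    rw [List.length_eq_zero_iff.1 hL]
    exact PolyBd.mul (hf.2 []) (hh.2 [])
  | succ m ih =>
    intro L hL f h hf hh
    cases L with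
    | nil => simp at hL
    | cons e L =>
      simp only [P146.pdL]
      rw [pd_mul_smooth e hf.1 hh.1, pdL_add_smooth L ((contDiff_pd e hf.1).mul hh.1)
        (hf.1.mul (contDiff_pd e hh.1))]
      exact PolyBd.add (ih L (by simpa using hL) _ _ (hf.pd e) hh)
        (ih L (by simpa using hL) _ _ hf (hh.pd e))

theorem Tame.mul {f h : (ι → ℝ) → ℝ} (hf : Tame f) (hh : Tame h) :
    Tame (fun g => f g * h g) :=
  ⟨hf.1.mul hh.1, fun L => polyBd_pdL_mul L.length L rfl f h hf hh⟩

theorem Tame.const_mul {f : (ι → ℝ) → ℝ} (c : ℝ) (hf : Tame f) :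
    Tame (fun g => c * f g) := (Tame.const c).mul hf

theorem Tame.sub {f h : (ι → ℝ) → ℝ} (hf : Tame f) (hh : Tame h) :
    Tame (fun g => f g - h g) := by
  simpa [sub_eq_add_neg] using hf.add (hh.const_mul (-1))

theorem Tame.pow {f : (ι → ℝ) → ℝ} (hf : Tame f) (k : ℕ) : Tame (fun g => f g ^ k) := by
  induction k with
  | zero => simpa using Tame.const (ι := ι) 1
  | succ k ih => simpa [pow_succ] using ih.mul hf

theorem Tame.sum {α : Type*} (s : Finset α) {f : α → (ι → ℝ) → ℝ}
    (hf : ∀ a ∈ s, Tame (f a)) : Tame (fun g => ∑ a ∈ s, f a g) := by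
  induction s using Finset.cons_induction with
  | empty => simpa using Tame.const (ι := ι) 0
  | cons a s ha ih =>
    simp only [Finset.sum_cons]
    exact (hf a (Finset.mem_cons_self _ _)).add (ih fun b hb => hf b (Finset.mem_cons.2 (Or.inr hb)))

theorem Tame.prod {α : Type*} (s : Finset α) {f : α → (ι → ℝ) → ℝ}
    (hf : ∀ a ∈ s, Tame (f a)) : Tame (fun g => ∏ a ∈ s, f a g) := by
  induction s using Finset.cons_induction with
  | empty => simpa using Tame.const (ι := ι) 1
  | cons a s ha ih =>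
    simp only [Finset.prod_cons]
    exact (hf a (Finset.mem_cons_self _ _)).mul (ih fun b hb => hf b (Finset.mem_cons.2 (Or.inr hb)))

theorem Tame.listProd {α : Type*} (s : List α) {f : α → (ι → ℝ) → ℝ}
    (hf : ∀ a ∈ s, Tame (f a)) : Tame (fun g => (s.map fun a => f a g).prod) := by
  induction s with
  | nil => simpa using Tame.const (ι := ι) 1
  | cons a s ih =>
    simp only [List.map_cons, List.prod_cons]
    exact (hf a (List.mem_cons_self ..)).mul (ih fun b hb => hf b (List.mem_cons_of_mem _ hb))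

/-- A function with bounded derivatives of all orders and at most linear growth is tame. -/
theorem tame_of_bounds {f : (ι → ℝ) → ℝ} (hf : ContDiff ℝ (⊤ : ℕ∞) f)
    (h0 : ∃ (C : ℝ) (p : ℕ), ∀ g, |f g| ≤ C * (1 + ‖g‖) ^ p)
    (h1 : ∀ L : List ι, L ≠ [] → ∃ C : ℝ, ∀ g, |P146.pdL L f g| ≤ C) : Tame f := by
  refine ⟨hf, fun L => ?_⟩
  by_cases hL : L = []
  · subst hL; exact h0
  · obtain ⟨C, hC⟩ := h1 L hL
    exact ⟨C, 0, fun g => by simpa using hC g⟩

theorem pd_add {f h : (ι → ℝ) → ℝ} (e : ι) (hf : Tame f) (hh : Tame h) :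
    pd e (fun g => f g + h g) = fun g => pd e f g + pd e h g := pd_add_smooth e hf.1 hh.1

theorem pd_sub {f h : (ι → ℝ) → ℝ} (e : ι) (hf : Tame f) (hh : Tame h) :
    pd e (fun g => f g - h g) = fun g => pd e f g - pd e h g := by
  ext g
  simp [P146.pd, fderiv_fun_sub (differentiable_of_smooth hf.1 g) (differentiable_of_smooth hh.1 g)]

theorem pd_mul {f h : (ι → ℝ) → ℝ} (e : ι) (hf : Tame f) (hh : Tame h) :
    pd e (fun g => f g * h g) = fun g => pd e f g * h g + f g * pd e h g :=
  pd_mul_smooth e hf.1 hh.1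

theorem pd_const_mul {f : (ι → ℝ) → ℝ} (e : ι) (c : ℝ) (hf : Tame f) :
    pd e (fun g => c * f g) = fun g => c * pd e f g := pd_const_mul_smooth e c hf.1

theorem pd_sum {α : Type*} (s : Finset α) {f : α → (ι → ℝ) → ℝ} (e : ι)
    (hf : ∀ a ∈ s, Tame (f a)) :
    pd e (fun g => ∑ a ∈ s, f a g) = fun g => ∑ a ∈ s, pd e (f a) g := by
  ext g
  simp [P146.pd, fderiv_fun_sum fun a ha => differentiable_of_smooth (hf a ha).1 g]

theorem pd_comm {f : (ι → ℝ) → ℝ} (a b : ι) (hf : ContDiff ℝ (⊤ : ℕ∞) f) :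
    pd a (pd b f) = pd b (pd a f) := by
  ext g
  have hd : DifferentiableAt ℝ (fderiv ℝ f) g :=
    ((hf.fderiv_right (m := (⊤ : ℕ∞)) (by simp)).differentiable (by simp)) g
  have hsymm := (hf.contDiffAt (x := g)).isSymmSndFDerivAt (by simp; norm_cast)
  have e1 : ∀ i : ι, HasFDerivAt (pd i f)
      ((ContinuousLinearMap.apply ℝ ℝ (Pi.single i (1 : ℝ) : ι → ℝ)).comp
        (fderiv ℝ (fderiv ℝ f) g)) g :=
    fun i => (ContinuousLinearMap.apply ℝ ℝ (Pi.single i (1 : ℝ) : ι → ℝ)).hasFDerivAt.comp g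
      hd.hasFDerivAt
  simp only [P146.pd]
  change fderiv ℝ (pd b f) g _ = fderiv ℝ (pd a f) g _
  rw [(e1 b).fderiv, (e1 a).fderiv]
  exact hsymm _ _

theorem pdL_perm {f : (ι → ℝ) → ℝ} (hf : Tame f) {L M : List ι} (h : L.Perm M) :
    pdL L f = pdL M f := by
  induction h generalizing f with
  | nil => rfl
  | cons e _ ih => exact ih (hf.pd e)
  | swap a b l => simp only [P146.pdL]; rw [pd_comm a b hf.1]
  | trans _ _ ih1 ih2 => exact (ih1 hf).trans (ih2 hf)

end PdRules

section Gauss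

omit [DecidableEq ι] in
theorem integrable_one_add_norm_pow (p : ℕ) :
    Integrable (fun g : ι → ℝ => (1 + ‖g‖) ^ p) (gauss ι) := by
  have h1 : Integrable (fun x : ℝ => (1 + |x|) ^ p) (gaussianReal 0 1) := by
    have hx : MemLp (fun x : ℝ => (1 : ℝ) + |x|) (p : ENNReal) (gaussianReal 0 1) :=
      (memLp_const (1 : ℝ)).add (memLp_id_gaussianReal' (p : ENNReal) (by simp)).norm
    have h2 := hx.integrable_norm_pow'
    refine h2.congr (Filter.Eventually.of_forall fun x => ?_)
    simp [abs_of_nonneg (by positivity : (0 : ℝ) ≤ 1 + |x|)]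
  have hprod : Integrable (fun g : ι → ℝ => ∏ i, (1 + |g i|) ^ p) (gauss ι) :=
    Integrable.fintype_prod fun _ => h1
  refine hprod.mono' (by fun_prop) (Filter.Eventually.of_forall fun g => ?_)
  rw [Real.norm_of_nonneg (by positivity), Finset.prod_pow]
  refine pow_le_pow_left₀ (by positivity) ?_ p
  rcases isEmpty_or_nonempty ι with h | h
  · simp [Subsingleton.elim g 0]
  obtain ⟨i, -, hi⟩ := Finset.exists_max_image Finset.univ (fun i => |g i|) Finset.univ_nonempty
  have hn : ‖g‖ ≤ |g i| :=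
    (pi_norm_le_iff_of_nonneg (abs_nonneg _)).2 fun j => hi j (Finset.mem_univ j)
  refine (add_le_add_right hn 1).trans ?_
  classical
  rw [← Finset.mul_prod_erase Finset.univ (fun i => 1 + |g i|) (Finset.mem_univ i)]
  refine le_mul_of_one_le_right (by positivity) ?_
  calc (1 : ℝ) = ∏ _j ∈ Finset.univ.erase i, (1 : ℝ) := by simp
    _ ≤ _ := Finset.prod_le_prod (fun j _ => zero_le_one) (fun j _ => by simp)

omit [DecidableEq ι] in
theorem integrable_of_polyBd {f : (ι → ℝ) → ℝ} (hm : AEStronglyMeasurable f (gauss ι))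
    (hf : PolyBd f) : Integrable f (gauss ι) := by
  obtain ⟨C, p, h⟩ := hf
  exact ((integrable_one_add_norm_pow p).const_mul C).mono' hm
    (Filter.Eventually.of_forall fun g => h g)

theorem Tame.continuous {f : (ι → ℝ) → ℝ} (hf : Tame f) : Continuous f := hf.1.continuous

theorem Tame.integrable {f : (ι → ℝ) → ℝ} (hf : Tame f) : Integrable f (gauss ι) :=
  integrable_of_polyBd hf.continuous.aestronglyMeasurable (hf.2 [])

theorem Tame.memLp_two {f : (ι → ℝ) → ℝ} (hf : Tame f) : MemLp f 2 (gauss ι) :=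
  (memLp_two_iff_integrable_sq hf.continuous.aestronglyMeasurable).2 (hf.pow 2).integrable

instance instIsProbabilityGauss : IsProbabilityMeasure (gauss ι) := by
  unfold gauss; infer_instance

theorem measurePreserving_update (e : ι) :
    MeasurePreserving (fun z : ℝ × (ι → ℝ) => Function.update z.2 e z.1)
      ((gaussianReal 0 1).prod (gauss ι)) (gauss ι) := by
  have hm : Measurable (fun z : ℝ × (ι → ℝ) => Function.update z.2 e z.1) :=
    measurable_pi_lambda _ fun i => by
      by_cases h : i = e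
      · subst h; simpa using measurable_fst
      · simpa [Function.update_of_ne h] using
          (show Measurable fun z : ℝ × (ι → ℝ) => z.2 i by fun_prop)
  refine ⟨hm, ?_⟩
  symm
  refine Measure.pi_eq fun s hs => ?_
  rw [Measure.map_apply hm (MeasurableSet.univ_pi hs)]
  have hpre : (fun z : ℝ × (ι → ℝ) => Function.update z.2 e z.1) ⁻¹' Set.univ.pi s
      = s e ×ˢ Set.univ.pi (Function.update s e Set.univ) := by
    ext z
    simp only [Set.mem_preimage, Set.mem_univ_pi, Set.mem_prod]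
    constructor
    · intro h
      refine ⟨by simpa using h e, fun i => ?_⟩
      by_cases hi : i = e
      · subst hi; simp
      · simpa [hi] using h i
    · rintro ⟨h1, h2⟩ i
      by_cases hi : i = e
      · subst hi; simpa using h1
      · simpa [hi] using h2 i
  rw [hpre, Measure.prod_prod, gauss, Measure.pi_pi,
    ← Finset.mul_prod_erase Finset.univ (fun i => (gaussianReal 0 1) (s i)) (Finset.mem_univ e),
    ← Finset.mul_prod_erase Finset.univ
      (fun i => (gaussianReal 0 1) (Function.update s e Set.univ i)) (Finset.mem_univ e)]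
  simp only [Function.update_self, measure_univ, one_mul]
  congr 1
  exact Finset.prod_congr rfl fun i hi => by rw [Function.update_of_ne (Finset.ne_of_mem_erase hi)]

/-- One-dimensional Gaussian integration by parts. -/
theorem gauss_ibp_one {φ φ' : ℝ → ℝ} (hd : ∀ x, HasDerivAt φ (φ' x) x)
    (h0 : Integrable φ (gaussianReal 0 1)) (h1 : Integrable φ' (gaussianReal 0 1))
    (hx : Integrable (fun x => x * φ x) (gaussianReal 0 1)) :
    ∫ x, x * φ x ∂gaussianReal 0 1 = ∫ x, φ' x ∂gaussianReal 0 1 := by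
  set w := gaussianPDFReal 0 1 with hw
  have hwd : ∀ x, HasDerivAt w (-x * w x) x := fun x => by
    simp only [hw, gaussianPDFReal_def, NNReal.coe_one, mul_one, sub_zero]
    have := ((((hasDerivAt_id x).pow 2).neg.div_const 2).exp).const_mul
      ((Real.sqrt (2 * Real.pi))⁻¹)
    exact this.congr_deriv (by simp; ring)
  have htr : ∀ {u : ℝ → ℝ}, Integrable u (gaussianReal 0 1) → Integrable (fun x => w x * u x) := by
    intro u hu
    rw [gaussianReal_of_var_ne_zero _ one_ne_zero] at hu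
    rw [integrable_withDensity_iff_integrable_smul' (measurable_gaussianPDF _ _)
      (Filter.Eventually.of_forall fun _ => gaussianPDF_lt_top)] at hu
    simpa [hw, gaussianPDF, ENNReal.toReal_ofReal (gaussianPDFReal_nonneg _ _ _)] using hu
  have key := integral_mul_deriv_eq_deriv_mul_of_integrable (u := φ) (v := w) (u' := φ')
    (v' := fun x => -x * w x) (fun x _ => hd x) (fun x _ => hwd x)
    ((htr hx).neg.congr (Filter.Eventually.of_forall fun x => by simp; ring))
    ((htr h1).congr (Filter.Eventually.of_forall fun x => by simp; ring))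
    ((htr h0).congr (Filter.Eventually.of_forall fun x => by simp; ring))
  rw [integral_gaussianReal_eq_integral_smul one_ne_zero,
    integral_gaussianReal_eq_integral_smul one_ne_zero]
  simp only [smul_eq_mul, ← hw]
  have e1 : ∫ x, φ x * (-x * w x) = - ∫ x, w x * (x * φ x) := by
    rw [← integral_neg]
    exact integral_congr_ae (Filter.Eventually.of_forall fun x => by simp; ring)
  have e2 : ∫ x, φ' x * w x = ∫ x, w x * φ' x :=
    integral_congr_ae (Filter.Eventually.of_forall fun x => mul_comm _ _)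
  linarith

/-- Gaussian integration by parts. -/
theorem gauss_ibp {f : (ι → ℝ) → ℝ} (hf : Tame f) (e : ι) :
    ∫ g, g e * f g ∂gauss ι = ∫ g, pd e f g ∂gauss ι := by
  have hmp := measurePreserving_update (ι := ι) e
  have hgf : Tame fun g : ι → ℝ => g e * f g := (Tame.coord e).mul hf
  have hsplit : ∀ F : (ι → ℝ) → ℝ, Tame F →
      Integrable (fun z : ℝ × (ι → ℝ) => F (Function.update z.2 e z.1))
        ((gaussianReal 0 1).prod (gauss ι)) ∧
      ∫ g, F g ∂gauss ι
        = ∫ g, (∫ x, F (Function.update g e x) ∂gaussianReal 0 1) ∂gauss ι := by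
    intro F hF
    have hi : Integrable (fun z : ℝ × (ι → ℝ) => F (Function.update z.2 e z.1))
        ((gaussianReal 0 1).prod (gauss ι)) :=
      hmp.integrable_comp_of_integrable hF.integrable
    refine ⟨hi, ?_⟩
    conv_lhs => rw [← hmp.map_eq]
    rw [integral_map hmp.measurable.aemeasurable
        (by rw [hmp.map_eq]; exact hF.continuous.aestronglyMeasurable),
      integral_prod_symm _ hi]
  obtain ⟨i1, e1⟩ := hsplit _ hgf
  obtain ⟨i2, e2⟩ := hsplit _ (hf.pd e)
  obtain ⟨i0, -⟩ := hsplit _ hf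
  rw [e1, e2]
  refine integral_congr_ae ?_
  filter_upwards [i1.prod_left_ae, i2.prod_left_ae, i0.prod_left_ae] with g h1 h2 h0
  simp only [Function.update_self] at h1 ⊢
  refine gauss_ibp_one (φ := fun x => f (Function.update g e x)) (fun x => ?_) h0 h2 h1
  have hu : HasDerivAt (fun y : ℝ => Function.update g e y) (Pi.single e 1) x :=
    hasDerivAt_update g e x
  exact ((differentiable_of_smooth hf.1 _).hasFDerivAt).comp_hasDerivAt x hu

end Gauss

section Sign

/-- A signed relabelling of coordinates. -/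
noncomputable def signMap (p : ι ≃ ι) (s : ι → ℝ) (g : ι → ℝ) : ι → ℝ := fun e => s e * g (p e)

/-- `signMap` as a continuous linear map. -/
noncomputable def signCLM (p : ι ≃ ι) (s : ι → ℝ) : (ι → ℝ) →L[ℝ] (ι → ℝ) :=
  ContinuousLinearMap.pi fun e => s e • ContinuousLinearMap.proj (p e)

omit [DecidableEq ι] in
theorem signCLM_apply (p : ι ≃ ι) (s g : ι → ℝ) : signCLM p s g = P146.signMap p s g := by
  ext e; simp [signCLM, P146.signMap]

theorem contDiff_comp_signMap {f : (ι → ℝ) → ℝ} (hf : ContDiff ℝ (⊤ : ℕ∞) f) (p : ι ≃ ι)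
    (s : ι → ℝ) : ContDiff ℝ (⊤ : ℕ∞) (fun g => f (P146.signMap p s g)) := by
  have : (fun g => f (P146.signMap p s g)) = f ∘ signCLM p s := by
    ext g; simp [signCLM_apply]
  rw [this]
  exact hf.comp (signCLM p s).contDiff

theorem pd_signMap {f : (ι → ℝ) → ℝ} (hf : ContDiff ℝ (⊤ : ℕ∞) f) (p : ι ≃ ι) (s : ι → ℝ)
    (i : ι) :
    pd (p i) (fun g => f (P146.signMap p s g)) = fun g => s i * pd i f (P146.signMap p s g) := by
  ext g
  have h := (differentiable_of_smooth hf (signCLM p s g)).hasFDerivAt.comp g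
    (signCLM p s).hasFDerivAt
  have he : f ∘ signCLM p s = fun g => f (P146.signMap p s g) := by
    ext g; simp [signCLM_apply]
  rw [he] at h
  have hs : signCLM p s (Pi.single (p i) 1) = s i • Pi.single i 1 := by
    ext j
    simp [signCLM, Pi.single_apply]
    split_ifs with h
    · rw [h]
    · rfl
  simp only [P146.pd, h.fderiv, ContinuousLinearMap.comp_apply, hs, map_smul, smul_eq_mul,
    signCLM_apply]

theorem pdL_signMap_smooth {f : (ι → ℝ) → ℝ} (hf : ContDiff ℝ (⊤ : ℕ∞) f) (p : ι ≃ ι)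
    (s : ι → ℝ) (L : List ι) (g : ι → ℝ) :
    P146.pdL (L.map p) (fun g => f (P146.signMap p s g)) g =
      (L.map s).prod * P146.pdL L f (P146.signMap p s g) := by
  induction L generalizing f with
  | nil => simp [P146.pdL]
  | cons i L ih =>
    simp only [List.map_cons, P146.pdL, List.prod_cons]
    rw [pd_signMap hf p s i,
      pdL_const_mul_smooth _ _ (contDiff_comp_signMap (contDiff_pd i hf) p s)]
    beta_reduce
    rw [ih (contDiff_pd i hf)]
    ring

theorem pdL_signMap {f : (ι → ℝ) → ℝ} (hf : Tame f) (p : ι ≃ ι) (s : ι → ℝ) (L : List ι)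
    (g : ι → ℝ) :
    P146.pdL (L.map p) (fun g => f (P146.signMap p s g)) g =
      (L.map s).prod * P146.pdL L f (P146.signMap p s g) :=
  pdL_signMap_smooth hf.1 p s L g

theorem Tame.signMap {f : (ι → ℝ) → ℝ} (hf : Tame f) (p : ι ≃ ι) (s : ι → ℝ) :
    Tame (fun g => f (P146.signMap p s g)) := by
  refine ⟨contDiff_comp_signMap hf.1 p s, fun L => ?_⟩
  obtain ⟨C, q, hC, h⟩ := PolyBd.nonneg_const (hf.2 (L.map p.symm))
  refine ⟨|((L.map p.symm).map s).prod| * (C * (1 + ‖s‖) ^ q), q, fun g => ?_⟩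
  have e : L = (L.map p.symm).map p := by simp [Function.comp_def]
  conv_lhs => rw [e]
  rw [pdL_signMap_smooth hf.1 p s, abs_mul, mul_assoc]
  refine mul_le_mul_of_nonneg_left ((h _).trans ?_) (abs_nonneg _)
  rw [mul_assoc, ← mul_pow]
  refine mul_le_mul_of_nonneg_left (pow_le_pow_left₀ (by positivity) ?_ q) hC
  have hb : ‖P146.signMap p s g‖ ≤ ‖s‖ * ‖g‖ :=
    (pi_norm_le_iff_of_nonneg (by positivity)).2 fun i => by
      simp only [P146.signMap, norm_mul]
      exact mul_le_mul (norm_le_pi_norm s i) (norm_le_pi_norm g _) (norm_nonneg _) (norm_nonneg _)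
  nlinarith [norm_nonneg s, norm_nonneg g]

theorem measurePreserving_signMap (p : ι ≃ ι) (s : ι → ℝ) (hs : ∀ e, s e = 1 ∨ s e = -1) :
    MeasurePreserving (P146.signMap p s) (gauss ι) (gauss ι) := by
  have hm : Measurable (P146.signMap p s) :=
    measurable_pi_lambda _ fun i => (measurable_pi_apply _).const_mul _
  refine ⟨hm, ?_⟩
  symm
  refine Measure.pi_eq fun t ht => ?_
  rw [Measure.map_apply hm (MeasurableSet.univ_pi ht)]
  have hpre : P146.signMap p s ⁻¹' Set.univ.pi t =
      Set.univ.pi fun i => (fun x => s (p.symm i) * x) ⁻¹' t (p.symm i) := by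
    ext g
    simp only [P146.signMap, Set.mem_preimage, Set.mem_univ_pi]
    exact ⟨fun h i => by simpa using h (p.symm i), fun h e => by simpa using h (p e)⟩
  rw [hpre, gauss, Measure.pi_pi]
  refine (Equiv.prod_comp p _).symm.trans (Finset.prod_congr rfl fun e _ => ?_)
  simp only [Equiv.symm_apply_apply]
  rw [← Measure.map_apply (measurable_const_mul _) (ht e), gaussianReal_map_const_mul]
  congr 2
  · simp
  · ext
    rcases hs e with h | h <;> simp [h]

theorem integral_signMap {f : (ι → ℝ) → ℝ} (hf : Tame f) (p : ι ≃ ι) (s : ι → ℝ)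
    (hs : ∀ e, s e = 1 ∨ s e = -1) :
    ∫ g, f (signMap p s g) ∂gauss ι = ∫ g, f g ∂gauss ι := by
  have hmp := measurePreserving_signMap p s hs
  conv_rhs => rw [← hmp.map_eq]
  rw [integral_map hmp.measurable.aemeasurable
    (by rw [hmp.map_eq]; exact hf.continuous.aestronglyMeasurable)]

end Sign

end Vale.Agent.P146
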