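import Vale.Agent.P146.Calc

/-!
Chebyshev matrices: algebra, derivative, bounds.
-/

namespace Vale.Agent.P146

open MeasureTheory ProbabilityTheory

variable {n : ℕ}

/-- A crude size of the matrix. -/
noncomputable def msize (g : Cfg n) : ℝ := 1 + Real.sqrt (∑ a, ∑ b, mat g a b ^ 2)

theorem dfac_comm (a b : Fin n) : dfac a b = dfac b a := by
  unfold dfac
  by_cases h : a = b
  · subst h; rfl
  · simp [h, Ne.symm h]

theorem mat_symm (g : Cfg n) (a b : Fin n) : mat g a b = mat g b a := by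
  simp only [mat, Matrix.of_apply]
  rw [dfac_comm a b, Sym2.eq_swap]

theorem mat_transpose (g : Cfg n) : (mat g).transpose = mat g := by
  ext a b; exact mat_symm g b a

theorem cheb_eq_aeval (X : Matrix (Fin n) (Fin n) ℝ) (m : ℕ) :
    cheb X m = Polynomial.aeval X (Polynomial.Chebyshev.S ℝ (m : ℤ)) := by
  induction m using Nat.twoStepInduction with
  | zero => simp [cheb]
  | one => simp [cheb]
  | more m h0 h1 =>
    rw [cheb, h0, h1, Nat.cast_add m 1, Nat.cast_add m 2]
    simp only [Nat.cast_one, Nat.cast_ofNat, Polynomial.Chebyshev.S_add_two, map_sub, map_mul,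
      Polynomial.aeval_X]

theorem cheb_commute (X : Matrix (Fin n) (Fin n) ℝ) (i j : ℕ) :
    cheb X i * cheb X j = cheb X j * cheb X i := by
  rw [cheb_eq_aeval, cheb_eq_aeval, ← map_mul, ← map_mul, mul_comm]

theorem cheb_transpose (g : Cfg n) (m : ℕ) :
    (cheb (mat g) m).transpose = cheb (mat g) m := by
  induction m using Nat.twoStepInduction with
  | zero => simp [cheb]
  | one => simp [cheb, mat_transpose]
  | more m h0 h1 =>
    have hc := cheb_commute (mat g) (m + 1) 1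
    simp only [cheb] at hc
    rw [cheb, Matrix.transpose_sub, Matrix.transpose_mul, h0, h1, mat_transpose, hc]

theorem uEnt_symm (m : ℕ) (a b : Fin n) (g : Cfg n) : uEnt m a b g = uEnt m b a g :=
  congrFun (congrFun (cheb_transpose g m) b) a

theorem uEnt_zero (a b : Fin n) (g : Cfg n) : uEnt 0 a b g = if a = b then 1 else 0 := by
  simp [uEnt, cheb, Matrix.one_apply]

theorem uEnt_one (a b : Fin n) (g : Cfg n) : uEnt 1 a b g = mat g a b := rfl

theorem trU_zero (hn : n ≠ 0) (g : Cfg n) : trU 0 g = 1 := by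
  have h : (n : ℝ) ≠ 0 := by exact_mod_cast hn
  simp [trU, uEnt_zero, h]

/-- `X U (m+1) = U (m+2) + U m`. -/
theorem mat_mul_uEnt (m : ℕ) (a b : Fin n) (g : Cfg n) :
    ∑ c, mat g a c * uEnt (m + 1) c b g = uEnt (m + 2) a b g + uEnt m a b g := by
  simp [uEnt, cheb, Matrix.mul_apply]

theorem mat_mul_uEnt_zero (a b : Fin n) (g : Cfg n) :
    ∑ c, mat g a c * uEnt 0 c b g = uEnt 1 a b g := by
  simp [uEnt_zero, uEnt_one]

theorem chebS_mul (i : ℕ) :
    ∀ j : ℤ, Polynomial.Chebyshev.S ℝ (i : ℤ) * Polynomial.Chebyshev.S ℝ j =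
      ∑ l ∈ Finset.range (i + 1), Polynomial.Chebyshev.S ℝ (j + (i : ℤ) - 2 * (l : ℤ)) := by
  induction i using Nat.twoStepInduction with
  | zero => intro j; simp
  | one =>
    intro j
    have h := Polynomial.Chebyshev.S_add_two ℝ (j - 1)
    rw [show j - 1 + 2 = j + 1 by ring, show j - 1 + 1 = j by ring] at h
    simp [Finset.sum_range_succ, show j + 1 - 2 = j - 1 by ring]
    rw [h]; ring
  | more i h0 h1 =>
    intro j
    have hX : ∀ k : ℤ, Polynomial.X * Polynomial.Chebyshev.S ℝ k =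
        Polynomial.Chebyshev.S ℝ (k + 1) + Polynomial.Chebyshev.S ℝ (k - 1) := by
      intro k
      have h := Polynomial.Chebyshev.S_add_two ℝ (k - 1)
      rw [show k - 1 + 2 = k + 1 by ring, show k - 1 + 1 = k by ring] at h
      rw [h]; ring
    rw [Nat.cast_add i 2, Nat.cast_ofNat, Polynomial.Chebyshev.S_add_two, sub_mul, mul_assoc]
    have h1' := h1 j
    rw [Nat.cast_add i 1, Nat.cast_one] at h1'
    rw [h1', h0, Finset.mul_sum]
    simp only [hX, Finset.sum_add_distrib]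
    rw [Finset.sum_range_succ _ (i + 2), Finset.sum_range_succ
      (fun l => Polynomial.Chebyshev.S ℝ (j + ((i : ℤ) + 1) - 2 * (l : ℤ) - 1)) (i + 1)]
    have ha : ∀ l : ℕ, j + ((i : ℤ) + 1) - 2 * (l : ℤ) + 1 = j + ((i : ℤ) + 2) - 2 * (l : ℤ) :=
      fun l => by ring
    have hb : ∀ l : ℕ, j + ((i : ℤ) + 1) - 2 * (l : ℤ) - 1 = j + (i : ℤ) - 2 * (l : ℤ) :=
      fun l => by ring
    simp only [ha, hb]
    push_cast
    rw [show j + ((i : ℤ) + 2) - 2 * ((i : ℤ) + 2) = j + (i : ℤ) - 2 * ((i : ℤ) + 1) by ring]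
    ring

theorem cheb_mul_of_le (X : Matrix (Fin n) (Fin n) ℝ) {i j : ℕ} (h : i ≤ j) :
    cheb X i * cheb X j = ∑ l ∈ Finset.range (i + 1), cheb X (i + j - 2 * l) := by
  rw [cheb_eq_aeval, cheb_eq_aeval, ← map_mul, chebS_mul, map_sum]
  refine Finset.sum_congr rfl fun l hl => ?_
  have hl' := Finset.mem_range.1 hl
  rw [cheb_eq_aeval, show ((i + j - 2 * l : ℕ) : ℤ) = (j : ℤ) + (i : ℤ) - 2 * (l : ℤ) by omega]

/-- The product rule `U i U j = ∑ U (i + j - 2 l)`. -/
theorem uEnt_mul (i j : ℕ) (a b : Fin n) (g : Cfg n) :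
    ∑ c, uEnt i a c g * uEnt j c b g =
      ∑ l ∈ Finset.range (min i j + 1), uEnt (i + j - 2 * l) a b g := by
  have h : cheb (mat g) i * cheb (mat g) j =
      ∑ l ∈ Finset.range (min i j + 1), cheb (mat g) (i + j - 2 * l) := by
    rcases le_total i j with h | h
    · rw [min_eq_left h, cheb_mul_of_le _ h]
    · rw [min_eq_right h, cheb_commute, cheb_mul_of_le _ h, add_comm i j]
  have h' := congrFun (congrFun h a) b
  simpa [uEnt, Matrix.mul_apply, Matrix.sum_apply] using h'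

theorem uEnt_one_eq (a b : Fin n) :
    P146.uEnt 1 a b = fun g : Cfg n => (dfac a b / Real.sqrt n) * g s(a, b) := by
  funext g; simp [P146.uEnt, cheb, mat]; ring

theorem uEnt_add_two_eq (m : ℕ) (a b : Fin n) :
    P146.uEnt (m + 2) a b =
      fun g : Cfg n => (∑ c, mat g a c * uEnt (m + 1) c b g) - uEnt m a b g := by
  funext g; rw [mat_mul_uEnt]; ring

theorem Tame.matEntry (a b : Fin n) : Tame (fun g : Cfg n => P146.mat g a b) := by
  have h : Tame (fun g : Cfg n => (dfac a b / Real.sqrt n) * g s(a, b)) :=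
    Tame.const_mul _ (Tame.coord _)
  rw [← uEnt_one_eq] at h
  exact h

theorem Tame.uEnt (m : ℕ) (a b : Fin n) : Tame (P146.uEnt m a b) := by
  revert a b
  induction m using Nat.twoStepInduction with
  | zero =>
    intro a b
    have h : P146.uEnt 0 a b = fun _ : Cfg n => if a = b then (1 : ℝ) else 0 :=
      funext fun g => uEnt_zero a b g
    rw [h]
    exact Tame.const _
  | one => intro a b; exact Tame.matEntry a b
  | more m h0 h1 =>
    intro a b
    rw [uEnt_add_two_eq]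
    exact Tame.sub (Tame.sum _ fun c _ => Tame.mul (Tame.matEntry a c) (h1 c b)) (h0 a b)

theorem Tame.trU (i : ℕ) : Tame (P146.trU (n := n) i) := by
  have h : P146.trU (n := n) i = fun g => (n : ℝ)⁻¹ * ∑ a, P146.uEnt i a a g := by
    funext g; simp only [P146.trU]; ring
  rw [h]
  exact Tame.const_mul _ (Tame.sum _ fun a _ => Tame.uEnt i a a)

/-- The derivative of a matrix entry. -/
theorem Dab_mat (a b c d : Fin n) (g : Cfg n) :
    Dab (c, d) (uEnt 1 a b) g =
      (if a = c ∧ d = b then 1 else 0) + (if a = d ∧ c = b then 1 else 0) := by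
  have hn : Real.sqrt (n : ℝ) ≠ 0 :=
    Real.sqrt_ne_zero'.2 (by exact_mod_cast a.pos)
  simp only [Dab, uEnt_one_eq, pd_const_mul _ _ (Tame.coord _), pd_coord]
  by_cases h : s(a, b) = s(c, d)
  · rcases Sym2.eq_iff.1 h with ⟨rfl, rfl⟩ | ⟨rfl, rfl⟩
    · by_cases hab : a = b
      · subst hab
        simp [dfac]
        field_simp
        rw [Real.sq_sqrt (by norm_num : (0 : ℝ) ≤ 2)]
        norm_num
      · simp [dfac, hab]
        field_simp
    · by_cases hab : a = b
      · subst hab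
        simp [dfac]
        field_simp
        rw [Real.sq_sqrt (by norm_num : (0 : ℝ) ≤ 2)]
        norm_num
      · simp [dfac, hab, Ne.symm hab]
        field_simp
  · rw [if_neg h]
    have h1 : ¬(a = c ∧ d = b) := fun e => h (by rw [e.1, e.2])
    have h2 : ¬(a = d ∧ c = b) := fun e => h (by rw [e.1, ← e.2, Sym2.eq_swap])
    simp [h1, h2]

/-- The derivative of a Chebyshev entry. -/
theorem Dab_uEnt (m : ℕ) (a b c d : Fin n) (g : Cfg n) :
    Dab (c, d) (uEnt m a b) g = ∑ i ∈ Finset.range m,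
      (uEnt i a c g * uEnt (m - 1 - i) d b g + uEnt i a d g * uEnt (m - 1 - i) c b g) := by
  revert a b
  induction m using Nat.twoStepInduction with
  | zero =>
    intro a b
    have h : P146.uEnt 0 a b = fun _ : Cfg n => if a = b then (1 : ℝ) else 0 :=
      funext fun g => uEnt_zero a b g
    simp [Dab, h, pd_const]
  | one =>
    intro a b
    rw [Dab_mat]
    simp [uEnt_zero]
    split_ifs <;> simp_all
  | more m h0 h1 =>
    intro a b
    set T : ℕ → ℕ → Fin n → ℝ := fun i j x =>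
      uEnt i x c g * uEnt j d b g + uEnt i x d g * uEnt j c b g with hT
    have hD : Dab (c, d) (uEnt (m + 2) a b) g =
        (∑ x, (Dab (c, d) (uEnt 1 a x) g * uEnt (m + 1) x b g +
          mat g a x * Dab (c, d) (uEnt (m + 1) x b) g)) - Dab (c, d) (uEnt m a b) g := by
      simp only [Dab]
      rw [uEnt_add_two_eq, pd_sub _
          (Tame.sum _ fun x _ => Tame.mul (Tame.matEntry a x) (Tame.uEnt (m + 1) x b))
          (Tame.uEnt m a b),
        pd_sum _ _ (fun x _ => Tame.mul (Tame.matEntry a x) (Tame.uEnt (m + 1) x b))]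
      simp only [pd_mul _ (Tame.matEntry _ _) (Tame.uEnt _ _ _)]
      rw [mul_sub, Finset.mul_sum]
      congr 1
      refine Finset.sum_congr rfl fun x _ => ?_
      rw [show P146.uEnt 1 a x = fun g : Cfg n => mat g a x from rfl]
      ring
    rw [hD]
    simp only [Dab_mat, h1, h0]
    change (∑ x, (_ + mat g a x * ∑ i ∈ Finset.range (m + 1), T i (m + 1 - 1 - i) x)) -
        ∑ i ∈ Finset.range m, T i (m - 1 - i) a =
      ∑ i ∈ Finset.range (m + 2), T i (m + 2 - 1 - i) a
    have hsum : ∀ i j : ℕ, ∑ x, mat g a x * T (i + 1) j x = T (i + 2) j a + T i j a := by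
      intro i j
      simp only [hT, mul_add, ← mul_assoc, Finset.sum_add_distrib, ← Finset.sum_mul,
        mat_mul_uEnt]
      ring
    have hsum0 : ∀ j : ℕ, ∑ x, mat g a x * T 0 j x = T 1 j a := by
      intro j
      simp only [hT, mul_add, ← mul_assoc, Finset.sum_add_distrib, ← Finset.sum_mul,
        mat_mul_uEnt_zero]
    have hfirst : ∑ x, ((if a = c ∧ d = x then 1 else 0) + (if a = d ∧ c = x then 1 else 0)) *
        uEnt (m + 1) x b g = T 0 (m + 1) a := by
      simp [hT, uEnt_zero, add_mul, Finset.sum_add_distrib, ite_and]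
    rw [Finset.sum_add_distrib, hfirst]
    simp only [Finset.mul_sum]
    rw [Finset.sum_comm, Finset.sum_range_succ' _ m]
    simp only [hsum, hsum0, Finset.sum_add_distrib]
    rw [Finset.sum_range_succ' _ (m + 1), Finset.sum_range_succ' _ m]
    have e1 : ∀ i : ℕ, m + 1 - 1 - (i + 1) = m - 1 - i := fun i => by omega
    have e2 : ∀ i : ℕ, m + 2 - 1 - (i + 1 + 1) = m - 1 - i := fun i => by omega
    simp only [e1, e2]
    norm_num
    ring

/-- The derivative of a normalised trace. -/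
theorem Dab_trU (i : ℕ) (c d : Fin n) (g : Cfg n) :
    Dab (c, d) (trU i) g =
      2 / (n : ℝ) * ∑ p ∈ Finset.range i, ∑ a, uEnt p c a g * uEnt (i - 1 - p) a d g := by
  have h : P146.trU (n := n) i = fun g => (n : ℝ)⁻¹ * ∑ a, P146.uEnt i a a g := by
    funext g; simp only [P146.trU]; ring
  have hD : Dab (c, d) (trU i) g = (n : ℝ)⁻¹ * ∑ a, Dab (c, d) (uEnt i a a) g := by
    simp only [Dab, h, pd_const_mul _ _ (Tame.sum _ fun a _ => Tame.uEnt i a a),
      pd_sum _ _ fun a _ => Tame.uEnt i a a]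
    simp only [Finset.mul_sum]
    exact Finset.sum_congr rfl fun a _ => by ring
  rw [hD]
  simp only [Dab_uEnt, Finset.sum_add_distrib]
  rw [Finset.sum_comm]
  conv_lhs => enter [2, 2]; rw [Finset.sum_comm]
  have e1 : ∀ p, ∑ a, uEnt p a c g * uEnt (i - 1 - p) d a g =
      ∑ a, uEnt p c a g * uEnt (i - 1 - p) a d g := fun p =>
    Finset.sum_congr rfl fun a _ => by rw [uEnt_symm p a c, uEnt_symm _ d a]
  have e2 : ∑ p ∈ Finset.range i, ∑ a, uEnt p a d g * uEnt (i - 1 - p) c a g =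
      ∑ p ∈ Finset.range i, ∑ a, uEnt p c a g * uEnt (i - 1 - p) a d g := by
    rw [← Finset.sum_range_reflect]
    refine Finset.sum_congr rfl fun p hp => ?_
    have := Finset.mem_range.1 hp
    rw [show i - 1 - (i - 1 - p) = p by omega]
    exact Finset.sum_congr rfl fun a _ => mul_comm _ _
  simp only [e1]
  rw [e2]
  ring

/-- A bound on the bilinear form of a matrix. -/
def BilinBd (A : Matrix (Fin n) (Fin n) ℝ) (M : ℝ) : Prop :=
  ∀ u v : Fin n → ℝ,
    |∑ a, ∑ b, u a * A a b * v b| ≤ M * Real.sqrt (∑ a, u a ^ 2) * Real.sqrt (∑ b, v b ^ 2)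

theorem abs_sum_mul_le {α : Type*} (s : Finset α) (x y : α → ℝ) :
    |∑ a ∈ s, x a * y a| ≤ Real.sqrt (∑ a ∈ s, x a ^ 2) * Real.sqrt (∑ a ∈ s, y a ^ 2) := by
  rw [← Real.sqrt_mul (Finset.sum_nonneg fun a _ => sq_nonneg (x a))]
  exact Real.abs_le_sqrt (Finset.sum_mul_sq_le_sq_mul_sq s x y)

theorem BilinBd.col {A : Matrix (Fin n) (Fin n) ℝ} {M : ℝ} (hM : 0 ≤ M) (h : BilinBd A M)
    (v : Fin n → ℝ) :
    Real.sqrt (∑ a, (∑ b, A a b * v b) ^ 2) ≤ M * Real.sqrt (∑ b, v b ^ 2) := by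
  set r := Real.sqrt (∑ a, (∑ b, A a b * v b) ^ 2) with hr
  have h' := h (fun a => ∑ b, A a b * v b) v
  have e : ∑ a, ∑ b, (∑ b', A a b' * v b') * A a b * v b = r * r := by
    rw [hr, Real.mul_self_sqrt (Finset.sum_nonneg fun a _ => sq_nonneg _)]
    refine Finset.sum_congr rfl fun a _ => ?_
    rw [sq, Finset.mul_sum Finset.univ _ (∑ b, A a b * v b)]
    exact Finset.sum_congr rfl fun b _ => mul_assoc _ _ _
  rw [e, abs_mul_self, ← hr, mul_right_comm] at h'
  rcases (Real.sqrt_nonneg _).eq_or_lt with h0 | h0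
  · rw [hr, ← h0]; positivity
  · exact le_of_mul_le_mul_right h' h0

theorem BilinBd.entry {A : Matrix (Fin n) (Fin n) ℝ} {M : ℝ} (h : BilinBd A M) (a b : Fin n) :
    |A a b| ≤ M := by
  have h' := h (fun x => if x = a then 1 else 0) (fun x => if x = b then 1 else 0)
  simpa [ite_mul, mul_ite, apply_ite (fun x : ℝ => x ^ 2)] using h'

theorem BilinBd.frob {A : Matrix (Fin n) (Fin n) ℝ} {M : ℝ} (hM : 0 ≤ M) (h : BilinBd A M) :
    ∑ a, ∑ b, A a b ^ 2 ≤ n * M ^ 2 := by
  rw [Finset.sum_comm]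
  calc ∑ b, ∑ a, A a b ^ 2 ≤ ∑ _b : Fin n, M ^ 2 := by
        refine Finset.sum_le_sum fun b _ => ?_
        have h' := h.col hM (fun x => if x = b then 1 else 0)
        simp [mul_ite, apply_ite (fun x : ℝ => x ^ 2)] at h'
        exact (Real.sqrt_le_iff.1 h').2
    _ = n * M ^ 2 := by simp

theorem bilinBd_one : BilinBd (1 : Matrix (Fin n) (Fin n) ℝ) 1 := by
  intro u v
  rw [one_mul]
  simpa [Matrix.one_apply, ite_mul, mul_ite] using abs_sum_mul_le Finset.univ u v

theorem bilinBd_frob (A : Matrix (Fin n) (Fin n) ℝ) :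
    BilinBd A (Real.sqrt (∑ a, ∑ b, A a b ^ 2)) := by
  intro u v
  have h := abs_sum_mul_le (Finset.univ ×ˢ Finset.univ) (fun p : Fin n × Fin n => A p.1 p.2)
    (fun p => u p.1 * v p.2)
  rw [Finset.sum_product, Finset.sum_product, Finset.sum_product] at h
  simp only [mul_pow, ← Finset.mul_sum, ← Finset.sum_mul] at h
  rw [Real.sqrt_mul (Finset.sum_nonneg fun a _ => sq_nonneg (u a)), ← mul_assoc] at h
  convert h using 1
  congr 1
  exact Finset.sum_congr rfl fun a _ => Finset.sum_congr rfl fun b _ => by ring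

theorem BilinBd.sub {A B : Matrix (Fin n) (Fin n) ℝ} {M N : ℝ} (hA : BilinBd A M)
    (hB : BilinBd B N) : BilinBd (A - B) (M + N) := by
  intro u v
  simp only [Matrix.sub_apply, mul_sub, sub_mul, Finset.sum_sub_distrib]
  rw [add_mul, add_mul]
  exact (abs_sub _ _).trans (add_le_add (hA u v) (hB u v))

theorem BilinBd.mul {A B : Matrix (Fin n) (Fin n) ℝ} {M N : ℝ} (hM : 0 ≤ M) (hN : 0 ≤ N)
    (hA : BilinBd A M) (hB : BilinBd B N) : BilinBd (A * B) (M * N) := by
  intro u v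
  have e : ∑ a, ∑ b, u a * (A * B) a b * v b = ∑ a, ∑ c, u a * A a c * ∑ b, B c b * v b := by
    refine Finset.sum_congr rfl fun a _ => ?_
    simp only [Matrix.mul_apply, Finset.mul_sum, Finset.sum_mul]
    rw [Finset.sum_comm]
    exact Finset.sum_congr rfl fun c _ => Finset.sum_congr rfl fun b _ => by ring
  rw [e]
  refine (hA u fun c => ∑ b, B c b * v b).trans ?_
  calc M * Real.sqrt (∑ a, u a ^ 2) * Real.sqrt (∑ c, (∑ b, B c b * v b) ^ 2)
      ≤ M * Real.sqrt (∑ a, u a ^ 2) * (N * Real.sqrt (∑ b, v b ^ 2)) :=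
        mul_le_mul_of_nonneg_left (hB.col hN v) (by positivity)
    _ = _ := by ring

theorem BilinBd.mono {A : Matrix (Fin n) (Fin n) ℝ} {M N : ℝ} (hA : BilinBd A M) (h : M ≤ N) :
    BilinBd A N := fun u v => (hA u v).trans (by gcongr)

theorem one_le_msize (g : Cfg n) : 1 ≤ msize g :=
  le_add_of_nonneg_right (Real.sqrt_nonneg _)

theorem bilinBd_cheb_crude (g : Cfg n) (m : ℕ) : BilinBd (cheb (mat g) m) (msize g ^ m) := by
  have h1 := one_le_msize g
  have h0 : 0 ≤ msize g := zero_le_one.trans h1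
  induction m using Nat.twoStepInduction with
  | zero => simpa [cheb] using bilinBd_one
  | one => exact (bilinBd_frob _).mono (by simp [msize, cheb])
  | more m ih0 ih1 =>
    rw [cheb]
    refine (((bilinBd_frob _).mul (Real.sqrt_nonneg _) (by positivity) ih1).sub ih0).mono ?_
    have hr : Real.sqrt (∑ a, ∑ b, mat g a b ^ 2) = msize g - 1 := by simp [msize]
    rw [hr, show msize g ^ (m + 2) = msize g ^ (m + 1) * msize g by ring]
    have : msize g ^ m ≤ msize g ^ (m + 1) := pow_le_pow_right₀ h1 (Nat.le_succ m)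
    nlinarith

theorem bilin_uEnt_crude (m : ℕ) (g : Cfg n) (u v : Fin n → ℝ) :
    |∑ a, ∑ b, u a * uEnt m a b g * v b| ≤
      msize g ^ m * Real.sqrt (∑ a, u a ^ 2) * Real.sqrt (∑ b, v b ^ 2) :=
  bilinBd_cheb_crude g m u v

theorem uEnt_crude (m : ℕ) (a b : Fin n) (g : Cfg n) : |uEnt m a b g| ≤ msize g ^ m :=
  (bilinBd_cheb_crude g m).entry a b

theorem trU_crude (i : ℕ) (g : Cfg n) : |trU i g| ≤ msize g ^ i := by
  have h0 : 0 ≤ msize g := zero_le_one.trans (one_le_msize g)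
  rw [trU, abs_div, Nat.abs_cast]
  refine div_le_of_le_mul₀ (Nat.cast_nonneg n) (by positivity) ?_
  calc |∑ a, uEnt i a a g| ≤ ∑ a, |uEnt i a a g| := Finset.abs_sum_le_sum_abs _ _
    _ ≤ ∑ _a : Fin n, msize g ^ i := Finset.sum_le_sum fun a _ => uEnt_crude i a a g
    _ = msize g ^ i * n := by simp [mul_comm]

/-- The scalar Chebyshev recursion. -/
def chebR (x : ℝ) : ℕ → ℝ
  | 0 => 1
  | 1 => x
  | m + 2 => x * chebR x (m + 1) - chebR x m

theorem chebR_invariant (x : ℝ) (m : ℕ) :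
    chebR x (m + 1) ^ 2 - x * chebR x (m + 1) * chebR x m + chebR x m ^ 2 = 1 := by
  induction m with
  | zero => simp [chebR]; ring
  | succ m ih => rw [chebR]; linear_combination ih

theorem abs_chebR_le {x δ : ℝ} (hδ : 0 ≤ δ) (hx : |x| ≤ 2 + δ) (K : ℕ)
    (hK : 2 * (2 * (K : ℝ) + 2) ^ 2 * δ ≤ 1) {m : ℕ} (hm : m ≤ 2 * K) :
    |chebR x m| ≤ 2 * (m + 1) := by
  induction m with
  | zero => simp [chebR]
  | succ m ih =>
    have hy := ih (Nat.le_of_succ_le hm)
    have hp : (m : ℝ) + 1 ≤ 2 * K := by exact_mod_cast hm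
    have hm0 : (0 : ℝ) ≤ m := Nat.cast_nonneg m
    set w := chebR x (m + 1) - x / 2 * chebR x m with hw
    have hx2 : x ^ 2 ≤ (2 + δ) ^ 2 := by rw [← sq_abs]; gcongr
    have hy2 : chebR x m ^ 2 ≤ (2 * ((m : ℝ) + 1)) ^ 2 := by rw [← sq_abs]; gcongr
    set e := δ + δ ^ 2 / 4 with he
    have he0 : 0 ≤ e := by positivity
    have hw2 : w ^ 2 ≤ (1 + e * (2 * ((m : ℝ) + 1)) ^ 2 / 2) ^ 2 := by
      have h1 : (x ^ 2 / 4 - 1) * chebR x m ^ 2 ≤ e * chebR x m ^ 2 := by
        refine mul_le_mul_of_nonneg_right ?_ (sq_nonneg _)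
        rw [he]; nlinarith
      have h2 : e * chebR x m ^ 2 ≤ e * (2 * ((m : ℝ) + 1)) ^ 2 :=
        mul_le_mul_of_nonneg_left hy2 he0
      have h3 : w ^ 2 = 1 + (x ^ 2 / 4 - 1) * chebR x m ^ 2 := by
        rw [hw]; linear_combination chebR_invariant x m
      nlinarith [sq_nonneg (e * (2 * ((m : ℝ) + 1)) ^ 2)]
    have hwabs := abs_le_of_sq_le_sq hw2 (by positivity)
    have hsplit : |chebR x (m + 1)| ≤ |w| + |x / 2 * chebR x m| := by
      have : chebR x (m + 1) = w + x / 2 * chebR x m := by rw [hw]; ring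
      rw [this]; exact abs_add_le _ _
    have hprod : |x / 2 * chebR x m| ≤ (2 + δ) / 2 * (2 * ((m : ℝ) + 1)) := by
      rw [abs_mul, abs_div, abs_two]
      gcongr
    have hd1 : δ * (2 * (K : ℝ)) ^ 2 ≤ 1 / 2 := by nlinarith
    have key : δ * ((m : ℝ) + 1) + 2 * e * ((m : ℝ) + 1) ^ 2 ≤ 1 := by
      have a1 : δ * ((m : ℝ) + 1) ≤ δ * (2 * K) := by gcongr
      have a2 : e * ((m : ℝ) + 1) ^ 2 ≤ e * (2 * (K : ℝ)) ^ 2 := by gcongr
      have a3 : δ ^ 2 * (2 * (K : ℝ)) ^ 2 ≤ δ * (1 / 2) := by nlinarith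
      rw [he] at a2 ⊢
      nlinarith
    push_cast
    nlinarith

/-- Spectral form of a bound on the Chebyshev matrices. -/
theorem bilinBd_cheb_of_quad {K : ℕ} {g : Cfg n}
    (hg : ∀ v : Fin n → ℝ,
      |quad g v| ≤ (2 + 1 / (2 * (2 * (K : ℝ) + 2) ^ 2)) * ∑ a, v a ^ 2)
    {m : ℕ} (hm : m ≤ 2 * K) :
    BilinBd (cheb (mat g) m) (2 * (m + 1)) := by
  have hA : (mat g).IsHermitian := by
    ext a b; simp [mat_symm g b a]
  set P : Matrix (Fin n) (Fin n) ℝ := (hA.eigenvectorUnitary : Matrix (Fin n) (Fin n) ℝ) with hP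
  set w : Fin n → ℝ := hA.eigenvalues with hwdef
  have hev : ∀ j a, ∑ b, mat g a b * P b j = w j * P a j := by
    intro j a
    have h := congrFun (hA.mulVec_eigenvectorBasis j) a
    simpa [hP, hwdef, Matrix.mulVec, dotProduct, Matrix.IsHermitian.eigenvectorUnitary_apply]
      using h
  have horth : P.transpose * P = 1 := by
    have h := Matrix.mem_unitaryGroup_iff'.1 hA.eigenvectorUnitary.2
    simpa [hP, Matrix.star_eq_conjTranspose] using h
  have horth' : P * P.transpose = 1 := mul_eq_one_comm.1 horth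
  have hcol : ∀ j, ∑ a, P a j ^ 2 = 1 := by
    intro j
    have h := congrFun (congrFun horth j) j
    simpa [Matrix.mul_apply, sq] using h
  set δ : ℝ := 1 / (2 * (2 * (K : ℝ) + 2) ^ 2) with hδ
  have hwb : ∀ j, |w j| ≤ 2 + δ := by
    intro j
    have h := hg fun a => P a j
    have e : quad g (fun a => P a j) = w j := by
      simp only [quad, mul_assoc, ← Finset.mul_sum, hev]
      calc ∑ a, P a j * (w j * P a j) = w j * ∑ a, P a j ^ 2 := by
            rw [Finset.mul_sum]; exact Finset.sum_congr rfl fun a _ => by ring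
        _ = w j := by rw [hcol, mul_one]
    rw [e, hcol, mul_one] at h
    exact h
  have hc : ∀ k, cheb (mat g) k * P = P * Matrix.diagonal fun j => chebR (w j) k := by
    intro k
    induction k using Nat.twoStepInduction with
    | zero => simp [cheb, chebR]
    | one =>
      ext a j
      rw [Matrix.mul_diagonal, Matrix.mul_apply]
      simp only [cheb, chebR, hev]
      ring
    | more k ih0 ih1 =>
      have hX : mat g * P = P * Matrix.diagonal w := by
        ext a j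
        rw [Matrix.mul_diagonal, Matrix.mul_apply, hev]
        ring
      rw [cheb, sub_mul, mul_assoc, ih1, ih0, ← mul_assoc, hX, mul_assoc,
        Matrix.diagonal_mul_diagonal, ← mul_sub, Matrix.diagonal_sub]
      rfl
  have hrep : cheb (mat g) m =
      P * Matrix.diagonal (fun j => chebR (w j) m) * P.transpose := by
    rw [← hc, mul_assoc, horth', mul_one]
  intro u v
  have e : ∀ x : Fin n → ℝ, ∑ j, (∑ a, x a * P a j) ^ 2 = ∑ a, x a ^ 2 := by
    intro x
    have h : ∀ a b, ∑ j, P a j * P b j = if a = b then 1 else 0 := by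
      intro a b
      have h := congrFun (congrFun horth' a) b
      simpa [Matrix.mul_apply, Matrix.one_apply] using h
    calc ∑ j, (∑ a, x a * P a j) ^ 2 = ∑ a, ∑ b, x a * x b * ∑ j, P a j * P b j := by
          have hj : ∀ j, (∑ a, x a * P a j) ^ 2 =
              ∑ a, ∑ b, x a * x b * (P a j * P b j) := fun j => by
            rw [sq, Finset.sum_mul_sum]
            exact Finset.sum_congr rfl fun a _ => Finset.sum_congr rfl fun b _ => by ring
          simp only [hj, Finset.mul_sum]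
          rw [Finset.sum_comm]
          exact Finset.sum_congr rfl fun a _ => Finset.sum_comm
      _ = ∑ a, x a ^ 2 := by simp [h, sq]
  have hform : ∑ a, ∑ b, u a * cheb (mat g) m a b * v b =
      ∑ j, chebR (w j) m * (∑ a, u a * P a j) * ∑ b, v b * P b j := by
    rw [hrep]
    simp only [Matrix.mul_apply (M := P * _), Matrix.mul_diagonal, Matrix.transpose_apply,
      Finset.mul_sum, Finset.sum_mul]
    rw [Finset.sum_comm (s := Finset.univ) (t := Finset.univ)]
    rw [Finset.sum_comm_cycle]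
    exact Finset.sum_congr rfl fun j _ => Finset.sum_congr rfl fun b _ =>
      Finset.sum_congr rfl fun a _ => by ring
  rw [hform]
  have hM : ∀ j, |chebR (w j) m| ≤ 2 * (m + 1) := fun j =>
    abs_chebR_le (by rw [hδ]; positivity) (hwb j) K (by rw [hδ]; field_simp; rfl) hm
  calc |∑ j, chebR (w j) m * (∑ a, u a * P a j) * ∑ b, v b * P b j|
      ≤ Real.sqrt (∑ j, (chebR (w j) m * ∑ a, u a * P a j) ^ 2) *
          Real.sqrt (∑ j, (∑ b, v b * P b j) ^ 2) := abs_sum_mul_le _ _ _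
    _ ≤ Real.sqrt ((2 * ((m : ℝ) + 1)) ^ 2 * ∑ a, u a ^ 2) * Real.sqrt (∑ b, v b ^ 2) := by
        rw [e v, ← e u, Finset.mul_sum]
        gcongr with j
        rw [mul_pow]
        refine mul_le_mul_of_nonneg_right ?_ (sq_nonneg _)
        rw [← sq_abs]
        gcongr
        exact hM j
    _ = 2 * ((m : ℝ) + 1) * Real.sqrt (∑ a, u a ^ 2) * Real.sqrt (∑ b, v b ^ 2) := by
        rw [Real.sqrt_mul (sq_nonneg _), Real.sqrt_sq (by positivity)]

theorem bilinBd_cheb_good {K : ℕ} {g : Cfg n} (hg : Good K g) {m : ℕ} (hm : m ≤ 2 * K) :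
    BilinBd (cheb (mat g) m) (2 * (m + 1)) :=
  bilinBd_cheb_of_quad hg.1 hm

/-- The bilinear bound from the norm half of `Good` alone. -/
theorem bilin_uEnt_le_of_quad {K : ℕ} {g : Cfg n}
    (hg : ∀ v : Fin n → ℝ,
      |quad g v| ≤ (2 + 1 / (2 * (2 * (K : ℝ) + 2) ^ 2)) * ∑ a, v a ^ 2)
    {m : ℕ} (hm : m ≤ 2 * K) (u v : Fin n → ℝ) :
    |∑ a, ∑ b, u a * uEnt m a b g * v b| ≤
      2 * (m + 1) * Real.sqrt (∑ a, u a ^ 2) * Real.sqrt (∑ b, v b ^ 2) :=
  bilinBd_cheb_of_quad hg hm u v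

/-- The Frobenius bound from the norm half of `Good` alone. -/
theorem frob_uEnt_le_of_quad {K : ℕ} {g : Cfg n}
    (hg : ∀ v : Fin n → ℝ,
      |quad g v| ≤ (2 + 1 / (2 * (2 * (K : ℝ) + 2) ^ 2)) * ∑ a, v a ^ 2)
    {m : ℕ} (hm : m ≤ 2 * K) :
    ∑ a, ∑ b, uEnt m a b g ^ 2 ≤ n * (2 * (m + 1) : ℝ) ^ 2 :=
  (bilinBd_cheb_of_quad hg hm).frob (by positivity)

/-- On the good event the Chebyshev matrices have norm `≤ 2 (m + 1)`. -/
theorem bilin_uEnt_le {K : ℕ} {g : Cfg n} (hg : Good K g) {m : ℕ} (hm : m ≤ 2 * K)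
    (u v : Fin n → ℝ) :
    |∑ a, ∑ b, u a * uEnt m a b g * v b| ≤
      2 * (m + 1) * Real.sqrt (∑ a, u a ^ 2) * Real.sqrt (∑ b, v b ^ 2) :=
  bilinBd_cheb_good hg hm u v

/-- On the good event `tr (U m U m) ≤ n (2 (m+1))^2`. -/
theorem frob_uEnt_le {K : ℕ} {g : Cfg n} (hg : Good K g) {m : ℕ} (hm : m ≤ 2 * K) :
    ∑ a, ∑ b, uEnt m a b g ^ 2 ≤ n * (2 * (m + 1) : ℝ) ^ 2 :=
  (bilinBd_cheb_good hg hm).frob (by positivity)

end Vale.Agent.P146
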