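import Vale.Agent.P146.Model

/-!
Walk systems and classes of multi-orders.
-/

namespace Vale.Agent.P146

variable {n : ℕ}

/-- The sites visited by a system of walks. -/
def sysVerts (ws : List (List (Fin n))) : Finset (Fin n) := ws.flatten.toFinset

/-- Number of edges minus number of sites. -/
def excess (ws : List (List (Fin n))) : ℕ := (sysEdges ws).length - (sysVerts ws).card

/-- `ws` is a system of nondegenerate walks with edge multiset `α`. -/
def SysOf (α : Edge n → ℕ) (ws : List (List (Fin n))) : Prop :=
  (∀ w ∈ ws, 2 ≤ w.length) ∧ ((sysEdges ws).map fun p => s(p.1, p.2)).Perm (multiList α)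

/-- Entangled multi-orders: few walks compared with the excess. -/
def Entangled (α : Edge n → ℕ) : Prop :=
  ∃ ws, SysOf α ws ∧ ws.length ≤ 2 * excess ws

/-- The edge multiplicities of the closed walk through a tuple. -/
def cycOrd {l : ℕ} (π : Fin (l + 1) → Fin n) (e : Edge n) : ℕ :=
  ((walkEdges (List.ofFn π ++ [π 0])).map fun p => s(p.1, p.2)).count e

/-- Multi-orders with a cycle sharing no site with the remaining edges. -/
def HasFreeCycle (α : Edge n → ℕ) : Prop :=
  ∃ (l : ℕ) (π : Fin (l + 2) → Fin n) (R : Edge n → ℕ),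
    Function.Injective π ∧ (∀ e, α e = R e + cycOrd π e) ∧ ∀ e, R e ≠ 0 → ∀ i, π i ∉ e

end Vale.Agent.P146
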