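import Vale.Agent.P146.ClaimMaps
import Vale.Agent.P146.Systems

/-!
Cutting walks at junction sites.
-/

namespace Vale.Agent.P146

variable {n : ℕ}

/-- The edges of a segment. -/
def segEdges (s : Fin n × List (Fin n) × Fin n) : List (Fin n × Fin n) :=
  walkEdges (s.1 :: (s.2.1 ++ [s.2.2]))

theorem walkEdges_append {V : Type*} (a y : V) (u t : List V) :
    walkEdges (a :: (u ++ y :: t)) = walkEdges (a :: (u ++ [y])) ++ walkEdges (y :: t) := by
  induction u generalizing a with
  | nil => simp [walkEdges]
  | cons z u ih => simp [walkEdges, ih]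

theorem walkEdges_map {V W : Type*} (f : V → W) (w : List V) :
    walkEdges (w.map f) = (walkEdges w).map fun p => (f p.1, f p.2) := by
  induction w with
  | nil => rfl
  | cons a t ih =>
    cases t with
    | nil => rfl
    | cons b t =>
      simp only [List.map_cons, walkEdges] at ih ⊢
      rw [ih]

theorem sysEdges_map {m : ℕ} (f : Fin n → Fin m) (ws : List (List (Fin n))) :
    sysEdges (ws.map fun w => w.map f) = (sysEdges ws).map fun p => (f p.1, f p.2) := by
  induction ws with
  | nil => rfl
  | cons w t ih =>
    simp only [sysEdges, List.map_cons, List.flatMap_cons, List.map_append, walkEdges_map] at ih ⊢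
    rw [ih]

theorem sysVerts_map (f : Fin n → Fin n) (ws : List (List (Fin n))) :
    sysVerts (ws.map fun w => w.map f) = (sysVerts ws).image f := by
  ext x
  simp [sysVerts]
  grind

theorem length_walkEdges {V : Type*} (a : V) (t : List V) :
    (walkEdges (a :: t)).length = t.length := by
  induction t generalizing a with
  | nil => rfl
  | cons b t ih => simp [walkEdges, ih]

theorem length_flatten_sys (ws : List (List (Fin n))) (hlen : ∀ w ∈ ws, 2 ≤ w.length) :
    ws.flatten.length = (sysEdges ws).length + ws.length := by
  induction ws with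
  | nil => rfl
  | cons w t ih =>
    have h := hlen w List.mem_cons_self
    have := ih fun v hv => hlen v (List.mem_cons_of_mem _ hv)
    cases w with
    | nil => simp at h
    | cons a u =>
      simp only [List.flatten_cons, List.length_append, sysEdges, List.flatMap_cons,
        List.length_cons, length_walkEdges] at *
      omega

theorem cut_walk (J : Finset (Fin n)) (t : List (Fin n)) (ht : t ≠ [])
    (hlast : t.getLast ht ∈ J) (a : Fin n) (ha : a ∈ J) (u : List (Fin n)) :
    ∃ segs : List (Fin n × List (Fin n) × Fin n),
      segs.flatMap segEdges = walkEdges (a :: (u ++ t)) ∧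
      segs.flatMap (fun s => s.2.1) = u ++ t.filter (fun x => decide (x ∉ J)) ∧
      segs.length = t.countP (fun x => decide (x ∈ J)) ∧
      ∀ s ∈ segs, s.1 ∈ J ∧ s.2.2 ∈ J := by
  induction t generalizing a u with
  | nil => exact absurd rfl ht
  | cons y t ih =>
    by_cases hy : y ∈ J
    · rcases eq_or_ne t [] with rfl | ht'
      · exact ⟨[(a, u, y)], by simp [segEdges], by simp [hy], by simp [hy], by simp [ha, hy]⟩
      · obtain ⟨segs, h1, h2, h3, h4⟩ := ih ht' (by rwa [List.getLast_cons ht'] at hlast) y hy []
        refine ⟨(a, u, y) :: segs, ?_, ?_, ?_, ?_⟩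
        · simp [h1, segEdges, walkEdges_append a y u t]
        · simp [h2, hy]
        · simp [h3, hy]
        · simpa [ha, hy] using h4
    · have ht' : t ≠ [] := by rintro rfl; exact hy hlast
      obtain ⟨segs, h1, h2, h3, h4⟩ :=
        ih ht' (by rwa [List.getLast_cons ht'] at hlast) a ha (u ++ [y])
      exact ⟨segs, by simp [h1], by simp [h2, hy], by simp [h3, hy], h4⟩

theorem cut_sys (J : Finset (Fin n)) (ws : List (List (Fin n)))
    (hlen : ∀ w ∈ ws, 2 ≤ w.length) (hhead : ∀ w ∈ ws, ∀ x ∈ w.head?, x ∈ J)
    (hlast : ∀ w ∈ ws, ∀ x ∈ w.getLast?, x ∈ J) :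
    ∃ segs : List (Fin n × List (Fin n) × Fin n),
      segs.flatMap segEdges = sysEdges ws ∧
      segs.flatMap (fun s => s.2.1) = ws.flatten.filter (fun x => decide (x ∉ J)) ∧
      segs.length + ws.length = ws.flatten.countP (fun x => decide (x ∈ J)) ∧
      ∀ s ∈ segs, s.1 ∈ J ∧ s.2.2 ∈ J := by
  induction ws with
  | nil => exact ⟨[], rfl, rfl, rfl, by simp⟩
  | cons w t ih =>
    obtain ⟨segs, h1, h2, h3, h4⟩ := ih (fun v hv => hlen v (List.mem_cons_of_mem _ hv))
      (fun v hv => hhead v (List.mem_cons_of_mem _ hv))
      (fun v hv => hlast v (List.mem_cons_of_mem _ hv))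
    match w, hlen w List.mem_cons_self, hhead w List.mem_cons_self, hlast w List.mem_cons_self with
    | a :: b :: u, _, hh, hl =>
      have ha : a ∈ J := hh a (by simp)
      have hb : (b :: u).getLast (by simp) ∈ J := hl _ (by
        rw [List.getLast?_cons_cons]; simp [List.getLast?_eq_some_getLast])
      obtain ⟨sg, g1, g2, g3, g4⟩ := cut_walk J (b :: u) (by simp) hb a ha []
      refine ⟨sg ++ segs, ?_, ?_, ?_, ?_⟩
      · simp [g1, h1, sysEdges]
      · rw [List.flatMap_append, g2, h2, List.flatten_cons, List.filter_append]; simp [ha, List.filter_cons]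
      · simp [g3, ha, List.countP_cons] at g3 h3 ⊢
        omega
      · intro s hs
        rcases List.mem_append.1 hs with h | h
        · exact g4 s h
        · exact h4 s h

/-- The site named by a symbol. -/
def symSite {h P : ℕ} (c : Fin h → Fin n) (us : Fin P → Fin n × List (Fin n)) :
    Fin h ⊕ (Fin P × Bool) → Fin n :=
  Sum.elim c fun x => cond x.2 (lastSite (us x.1).1 (us x.1).2) (us x.1).1

/-- Splitting segments into derivative bonds and interior paths. -/
theorem classify {h : ℕ} (c : Fin h → Fin n) (segs : List (Fin n × List (Fin n) × Fin n))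
    (hc : ∀ s ∈ segs, (∃ i, c i = s.1) ∧ ∃ j, c j = s.2.2) :
    ∃ (P : ℕ) (us : Fin P → Fin n × List (Fin n))
      (D : List ((Fin h ⊕ (Fin P × Bool)) × (Fin h ⊕ (Fin P × Bool)))),
      D.length = segs.length + P ∧ P ≤ segs.length ∧
      famSites us = segs.flatMap (fun s => s.2.1) ∧
      (segs.flatMap segEdges).Perm
        (D.map (fun p => (symSite c us p.1, symSite c us p.2)) ++ famEdges us id) := by
  induction segs with
  | nil => exact ⟨0, Fin.elim0, [], by simp, le_rfl, by simp [famSites], by simp [famEdges]⟩
  | cons s t ih =>
    obtain ⟨P, us, D, h1, h2, h3, h4⟩ := ih fun v hv => hc v (List.mem_cons_of_mem _ hv)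
    obtain ⟨a, m, b⟩ := s
    obtain ⟨⟨i, hi⟩, j, hj⟩ := hc _ List.mem_cons_self
    simp only at hi hj
    cases m with
    | nil =>
      refine ⟨P, us, (Sum.inl i, Sum.inl j) :: D, ?_, ?_, ?_, ?_⟩
      · simp [h1]; omega
      · simp; omega
      · simp [h3]
      · simpa [segEdges, walkEdges, symSite, hi, hj] using h4
    | cons x u =>
      let us' : Fin (P + 1) → Fin n × List (Fin n) := Fin.cons (x, u) us
      let sh : Fin h ⊕ (Fin P × Bool) → Fin h ⊕ (Fin (P + 1) × Bool) :=
        Sum.map id fun y => (y.1.succ, y.2)
      refine ⟨P + 1, us', (Sum.inl i, Sum.inr (0, false)) :: (Sum.inr (0, true), Sum.inl j) ::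
        D.map (fun p => (sh p.1, sh p.2)), ?_, ?_, ?_, ?_⟩
      · simp [h1]; omega
      · simp; omega
      · simp only [famSites] at h3
        simp [famSites, List.ofFn_succ, us', h3]
      · have hsh : ∀ y, symSite c us' (sh y) = symSite c us y := by
          rintro (y | ⟨y, e⟩) <;> simp [symSite, sh, us']
        have he : famEdges us' id = walkEdges (x :: u) ++ famEdges us id := by
          simp [famEdges, List.ofFn_succ, us']
        have hs : segEdges (a, x :: u, b) =
            (a, x) :: (walkEdges (x :: u) ++ [(lastSite x u, b)]) := by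
          simp only [segEdges, List.cons_append, walkEdges]
          congr 1
          have key : ∀ (l : List (Fin n)) (z : Fin n),
              walkEdges (z :: (l ++ [b])) = walkEdges (z :: l) ++ [(lastSite z l, b)] := by
            intro l
            induction l with
            | nil => intro z; simp [walkEdges, lastSite]
            | cons y l ih => intro z; simp [walkEdges, ih, lastSite]
          exact key u x
        simp only [List.flatMap_cons, hs, List.map_cons, List.map_map, Function.comp_def, hsh, he]
        simp only [symSite, Sum.elim_inl, Sum.elim_inr, cond_true, cond_false, us', Fin.cons_zero,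
          hi, hj]
        set W := walkEdges (x :: u)
        set E := List.map (fun p => (symSite c us p.1, symSite c us p.2)) D
        rw [List.cons_append, List.cons_append]
        refine List.Perm.cons _ ?_
        refine ((List.perm_append_comm.append (h4)).trans ?_)
        simp only [List.cons_append, List.nil_append]
        refine List.Perm.cons _ ?_
        rw [← List.append_assoc, ← List.append_assoc]
        exact List.perm_append_comm.append_right _

end Vale.Agent.P146
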