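import Vale.Agent.P146.Wick
import Vale.Agent.P146.ClaimSplit

/-!
The main claim: a coefficient of excess `e` is at most `Lam ^ e`.
-/

namespace Vale.Agent.P146

variable {n : ℕ}

theorem chat_list_perm {β : ℝ} {L M : List (Fin n × Fin n)} (h : L.Perm M) :
    chat β L = chat β M := by
  rw [chat, chat, DL_perm (Tame.fen β) h]

theorem chat_map_injOn (β : ℝ) (ws : List (List (Fin n))) (θ : Fin n → Fin n)
    (hθ : ((sysVerts ws).image θ).card = (sysVerts ws).card) :
    chat β (sysEdges (ws.map fun w => w.map θ)) = chat β (sysEdges ws) := by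
  obtain ⟨π, hπ⟩ := Equiv.Perm.exists_extending_pair
    (fun x : {x // x ∈ sysVerts ws} => (x : Fin n)) (fun x => θ x) Subtype.val_injective
    (fun x y h => Subtype.ext (Finset.card_image_iff.1 hθ x.2 y.2 h))
  have : ws.map (fun w => w.map θ) = ws.map fun w => w.map π := by
    refine List.map_congr_left fun w hw => List.map_congr_left fun x hx => ?_
    exact (hπ ⟨x, List.mem_toFinset.2 (List.mem_flatten.2 ⟨w, hw, hx⟩)⟩).symm
  rw [this, sysEdges_map, chat_perm]

theorem excess_facts (ws : List (List (Fin n))) (hlen : ∀ w ∈ ws, 2 ≤ w.length)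
    (hR : ws.length ≤ 2 * excess ws) (hne : ws ≠ []) :
    1 ≤ excess ws ∧ (sysVerts ws).card + excess ws = (sysEdges ws).length ∧
      1 ≤ (sysVerts ws).card := by
  have h1 : 1 ≤ ws.length := List.length_pos_iff.2 hne
  have h2 : 1 ≤ (sysVerts ws).card := by
    obtain ⟨w, hw⟩ := List.exists_mem_of_ne_nil ws hne
    have := hlen w hw
    obtain ⟨x, hx⟩ := List.exists_mem_of_ne_nil w (by intro h; simp [h] at this)
    exact Finset.card_pos.2 ⟨x, List.mem_toFinset.2 (List.mem_flatten.2 ⟨w, hw, hx⟩)⟩
  simp only [excess] at hR ⊢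
  omega

/-- The junction sites of a system: repeated sites and ends of walks. -/
theorem exists_junctions (ws : List (List (Fin n))) :
    ∃ J : Finset (Fin n), J ⊆ sysVerts ws ∧
      (∀ w ∈ ws, ∀ x ∈ w.head?, x ∈ J) ∧ (∀ w ∈ ws, ∀ x ∈ w.getLast?, x ∈ J) ∧
      (∀ x, x ∉ J → ws.flatten.count x ≤ 1) ∧
      J.card + (sysVerts ws).card ≤ ws.flatten.length + 2 * ws.length := by
  classical
  set S := sysVerts ws with hS
  refine ⟨S.filter (fun x => 2 ≤ ws.flatten.count x) ∪
    ((ws.filterMap List.head?).toFinset ∪ (ws.filterMap List.getLast?).toFinset), ?_, ?_, ?_, ?_, ?_⟩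
  · intro x hx
    simp only [Finset.mem_union, Finset.mem_filter, List.mem_toFinset, List.mem_filterMap] at hx
    rcases hx with h | ⟨w, hw, h⟩ | ⟨w, hw, h⟩
    · exact h.1
    · exact List.mem_toFinset.2 (List.mem_flatten.2 ⟨w, hw, List.mem_of_mem_head? h⟩)
    · exact List.mem_toFinset.2 (List.mem_flatten.2 ⟨w, hw, List.mem_of_mem_getLast? h⟩)
  · intro w hw x hx
    simp only [Finset.mem_union, List.mem_toFinset, List.mem_filterMap]
    exact Or.inr (Or.inl ⟨w, hw, hx⟩)
  · intro w hw x hx
    simp only [Finset.mem_union, List.mem_toFinset, List.mem_filterMap]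
    exact Or.inr (Or.inr ⟨w, hw, hx⟩)
  · intro x hx
    by_contra hc
    refine hx (Finset.mem_union_left _ (Finset.mem_filter.2 ⟨?_, by omega⟩))
    exact List.mem_toFinset.2 (List.count_pos_iff.1 (by omega))
  · have hsum : ∑ x ∈ S, ws.flatten.count x = ws.flatten.length :=
      List.sum_toFinset_count_eq_length _
    have hge : ∀ x ∈ S, 1 + (if 2 ≤ ws.flatten.count x then 1 else 0) ≤ ws.flatten.count x := by
      intro x hx
      have : 0 < ws.flatten.count x := List.count_pos_iff.2 (List.mem_toFinset.1 hx)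
      split_ifs <;> omega
    have h1 := Finset.sum_le_sum hge
    rw [hsum, Finset.sum_add_distrib, Finset.sum_const, smul_eq_mul, mul_one, Finset.sum_boole,
      Nat.cast_id] at h1
    have h2 := (List.toFinset_card_le (ws.filterMap List.head?)).trans (List.length_filterMap_le _ _)
    have h3 :=
      (List.toFinset_card_le (ws.filterMap List.getLast?)).trans (List.length_filterMap_le _ _)
    refine le_trans (Nat.add_le_add_right ((Finset.card_union_le _ _).trans
      (Nat.add_le_add_left ((Finset.card_union_le _ _).trans (Nat.add_le_add h2 h3)) _)) _) ?_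
    omega

/-- The sum over all relabellings of a system. -/
theorem sum_chat_map_le {β : ℝ} {K : ℕ} (hB : Big β n K) (ws : List (List (Fin n)))
    (hlen : ∀ w ∈ ws, 2 ≤ w.length) (hR : ws.length ≤ 2 * excess ws) (hne : ws ≠ [])
    (hk : (sysEdges ws).length ≤ K) :
    |∑ θ ∈ mapsOn (sysVerts ws), chat β ((sysEdges ws).map fun p => (θ p.1, θ p.2))| ≤
      3 * (n : ℝ) ^ (sysVerts ws).card * ((3 * (1 + β) * K) ^ 24) ^ excess ws := by
  obtain ⟨he, hVk, hV1⟩ := excess_facts ws hlen hR hne
  obtain ⟨J, hJS, hhead, hlast, hcount, hJ⟩ := exists_junctions ws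
  obtain ⟨segs, s1, s2, s3, s4⟩ := cut_sys J ws hlen hhead hlast
  set e := excess ws
  have hflat := length_flatten_sys ws hlen
  have hnod : (ws.flatten.filter fun x => decide (x ∉ J)).Nodup := by
    refine List.nodup_iff_count_le_one.2 fun x => ?_
    by_cases hx : x ∈ J
    · rw [List.count_eq_zero_of_not_mem (by simp [hx])]; omega
    · rw [List.count_filter (by simp [hx])]; exact hcount x hx
  have hIS : (ws.flatten.filter fun x => decide (x ∉ J)).toFinset = sysVerts ws \ J := by
    ext x
    simp [sysVerts]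
    grind
  have hint : (ws.flatten.filter fun x => decide (x ∉ J)).length =
      (sysVerts ws).card - J.card := by
    rw [← List.toFinset_card_of_nodup hnod, hIS, Finset.card_sdiff_of_subset hJS]
  have hsplit : ws.flatten.countP (fun x => decide (x ∈ J)) +
      (ws.flatten.filter fun x => decide (x ∉ J)).length = ws.flatten.length := by
    rw [← List.countP_eq_length_filter,
      List.length_eq_countP_add_countP (fun x => decide (x ∈ J)) (l := ws.flatten)]
    simp
  have hJle := Finset.card_le_card hJS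
  have hh1 : 1 ≤ J.card := by
    obtain ⟨w, hw⟩ := List.exists_mem_of_ne_nil ws hne
    have := hlen w hw
    match w, hhead w hw with
    | [], _ => simp at this
    | a :: _, h => exact Finset.card_pos.2 ⟨a, h a rfl⟩
  set h := J.card with hh
  let c : Fin h → Fin n := fun i => (J.equivFin.symm i : Fin n)
  have hc : ∀ s ∈ segs, (∃ i, c i = s.1) ∧ ∃ j, c j = s.2.2 := fun s hs =>
    ⟨⟨J.equivFin ⟨_, (s4 s hs).1⟩, by simp [c]⟩, ⟨J.equivFin ⟨_, (s4 s hs).2⟩, by simp [c]⟩⟩
  obtain ⟨P, us, D, d1, d2, d3, d4⟩ := classify c segs hc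
  rw [s2] at d3
  rw [s1] at d4
  -- the path lengths
  have hfam : (famSites us).length = P + ∑ p, (us p).2.length := by
    simp [famSites, List.length_flatten, List.map_ofFn, List.sum_ofFn, Finset.sum_add_distrib,
      add_comm]
  have hfamE : (famEdges us id).length = ∑ p, (us p).2.length := by
    simp [famEdges, List.length_flatten, List.map_ofFn, List.sum_ofFn, length_walkEdges]
  have hperm := d4.length_eq
  rw [List.length_append, List.length_map, hfamE] at hperm
  rw [d3, hint] at hfam
  have hr2 : 2 ≤ D.length := by omega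
  have hrK : D.length ≤ 2 * K := by omega
  have hPK : P ≤ K := by omega
  have hlK : ∑ p, (us p).2.length ≤ K := by omega
  have hexp : h + P + ∑ p, (us p).2.length = (sysVerts ws).card := by omega
  have hre : D.length ≤ 16 * e := by omega
  have hPe : P ≤ 8 * e := by omega
  have hrk : D.length ≤ K := by omega
  -- rewrite the sum
  have hI : (famSites us).toFinset = sysVerts ws \ J := by rw [d3, hIS]
  have hsum : ∑ θ ∈ mapsOn (sysVerts ws), chat β ((sysEdges ws).map fun p => (θ p.1, θ p.2)) =
      ∑ zc : Fin h → Fin n, ∑ z : Fin P × Bool → Fin n,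
        multiWalk (List.ofFn fun p => ((us p).2.length, z (p, false), z (p, true))) fun L =>
          chat β (List.ofFn (fun i => (Sum.elim zc z (D.get i).1, Sum.elim zc z (D.get i).2)) ++
            L) := by
    conv_lhs => rw [show sysVerts ws = J ∪ (sysVerts ws \ J) from
      (Finset.union_sdiff_of_subset hJS).symm]
    rw [sum_mapsOn_union Finset.disjoint_sdiff]
    have key : ∀ a b : Fin n → Fin n,
        chat β ((sysEdges ws).map fun p => (J.piecewise a b p.1, J.piecewise a b p.2)) =
          (fun z L => chat β (List.ofFn (fun i =>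
            (Sum.elim (fun i => a (c i)) z (D.get i).1, Sum.elim (fun i => a (c i)) z (D.get i).2))
              ++ L)) (famEnd us b) (famEdges us b) := by
      intro a b
      simp only
      refine chat_list_perm ((d4.map _).trans (List.Perm.of_eq ?_))
      rw [List.map_append, List.map_map]
      have hsym : ∀ y, J.piecewise a b (symSite c us y) =
          Sum.elim (fun i => a (c i)) (famEnd us b) y := by
        rintro (i | ⟨p, f⟩)
        · simp [symSite, c]
        · have hm : symSite c us (Sum.inr (p, f)) ∈ famSites us := by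
            simp only [symSite, Sum.elim_inr, famSites, List.mem_flatten, List.mem_ofFn]
            refine ⟨_, ⟨p, rfl⟩, ?_⟩
            cases f
            · exact List.mem_cons_self
            · exact lastSite_mem _ _
          have hn' : symSite c us (Sum.inr (p, f)) ∉ J := by
            have := List.mem_toFinset.2 hm
            rw [hI] at this
            exact (Finset.mem_sdiff.1 this).2
          rw [Finset.piecewise_eq_of_notMem _ _ _ hn']
          rfl
      congr 1
      · simp only [Function.comp_def, hsym]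
        conv_lhs => rw [← List.ofFn_get D]
        rw [List.map_ofFn]
        rfl
      · simp only [famEdges, List.map_flatten, List.map_ofFn]
        congr 1
        refine congrArg List.ofFn (funext fun p => ?_)
        simp only [Function.comp_apply, List.map_id, ← walkEdges_map]
        refine congrArg walkEdges (List.map_congr_left fun y hy => ?_)
        refine Finset.piecewise_eq_of_notMem _ _ _ ?_
        have hm : y ∈ (famSites us).toFinset := by
          simp only [List.mem_toFinset, famSites, List.mem_flatten, List.mem_ofFn]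
          exact ⟨_, ⟨p, rfl⟩, hy⟩
        rw [hI] at hm
        exact (Finset.mem_sdiff.1 hm).2
    simp only [key]
    rw [← hI]
    have hinner : ∀ a : Fin n → Fin n, ∑ b ∈ mapsOn (famSites us).toFinset,
        chat β (List.ofFn (fun i => (Sum.elim (fun i => a (c i)) (famEnd us b) (D.get i).1,
          Sum.elim (fun i => a (c i)) (famEnd us b) (D.get i).2)) ++ famEdges us b) =
        ∑ z : Fin P × Bool → Fin n,
          multiWalk (List.ofFn fun p => ((us p).2.length, z (p, false), z (p, true))) fun L =>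
            chat β (List.ofFn (fun i => (Sum.elim (fun i => a (c i)) z (D.get i).1,
              Sum.elim (fun i => a (c i)) z (D.get i).2)) ++ L) := fun a =>
      sum_mapsOn_fam us (d3 ▸ hnod) fun z L => chat β (List.ofFn (fun i =>
        (Sum.elim (fun i => a (c i)) z (D.get i).1, Sum.elim (fun i => a (c i)) z (D.get i).2)) ++ L)
    rw [Finset.sum_congr rfl fun a _ => hinner a]
    refine Finset.sum_nbij' (fun a i => a (c i))
      (fun zc x => if hx : x ∈ J then zc (J.equivFin ⟨x, hx⟩) else x) ?_ ?_ ?_ ?_ ?_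
    · intro a _; simp
    · intro zc _
      simp only [Finset.mem_coe, mem_mapsOn]
      intro x hx; simp [hx]
    · intro a ha
      simp only [Finset.mem_coe, mem_mapsOn] at ha
      funext x
      by_cases hx : x ∈ J
      · simp [hx, c]
      · simp [hx, ha x hx]
    · intro zc _
      funext i
      simp [c]
    · intro a _; rfl
  rw [hsum]
  refine (walk_T_bound hB hr2 hrK hPK (fun p => (us p).2.length) hlK D.get).trans ?_
  rw [hexp]
  have hβ : 0 ≤ β := hB.2.1
  have hK1 : (2 : ℝ) ≤ K := by exact_mod_cast hB.1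
  have hr' : (D.length : ℝ) ≤ K := by exact_mod_cast hrk
  set B := 3 * (1 + β) * (K : ℝ) with hBdef
  have hB1 : 1 ≤ B := by rw [hBdef]; nlinarith
  have h1 : (2 * β * (D.length : ℝ)) ^ D.length ≤ B ^ (16 * e) := by
    refine le_trans (pow_le_pow_left₀ (by positivity) ?_ _) (pow_le_pow_right₀ hB1 hre)
    rw [hBdef]; nlinarith
  have h2 : (2 * (K : ℝ) + 2) ^ P ≤ B ^ (8 * e) := by
    refine le_trans (pow_le_pow_left₀ (by positivity) ?_ _) (pow_le_pow_right₀ hB1 hPe)
    rw [hBdef]; nlinarith
  rw [← pow_mul, show 24 * e = 16 * e + 8 * e by ring, pow_add B, ← mul_assoc]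
  gcongr

theorem big_lam {β : ℝ} {K : ℕ} (hB : Big β n K) :
    8 * ((K : ℝ) * K * Lam β K) ≤ n ∧ 1 ≤ Lam β K := by
  obtain ⟨hK, hβ, hn⟩ := hB
  have hk : (2 : ℝ) ≤ K := by exact_mod_cast hK
  set x := 100000 * (1 + β) * (K : ℝ) with hx
  have hx1 : 1 ≤ x := by rw [hx]; nlinarith
  have hL1 : 1 ≤ Lam β K := one_le_pow₀ (by nlinarith)
  refine ⟨le_trans ?_ hn, hL1⟩
  have h1 : 8 * ((K : ℝ) * K) ≤ x ^ 2 := by
    rw [hx]
    have : 100000 * (K : ℝ) ≤ 100000 * (1 + β) * (K : ℝ) := by nlinarith
    nlinarith
  have h2 : Lam β K ≤ x ^ 24 := pow_le_pow_left₀ (by positivity) (by rw [hx]; nlinarith) 24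
  calc 8 * ((K : ℝ) * K * Lam β K) = 8 * ((K : ℝ) * K) * Lam β K := by ring
    _ ≤ x ^ 2 * x ^ 24 := mul_le_mul h1 h2 (by linarith) (by positivity)
    _ = x ^ 26 := by ring
    _ ≤ x ^ 60 := pow_le_pow_right₀ hx1 (by norm_num)

/-- A coefficient of excess `e` is at most `Lam ^ e` in the scale of the model. -/
theorem chat_le {β : ℝ} {K : ℕ} (hB : Big β n K) (ws : List (List (Fin n)))
    (hne : ws ≠ []) (hlen : ∀ w ∈ ws, 2 ≤ w.length) (hR : ws.length ≤ 2 * excess ws)
    (hk : (sysEdges ws).length ≤ K) :
    |chat β (sysEdges ws)| ≤ Lam β K ^ excess ws := by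
  obtain ⟨V, hV⟩ : ∃ V, (sysVerts ws).card = V := ⟨_, rfl⟩
  induction V using Nat.strong_induction_on generalizing ws with
  | _ V ih =>
  obtain ⟨he, hVk, hV1⟩ := excess_facts ws hlen hR hne
  obtain ⟨hbig, hL1⟩ := big_lam hB
  have hn0 : (0 : ℝ) < n := by nlinarith [show (2 : ℝ) ≤ K by exact_mod_cast hB.1]
  set e := excess ws
  set S := sysVerts ws
  set L := Lam β K
  set C := |chat β (sysEdges ws)|
  set T := ∑ θ ∈ mapsOn S, chat β ((sysEdges ws).map fun p => (θ p.1, θ p.2))
  set N := ∑ θ ∈ mapsOn S, colWgt L S θ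
  have hT : |T| ≤ 3 * (n : ℝ) ^ S.card * ((3 * (1 + β) * K) ^ 24) ^ e :=
    sum_chat_map_le hB ws hlen hR hne hk
  have hN : N * n ≤ 2 * S.card * K * L * (n : ℝ) ^ S.card :=
    sum_colWgt_le hL1 (by nlinarith [hn0]) S (by omega)
  have hNn : N ≤ (n : ℝ) ^ S.card / 4 := by
    have hs : (S.card : ℝ) ≤ K := by exact_mod_cast (by omega : S.card ≤ K)
    have : 2 * (S.card : ℝ) * K * L * (n : ℝ) ^ S.card ≤ (n : ℝ) / 4 * (n : ℝ) ^ S.card := by
      gcongr
      calc 2 * (S.card : ℝ) * K * L ≤ 2 * K * K * L := by gcongr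
        _ ≤ (n : ℝ) / 4 := by nlinarith
    rw [le_div_iff₀ (by norm_num : (0 : ℝ) < 4)]
    nlinarith [pow_pos hn0 S.card]
  -- compare each term with the injective ones
  have hterm : ∀ θ ∈ mapsOn S,
      |chat β (sysEdges ws) - chat β ((sysEdges ws).map fun p => (θ p.1, θ p.2))| ≤
        (C + L ^ e) * colWgt L S θ := by
    intro θ _
    have hcw : colWgt L S θ =
        if (S.image θ).card = S.card then 0 else L ^ (S.card - (S.image θ).card) := rfl
    rw [hcw, ← sysEdges_map]
    split_ifs with hinj
    · rw [chat_map_injOn β ws θ hinj]; simp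
    · have hlt : (S.image θ).card < S.card := lt_of_le_of_ne Finset.card_image_le hinj
      set ws' := ws.map fun w => w.map θ with hws'
      have hex : excess ws' = e + (S.card - (S.image θ).card) := by
        simp only [excess, hws', sysEdges_map, List.length_map, sysVerts_map, e, S] at *
        omega
      have hb := ih (S.image θ).card (by omega) ws' (by simpa [hws'] using hne)
        (by simpa [hws'] using hlen) (by rw [hex, List.length_map]; omega)
        (by rw [hws', sysEdges_map, List.length_map]; exact hk) (by rw [hws', sysVerts_map])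
      rw [hex, pow_add] at hb
      refine (abs_sub _ _).trans ?_
      have hp : 1 ≤ L ^ (S.card - (S.image θ).card) := one_le_pow₀ hL1
      nlinarith [abs_nonneg (chat β (sysEdges ws))]
  have hdiff : |(n : ℝ) ^ S.card * chat β (sysEdges ws) - T| ≤ (C + L ^ e) * N := by
    have hc : (n : ℝ) ^ S.card * chat β (sysEdges ws) =
        ∑ _θ ∈ mapsOn S, chat β (sysEdges ws) := by
      rw [Finset.sum_const, card_mapsOn, nsmul_eq_mul]; push_cast; ring
    rw [hc, ← Finset.sum_sub_distrib, Finset.mul_sum]
    exact (Finset.abs_sum_le_sum_abs _ _).trans (Finset.sum_le_sum hterm)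
  have hC : (n : ℝ) ^ S.card * C ≤ |T| + (C + L ^ e) * N := by
    have habs : (n : ℝ) ^ S.card * C = |(n : ℝ) ^ S.card * chat β (sysEdges ws)| := by
      rw [abs_mul, abs_of_nonneg (pow_nonneg hn0.le S.card)]
    have := abs_sub_abs_le_abs_sub ((n : ℝ) ^ S.card * chat β (sysEdges ws)) T
    linarith
  have hsmall : 12 * ((3 * (1 + β) * (K : ℝ)) ^ 24) ^ e ≤ L ^ e := by
    have hβ : 0 ≤ β := hB.2.1
    have hrat : 12 * (3 * (1 + β) * (K : ℝ)) ^ 24 ≤ L := by
      have : L = ((100 : ℝ) / 3) ^ 24 * (3 * (1 + β) * (K : ℝ)) ^ 24 := by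
        simp only [L, Lam]; rw [← mul_pow]; ring_nf
      rw [this]
      gcongr
      norm_num
    calc 12 * ((3 * (1 + β) * (K : ℝ)) ^ 24) ^ e
        ≤ (12 : ℝ) ^ e * ((3 * (1 + β) * (K : ℝ)) ^ 24) ^ e := by
          gcongr
          exact le_self_pow₀ (by norm_num) (by omega)
      _ = (12 * (3 * (1 + β) * (K : ℝ)) ^ 24) ^ e := by rw [mul_pow 12]
      _ ≤ L ^ e := pow_le_pow_left₀ (by positivity) hrat e
  have hC0 : 0 ≤ C := abs_nonneg _
  have hp := pow_pos hn0 S.card
  have hLe : 0 ≤ L ^ e := by positivity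
  have h1 : |T| ≤ (n : ℝ) ^ S.card * L ^ e / 4 := by
    refine hT.trans ?_
    nlinarith
  have h2 : (C + L ^ e) * N ≤ (C + L ^ e) * ((n : ℝ) ^ S.card / 4) := by gcongr
  nlinarith

end Vale.Agent.P146
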