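import Vale.Agent.P146.Walks

/-!
Sums over relabellings of a set of sites.
-/

namespace Vale.Agent.P146

variable {n : ℕ}

/-- The maps of `Fin n` that fix every site outside `S`. -/
def mapsOn (S : Finset (Fin n)) : Finset (Fin n → Fin n) :=
  Fintype.piFinset fun x => if x ∈ S then Finset.univ else {x}

theorem mem_mapsOn {S : Finset (Fin n)} {θ : Fin n → Fin n} :
    θ ∈ mapsOn S ↔ ∀ x, x ∉ S → θ x = x := by
  simp only [mapsOn, Fintype.mem_piFinset]
  refine forall_congr' fun x => ?_
  by_cases h : x ∈ S <;> simp [h]

theorem mapsOn_empty : mapsOn (∅ : Finset (Fin n)) = {id} := by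
  ext θ
  simp [mem_mapsOn, funext_iff]

theorem card_mapsOn (S : Finset (Fin n)) : (mapsOn S).card = n ^ S.card := by
  rw [mapsOn, Fintype.card_piFinset]
  simp only [apply_ite Finset.card, Finset.card_univ, Fintype.card_fin, Finset.card_singleton]
  simp [Finset.prod_ite_mem, Finset.prod_const]

theorem sum_mapsOn_union {M : Type*} [AddCommMonoid M] {S T : Finset (Fin n)} (hd : Disjoint S T)
    (F : (Fin n → Fin n) → M) :
    ∑ θ ∈ mapsOn (S ∪ T), F θ = ∑ a ∈ mapsOn S, ∑ b ∈ mapsOn T, F (S.piecewise a b) := by
  rw [← Finset.sum_product' (mapsOn S) (mapsOn T) fun a b => F (S.piecewise a b)]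
  refine Finset.sum_nbij' (fun θ => (S.piecewise θ id, T.piecewise θ id))
    (fun p => S.piecewise p.1 p.2) ?_ ?_ ?_ ?_ ?_
  · intro θ _
    simp only [Finset.mem_product, mem_mapsOn]
    exact ⟨fun x hx => by simp [hx], fun x hx => by simp [hx]⟩
  · intro p hp
    simp only [Finset.mem_product, mem_mapsOn] at hp ⊢
    intro x hx
    simp only [Finset.mem_union, not_or] at hx
    simp [hx.1, hp.2 x hx.2]
  · intro θ hθ
    simp only [mem_mapsOn] at hθ
    funext x
    by_cases hS : x ∈ S
    · simp [hS]
    · by_cases hT : x ∈ T
      · simp [hS, hT]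
      · simp [hS, hT, hθ x (by simp [hS, hT])]
  · intro p hp
    simp only [Finset.mem_product, mem_mapsOn] at hp
    refine Prod.ext (funext fun x => ?_) (funext fun x => ?_)
    · by_cases hS : x ∈ S
      · simp [hS]
      · simp [hS, hp.1 x hS]
    · by_cases hT : x ∈ T
      · simp [hT, Finset.disjoint_right.1 hd hT]
      · simp [hT, hp.2 x hT]
  · intro θ hθ
    simp only [mem_mapsOn] at hθ
    congr 1
    funext x
    by_cases hS : x ∈ S
    · simp [hS]
    · by_cases hT : x ∈ T
      · simp [hS, hT]
      · simp [hS, hT, hθ x (by simp [hS, hT])]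

theorem sum_mapsOn_singleton {M : Type*} [AddCommMonoid M] (x : Fin n)
    (F : (Fin n → Fin n) → M) :
    ∑ θ ∈ mapsOn {x}, F θ = ∑ v, F (Function.update id x v) := by
  refine Finset.sum_nbij' (fun θ => θ x) (fun v => Function.update id x v) ?_ ?_ ?_ ?_ ?_
  · intro θ _; simp
  · intro v _
    simp only [mem_mapsOn, Finset.mem_singleton]
    intro y hy
    simp [Function.update_of_ne hy]
  · intro θ hθ
    simp only [mem_mapsOn, Finset.mem_singleton] at hθ
    funext y
    by_cases hy : y = x
    · subst hy; simp
    · simp [Function.update_of_ne hy, hθ y hy]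
  · intro v _; simp
  · intro θ hθ
    simp only [mem_mapsOn, Finset.mem_singleton] at hθ
    congr 1
    funext y
    by_cases hy : y = x
    · subst hy; simp
    · simp [Function.update_of_ne hy, hθ y hy]

theorem sum_mapsOn_insert {M : Type*} [AddCommMonoid M] {S : Finset (Fin n)} {x : Fin n}
    (hx : x ∉ S) (F : (Fin n → Fin n) → M) :
    ∑ θ ∈ mapsOn (insert x S), F θ = ∑ a ∈ mapsOn S, ∑ v, F (Function.update a x v) := by
  rw [show insert x S = S ∪ {x} by ext y; simp [or_comm],
    sum_mapsOn_union (Finset.disjoint_singleton_right.2 hx)]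
  refine Finset.sum_congr rfl fun a ha => ?_
  rw [sum_mapsOn_singleton]
  refine Finset.sum_congr rfl fun v _ => ?_
  congr 1
  funext y
  by_cases hy : y = x
  · subst hy; simp [hx]
  · by_cases hS : y ∈ S
    · simp [Function.update_of_ne hy, hS]
    · simp [Function.update_of_ne hy, hS, (mem_mapsOn.1 ha) y hS]

/-- The collision weight: zero on injective maps, `x ^ (loss of sites)` otherwise. -/
def colWgt (x : ℝ) (S : Finset (Fin n)) (θ : Fin n → Fin n) : ℝ :=
  if (S.image θ).card = S.card then 0 else x ^ (S.card - (S.image θ).card)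

theorem colWgt_nonneg {x : ℝ} (hx : 0 ≤ x) (S : Finset (Fin n)) (θ : Fin n → Fin n) :
    0 ≤ colWgt x S θ := by
  unfold colWgt; split_ifs <;> positivity

/-- The total collision weight is small when `x` is small compared with `n`. -/
theorem sum_colWgt_le {x : ℝ} (hx : 1 ≤ x) {K : ℕ} (hn : 2 * ((K : ℝ) * K * x) ≤ n)
    (S : Finset (Fin n)) (hS : S.card ≤ K) :
    (∑ θ ∈ mapsOn S, colWgt x S θ) * n ≤ 2 * S.card * K * x * (n : ℝ) ^ S.card := by
  induction S using Finset.induction_on with
  | empty => simp [mapsOn_empty, colWgt]
  | @insert a S ha ih =>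
    have hcard := Finset.card_insert_of_notMem ha
    have hSK : S.card + 1 ≤ K := hcard ▸ hS
    have hx0 : 0 ≤ x := zero_le_one.trans hx
    specialize ih (by omega)
    have hstep : ∀ θ ∈ mapsOn S, ∑ v, colWgt x (insert a S) (Function.update θ a v) ≤
        colWgt x S θ * ((n : ℝ) + K * x) + (K : ℝ) * x := by
      intro θ _
      have hw := colWgt_nonneg hx0 S θ
      have key : ∀ v, colWgt x (insert a S) (Function.update θ a v) ≤
          colWgt x S θ + if v ∈ S.image θ then (colWgt x S θ + 1) * x else 0 := by
        intro v
        have him : (insert a S).image (Function.update θ a v) = insert v (S.image θ) := by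
          rw [Finset.image_insert, Function.update_self]
          congr 1
          exact Finset.image_congr fun y hy =>
            Function.update_of_ne (by intro e; subst e; exact ha hy) _ _
        have hle := Finset.card_image_le (s := S) (f := θ)
        unfold colWgt
        rw [him, hcard]
        by_cases hv : v ∈ S.image θ
        · rw [Finset.insert_eq_of_mem hv, if_neg (by omega), if_pos hv,
            show S.card + 1 - (S.image θ).card = S.card - (S.image θ).card + 1 by omega, pow_succ]
          split_ifs with h
          · rw [h, Nat.sub_self, pow_zero]; simp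
          · nlinarith [pow_nonneg hx0 (S.card - (S.image θ).card)]
        · rw [Finset.card_insert_of_notMem hv, if_neg hv,
            show S.card + 1 - ((S.image θ).card + 1) = S.card - (S.image θ).card by omega]
          simp
      refine (Finset.sum_le_sum fun v _ => key v).trans ?_
      rw [Finset.sum_add_distrib, Finset.sum_ite_mem, Finset.univ_inter, Finset.sum_const,
        Finset.sum_const, Finset.card_univ, Fintype.card_fin, nsmul_eq_mul, nsmul_eq_mul]
      have hk : ((S.image θ).card : ℝ) ≤ K := by
        exact_mod_cast (Finset.card_image_le.trans (by omega : S.card ≤ K))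
      have : ((S.image θ).card : ℝ) * ((colWgt x S θ + 1) * x) ≤
          (K : ℝ) * ((colWgt x S θ + 1) * x) := by gcongr
      nlinarith
    rw [sum_mapsOn_insert ha, hcard]
    have h := Finset.sum_le_sum hstep
    rw [Finset.sum_add_distrib, ← Finset.sum_mul, Finset.sum_const, card_mapsOn, nsmul_eq_mul]
      at h
    push_cast at h ⊢
    set N := ∑ θ ∈ mapsOn S, colWgt x S θ
    have hs : (S.card : ℝ) ≤ K := by exact_mod_cast (by omega : S.card ≤ K)
    have hn0 : (0 : ℝ) ≤ n := Nat.cast_nonneg n
    have hpow : (0 : ℝ) ≤ (n : ℝ) ^ S.card := by positivity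
    have hKx : 0 ≤ (K : ℝ) * x := by positivity
    calc (∑ θ ∈ mapsOn S, ∑ v, colWgt x (insert a S) (Function.update θ a v)) * (n : ℝ)
        ≤ (N * ((n : ℝ) + K * x) + (n : ℝ) ^ S.card * (K * x)) * n :=
          mul_le_mul_of_nonneg_right h hn0
      _ = N * n * ((n : ℝ) + K * x) + K * x * ((n : ℝ) ^ S.card * n) := by ring
      _ ≤ 2 * S.card * K * x * (n : ℝ) ^ S.card * ((n : ℝ) + K * x) +
            K * x * ((n : ℝ) ^ S.card * n) := by gcongr
      _ ≤ 2 * ((S.card : ℝ) + 1) * K * x * (n : ℝ) ^ (S.card + 1) := by
          rw [pow_succ]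
          have h1 : 2 * (S.card : ℝ) * (K * x) ≤ n :=
            le_trans (by nlinarith) hn
          nlinarith [mul_le_mul_of_nonneg_left h1 (mul_nonneg hKx hpow)]

theorem walkSum_sum {α : Type*} (s : Finset α) (l : ℕ) (a b : Fin n)
    (Φ : α → List (Fin n × Fin n) → ℝ) :
    walkSum l a b (fun L => ∑ i ∈ s, Φ i L) = ∑ i ∈ s, walkSum l a b (Φ i) := by
  induction l generalizing a Φ with
  | zero => simp only [walkSum]; split_ifs <;> simp
  | succ l ih => simp only [walkSum, ih]; exact Finset.sum_comm

/-- Last site of a nonempty path. -/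
def lastSite (x : Fin n) (t : List (Fin n)) : Fin n := (x :: t).getLast (List.cons_ne_nil x t)

theorem lastSite_mem (x : Fin n) (t : List (Fin n)) : lastSite x t ∈ x :: t :=
  List.getLast_mem _

theorem sum_mapsOn_path (t : List (Fin n)) (x : Fin n) (h : (x :: t).Nodup)
    (F : Fin n → Fin n → List (Fin n × Fin n) → ℝ) :
    ∑ θ ∈ mapsOn (x :: t).toFinset,
        F (θ x) (θ (lastSite x t)) (walkEdges ((x :: t).map θ)) =
      ∑ a, ∑ b, walkSum t.length a b (F a b) := by
  induction t generalizing x F with
  | nil =>
    simp only [List.toFinset_cons, List.toFinset_nil, insert_empty_eq, lastSite,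
      List.getLast_singleton, List.map_cons, List.map_nil, walkEdges, List.length_nil, walkSum]
    rw [sum_mapsOn_singleton]
    simp
  | cons y t ih =>
    obtain ⟨hx, ht⟩ := List.nodup_cons.1 h
    have hx' : x ∉ (y :: t).toFinset := by simpa using hx
    rw [List.toFinset_cons, sum_mapsOn_insert hx']
    have key : ∀ θ : Fin n → Fin n, ∀ v,
        F (Function.update θ x v x) (Function.update θ x v (lastSite x (y :: t)))
          (walkEdges ((x :: y :: t).map (Function.update θ x v))) =
        F v (θ (lastSite y t)) ((v, θ y) :: walkEdges ((y :: t).map θ)) := by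
      intro θ v
      have hl : lastSite x (y :: t) = lastSite y t := List.getLast_cons _
      have hne : ∀ z ∈ y :: t, Function.update θ x v z = θ z := fun z hz =>
        Function.update_of_ne (by intro e; subst e; exact hx hz) _ _
      rw [hl, hne _ (lastSite_mem y t), Function.update_self]
      congr 1
      have hm : (y :: t).map (Function.update θ x v) = (y :: t).map θ :=
        List.map_congr_left hne
      simp only [List.map_cons, Function.update_self] at hm ⊢
      simp only [walkEdges]
      rw [hne y List.mem_cons_self]
      simp only [List.cons.injEq] at hm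
      rw [hm.2]
    simp only [key]
    rw [ih y ht (fun c b L => ∑ v, F v b ((v, c) :: L))]
    simp only [List.length_cons, walkSum, walkSum_sum]
    rw [Finset.sum_comm (f := fun c b => ∑ v, walkSum t.length c b fun L => F v b ((v, c) :: L))]
    rw [Finset.sum_comm (s := (Finset.univ : Finset (Fin n))) (t := Finset.univ)
      (f := fun a b => ∑ c, walkSum t.length c b fun L => F a b ((a, c) :: L))]
    exact Finset.sum_congr rfl fun b _ => Finset.sum_comm

/-- Splitting a slot assignment into its first pair and the rest. -/
def slotSplit (P : ℕ) {α : Type*} :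
    (Fin (P + 1) × Bool → α) ≃ (α × α) × (Fin P × Bool → α) where
  toFun z := ((z (0, false), z (0, true)), fun x => z (x.1.succ, x.2))
  invFun w x := Fin.cases (cond x.2 w.1.2 w.1.1) (fun p => w.2 (p, x.2)) x.1
  left_inv z := by
    funext x
    obtain ⟨p, b⟩ := x
    induction p using Fin.cases with
    | zero => cases b <;> simp
    | succ p => simp
  right_inv w := by simp

/-- The sites of a family of paths. -/
def famSites {P : ℕ} (us : Fin P → Fin n × List (Fin n)) : List (Fin n) :=
  (List.ofFn fun p => (us p).1 :: (us p).2).flatten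

/-- The relabelled edges of a family of paths. -/
def famEdges {P : ℕ} (us : Fin P → Fin n × List (Fin n)) (θ : Fin n → Fin n) :
    List (Fin n × Fin n) :=
  (List.ofFn fun p => walkEdges (((us p).1 :: (us p).2).map θ)).flatten

/-- The relabelled end of a path. -/
def famEnd {P : ℕ} (us : Fin P → Fin n × List (Fin n)) (θ : Fin n → Fin n) (x : Fin P × Bool) :
    Fin n :=
  θ (cond x.2 (lastSite (us x.1).1 (us x.1).2) (us x.1).1)

theorem sum_mapsOn_fam {P : ℕ} (us : Fin P → Fin n × List (Fin n))
    (h : (famSites us).Nodup) (F : (Fin P × Bool → Fin n) → List (Fin n × Fin n) → ℝ) :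
    ∑ θ ∈ mapsOn (famSites us).toFinset, F (famEnd us θ) (famEdges us θ) =
      ∑ z : Fin P × Bool → Fin n,
        multiWalk (List.ofFn fun p => ((us p).2.length, z (p, false), z (p, true))) (F z) := by
  induction P with
  | zero =>
    simp [famSites, famEdges, mapsOn_empty, multiWalk,
      Subsingleton.elim (famEnd us id) default]
  | succ P ih =>
    set us' : Fin P → Fin n × List (Fin n) := fun p => us p.succ with hus'
    set x := (us 0).1
    set t := (us 0).2
    have hsites : famSites us = (x :: t) ++ famSites us' := by
      simp [famSites, List.ofFn_succ, hus', x, t]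
    rw [hsites] at h
    obtain ⟨h0, h1, hdis⟩ := List.nodup_append'.1 h
    have hd : Disjoint (x :: t).toFinset (famSites us').toFinset := by
      rw [List.disjoint_toFinset_iff_disjoint]; exact hdis
    rw [hsites, List.toFinset_append, sum_mapsOn_union hd]
    set S := (x :: t).toFinset with hS
    have hend : ∀ a b, famEnd us (S.piecewise a b) =
        (slotSplit P).symm ((a x, a (lastSite x t)), famEnd us' b) := by
      intro a b
      funext ⟨p, c⟩
      induction p using Fin.cases with
      | zero =>
        have : ∀ y ∈ x :: t, S.piecewise a b y = a y := fun y hy =>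
          Finset.piecewise_eq_of_mem _ _ _ (List.mem_toFinset.2 hy)
        cases c
        · simpa [famEnd, slotSplit, x] using this x List.mem_cons_self
        · simpa [famEnd, slotSplit, x, t] using this _ (lastSite_mem x t)
      | succ p =>
        have hmem : cond c (lastSite (us' p).1 (us' p).2) (us' p).1 ∈ famSites us' := by
          simp only [famSites, List.mem_flatten, List.mem_ofFn]
          refine ⟨_, ⟨p, rfl⟩, ?_⟩
          cases c
          · exact List.mem_cons_self
          · exact lastSite_mem _ _
        have hnot : cond c (lastSite (us' p).1 (us' p).2) (us' p).1 ∉ S := fun hm =>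
          Finset.disjoint_left.1 hd hm (List.mem_toFinset.2 hmem)
        simpa [famEnd, slotSplit, hus'] using Finset.piecewise_eq_of_notMem _ _ _ hnot
    have hedge : ∀ a b, famEdges us (S.piecewise a b) =
        walkEdges ((x :: t).map a) ++ famEdges us' b := by
      intro a b
      simp only [famEdges, List.ofFn_succ, List.flatten_cons]
      congr 1
      · exact congrArg walkEdges (List.map_congr_left fun y hy =>
          Finset.piecewise_eq_of_mem _ _ _ (List.mem_toFinset.2 hy))
      · congr 1
        refine congrArg List.ofFn (funext fun p => ?_)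
        refine congrArg walkEdges (List.map_congr_left fun y hy => ?_)
        refine Finset.piecewise_eq_of_notMem _ _ _ fun hm => ?_
        refine Finset.disjoint_left.1 hd hm (List.mem_toFinset.2 ?_)
        simp only [famSites, List.mem_flatten, List.mem_ofFn]
        exact ⟨_, ⟨p, rfl⟩, hy⟩
    simp only [hend, hedge]
    have hin : ∀ a : Fin n → Fin n, ∑ b ∈ mapsOn (famSites us').toFinset,
        F ((slotSplit P).symm ((a x, a (lastSite x t)), famEnd us' b))
          (walkEdges ((x :: t).map a) ++ famEdges us' b) =
        ∑ z' : Fin P × Bool → Fin n,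
          multiWalk (List.ofFn fun p => ((us' p).2.length, z' (p, false), z' (p, true))) fun L =>
            F ((slotSplit P).symm ((a x, a (lastSite x t)), z'))
              (walkEdges ((x :: t).map a) ++ L) := fun a =>
      ih us' h1 fun z' L => F ((slotSplit P).symm ((a x, a (lastSite x t)), z'))
        (walkEdges ((x :: t).map a) ++ L)
    rw [Finset.sum_congr rfl fun a _ => hin a]
    rw [hS, sum_mapsOn_path t x h0 fun u w M => ∑ z' : Fin P × Bool → Fin n,
      multiWalk (List.ofFn fun p => ((us' p).2.length, z' (p, false), z' (p, true))) fun L =>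
        F ((slotSplit P).symm ((u, w), z')) (M ++ L)]
    rw [← Equiv.sum_comp (slotSplit P).symm, Fintype.sum_prod_type, Fintype.sum_prod_type]
    refine Finset.sum_congr rfl fun u _ => Finset.sum_congr rfl fun w _ => ?_
    rw [walkSum_sum]
    refine Finset.sum_congr rfl fun z' _ => ?_
    rw [List.ofFn_succ, multiWalk]
    rfl

end Vale.Agent.P146
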