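import Vale.Agent.P146.CyclePath

/-!
Multigraphs with a free cycle.

A multi-order is `R` plus a cycle on sites not met by `R`. The path functional
`Y = ∑ ∂F ∏ g` over injective tuples has, at `R`, the coefficient of these multi-orders times
the number of free positions, up to the tuples meeting `R`. Bessel's inequality and the bound on
`E Y ^ 2` control the first part, a Schur test the second.
-/

namespace Vale.Agent.P146

open MeasureTheory

variable {n : ℕ}

namespace Cycle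

theorem big_nat {β : ℝ} {K : ℕ} (hB : Big β n K) : 256 * K ^ 7 ≤ n ∧ 6 * K * K ≤ n ∧ n ≠ 0 := by
  obtain ⟨h2, hβ, hbig⟩ := hB
  have hK : (2 : ℝ) ≤ K := by exact_mod_cast h2
  have h1 : (256 * (K : ℝ)) ^ 7 ≤ n := by
    have hle : 256 * (K : ℝ) ≤ 100000 * (1 + β) * K := by nlinarith
    refine le_trans (pow_le_pow_left₀ (by positivity) hle 7) (le_trans ?_ hbig)
    exact pow_le_pow_right₀ (by linarith) (by norm_num)
  have h1' : (256 * K) ^ 7 ≤ n := by exact_mod_cast h1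
  have h7 : 256 * K ^ 7 ≤ n := le_trans (by rw [mul_pow]; gcongr; norm_num) h1'
  have hKK : K * K ≤ K ^ 7 := by
    calc K * K = K ^ 2 := (sq K).symm
      _ ≤ K ^ 7 := Nat.pow_le_pow_right (by omega) (by norm_num)
  have hpos : 0 < K * K := Nat.mul_pos (by omega) (by omega)
  have hassoc : 6 * K * K = 6 * (K * K) := Nat.mul_assoc 6 K K
  exact ⟨h7, by omega, by omega⟩

/-- The contribution of one cycle length. -/
theorem length_total {β : ℝ} {K l : ℕ} (hB : Big β n K) (hl : l + 2 ≤ K) :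
    ∑ R ∈ ordUpTo (Edge n) (K - (l + 2)), ∑ π ∈ avoid R l,
        wgt (out R π ∅) * coefOf (Fen β) (out R π ∅) ^ 2 ≤
      949274 * β ^ 2 * (K : ℝ) ^ 12 * Real.sqrt n := by
  obtain ⟨h7, h6, hn⟩ := big_nat hB
  have hnpos : (0 : ℝ) < n := Nat.cast_pos.2 (Nat.pos_of_ne_zero hn)
  have hK : (2 : ℝ) ≤ K := by exact_mod_cast hB.1
  set N : ℝ := (n : ℝ) ^ (l + 2) / 2 with hN
  have hN0 : 0 < N := by positivity
  have hmem : ∀ R ∈ ordUpTo (Edge n) (K - (l + 2)), ∑ e, R e + (l + 2) ≤ K := by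
    intro R hR; have := mem_ordUpTo.1 hR; omega
  refine (Finset.sum_le_sum fun R hR =>
    avoid_sum_le hn β hN0 (avoid_ge h6 (hmem R hR))).trans ?_
  rw [← Finset.mul_sum]
  simp only [mul_add, Finset.sum_add_distrib]
  have hY := (bessel_upTo (tame_pathFun β n l) (K - (l + 2))).trans (pathFun_sq_le hB hl)
  have hE := err_total β hB.1 h7 hl
  have h2 : (0 : ℝ) ≤ 2 / N := by positivity
  refine (add_le_add (mul_le_mul_of_nonneg_left hY h2)
    (mul_le_mul_of_nonneg_left hE h2)).trans ?_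
  have e : 2 / N * (2 * β ^ 2 * (n : ℝ) ^ (l + 2) *
        (101 * ((K : ℝ) + 1) ^ 2 + 100000 * (K : ℝ) ^ 12 * Real.sqrt n)) +
      2 / N * (36864 * (K : ℝ) ^ 12 * β ^ 2 * (n : ℝ) ^ (l + 2)) =
      β ^ 2 * (808 * ((K : ℝ) + 1) ^ 2 + 800000 * (K : ℝ) ^ 12 * Real.sqrt n +
        147456 * (K : ℝ) ^ 12) := by
    rw [hN]; field_simp; ring
  rw [e]
  have hs : 1 ≤ Real.sqrt n := by
    rw [Real.one_le_sqrt]; exact_mod_cast Nat.pos_of_ne_zero hn
  have h12 : (K : ℝ) ^ 2 ≤ (K : ℝ) ^ 12 := pow_le_pow_right₀ (by linarith) (by norm_num)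
  have hA : (K : ℝ) ^ 12 ≤ (K : ℝ) ^ 12 * Real.sqrt n := le_mul_of_one_le_right (by positivity) hs
  calc β ^ 2 * (808 * ((K : ℝ) + 1) ^ 2 + 800000 * (K : ℝ) ^ 12 * Real.sqrt n +
        147456 * (K : ℝ) ^ 12)
      ≤ β ^ 2 * (949274 * (K : ℝ) ^ 12 * Real.sqrt n) := by
        refine mul_le_mul_of_nonneg_left ?_ (sq_nonneg β)
        nlinarith
    _ = _ := by ring

theorem sum_cycOrd {l : ℕ} {π : Fin (l + 2) → Fin n} (hπ : Function.Injective π) :
    ∑ e, cycOrd π e = l + 2 := by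
  simp only [cycOrd_eq hπ, Finset.sum_add_distrib, Finset.sum_ite_mem, Finset.univ_inter,
    Finset.sum_ite_eq', Finset.mem_univ, if_true, Finset.sum_const, smul_eq_mul, mul_one,
    card_pathSet hπ]

end Cycle

open Vale.Agent.P146.Cycle

open Classical in
theorem freeCycle_total {β : ℝ} {K : ℕ} (hB : Big β n K) :
    ∑ k ∈ Finset.Icc 1 K,
        ∑ α ∈ (orders (Edge n) k).filter (fun α => HasFreeCycle α),
          wgt α * coefOf (Fen β) α ^ 2 ≤
      100000 * (1 + β) ^ 4 * (K : ℝ) ^ 20 * Real.sqrt n := by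
  let I : Finset (Σ l : ℕ, Σ _ : Edge n → ℕ, Fin (l + 2) → Fin n) :=
    (Finset.range (K - 1)).sigma fun l =>
      (ordUpTo (Edge n) (K - (l + 2))).sigma fun R => avoid R l
  let F : (Σ l : ℕ, Σ _ : Edge n → ℕ, Fin (l + 2) → Fin n) → Edge n → ℕ :=
    fun p => out p.2.1 p.2.2 ∅
  let x : (Edge n → ℕ) → ℝ := fun α => wgt α * coefOf (Fen β) α ^ 2
  have hx : ∀ α, 0 ≤ x α := fun α => mul_nonneg (wgt_nonneg α) (sq_nonneg _)
  have hsub : (Finset.Icc 1 K).biUnion
      (fun k => (orders (Edge n) k).filter fun α => HasFreeCycle α) ⊆ I.image F := by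
    intro α hα
    obtain ⟨k, hk, hα'⟩ := Finset.mem_biUnion.1 hα
    obtain ⟨hord, l, π, R, hπ, heq, hav⟩ := Finset.mem_filter.1 hα'
    have hsum : ∑ e, R e + (l + 2) = k := by
      rw [← sum_cycOrd hπ, ← Finset.sum_add_distrib, ← mem_orders.1 hord]
      exact Finset.sum_congr rfl fun e _ => (heq e).symm
    have hkK := (Finset.mem_Icc.1 hk).2
    have hl1 : l < K - 1 := by omega
    have hR1 : ∑ e, R e ≤ K - (l + 2) := by omega
    refine Finset.mem_image.2 ⟨⟨l, R, π⟩, ?_, ?_⟩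
    · refine Finset.mem_sigma.2 ⟨Finset.mem_range.2 hl1, Finset.mem_sigma.2
        ⟨mem_ordUpTo.2 hR1, mem_avoid.2 ⟨hπ, fun i hi => ?_⟩⟩⟩
      obtain ⟨e, he, hie⟩ := mem_verts.1 hi
      exact hav e he i hie
    · funext e
      simp only [F]
      rw [out_apply, heq e, cycOrd_eq hπ, Finset.sdiff_empty, if_neg (Finset.notMem_empty e),
        Nat.sub_zero, add_assoc]
  have hbi : ∑ k ∈ Finset.Icc 1 K,
        ∑ α ∈ (orders (Edge n) k).filter (fun α => HasFreeCycle α), x α =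
      ∑ α ∈ (Finset.Icc 1 K).biUnion
        (fun k => (orders (Edge n) k).filter fun α => HasFreeCycle α), x α := by
    rw [Finset.sum_biUnion]
    intro i hi j hj hij
    exact (orders_disjoint _ hi hj hij).mono (Finset.filter_subset _ _) (Finset.filter_subset _ _)
  refine hbi.trans_le ?_
  refine (Finset.sum_le_sum_of_subset_of_nonneg hsub fun α _ _ => hx α).trans ?_
  refine (Finset.sum_image_le_of_nonneg fun α _ => hx α).trans ?_
  simp only [I, Finset.sum_sigma, x, F]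
  refine (Finset.sum_le_sum fun l hl => length_total hB
    (by have := Finset.mem_range.1 hl; omega)).trans ?_
  rw [Finset.sum_const, Finset.card_range, nsmul_eq_mul]
  have hK : (2 : ℝ) ≤ K := by exact_mod_cast hB.1
  have hK1 : ((K - 1 : ℕ) : ℝ) ≤ K := by exact_mod_cast Nat.sub_le K 1
  have hβ : β ^ 2 ≤ (1 + β) ^ 4 := by nlinarith [hB.2.1, sq_nonneg β]
  have h7 : (128 : ℝ) ≤ (K : ℝ) ^ 7 := by
    calc (128 : ℝ) = 2 ^ 7 := by norm_num
      _ ≤ _ := pow_le_pow_left₀ (by norm_num) hK 7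
  have hB0 : (0 : ℝ) ≤ (1 + β) ^ 4 * (K : ℝ) ^ 13 * Real.sqrt n := by
    have := hB.2.1; positivity
  calc ((K - 1 : ℕ) : ℝ) * (949274 * β ^ 2 * (K : ℝ) ^ 12 * Real.sqrt n)
      ≤ (K : ℝ) * (949274 * (1 + β) ^ 4 * (K : ℝ) ^ 12 * Real.sqrt n) := by gcongr
    _ = 949274 * ((1 + β) ^ 4 * (K : ℝ) ^ 13 * Real.sqrt n) := by ring
    _ ≤ (100000 * (K : ℝ) ^ 7) * ((1 + β) ^ 4 * (K : ℝ) ^ 13 * Real.sqrt n) :=
        mul_le_mul_of_nonneg_right (by linarith) hB0
    _ = _ := by ring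

end Vale.Agent.P146
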