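import Vale.Agent.P146.Interp

/-!
Coefficients of products with coordinates.
-/

namespace Vale.Agent.P146

open MeasureTheory ProbabilityTheory

namespace Cycle

attribute [local instance] Interp.isProb

variable {ι : Type*} [Fintype ι] [DecidableEq ι]

theorem mem_orders {k : ℕ} {α : ι → ℕ} : α ∈ orders ι k ↔ ∑ x, α x = k := by
  simp [orders, Finset.mem_piAntidiag]

/-- Multi-orders of total order at most `m`. -/
def ordUpTo (ι : Type*) [Fintype ι] [DecidableEq ι] (m : ℕ) : Finset (ι → ℕ) :=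
  (Finset.range (m + 1)).biUnion (orders ι)

theorem mem_ordUpTo {m : ℕ} {α : ι → ℕ} : α ∈ ordUpTo ι m ↔ ∑ x, α x ≤ m := by
  simp [ordUpTo, mem_orders]

theorem orders_disjoint (s : Set ℕ) : s.PairwiseDisjoint (orders ι) := by
  intro i _ j _ hij
  rw [Function.onFun, Finset.disjoint_left]
  intro α hi hj
  exact hij ((mem_orders.1 hi).symm.trans (mem_orders.1 hj))

theorem bessel_upTo {f : (ι → ℝ) → ℝ} (hf : Tame f) (m : ℕ) :
    ∑ α ∈ ordUpTo ι m, wgt α * coefOf f α ^ 2 ≤ ∫ g, f g ^ 2 ∂gauss ι := by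
  rw [ordUpTo, Finset.sum_biUnion (orders_disjoint _)]
  exact gauss_bessel hf m

omit [DecidableEq ι] in
theorem wgt_nonneg (α : ι → ℕ) : 0 ≤ wgt α := by unfold wgt; positivity

/-- All positive orders together are at most the energy. -/
theorem positive_total {f : (ι → ℝ) → ℝ} (hf : Tame f) (K : ℕ) :
    ∑ α ∈ (Finset.Icc 1 K).biUnion (orders ι), wgt α * coefOf f α ^ 2 ≤
      ∫ g, ∑ e, pd e f g ^ 2 ∂gauss ι := by
  rw [Finset.sum_biUnion (orders_disjoint _)]
  calc ∑ k ∈ Finset.Icc 1 K, Interp.part f k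
      = ∑ k ∈ Finset.range K, Interp.part f (k + 1) := by
        rw [← Finset.Ico_succ_right_eq_Icc, Finset.sum_Ico_eq_sum_range]
        simp [add_comm]
    _ ≤ ∑ k ∈ Finset.range K, ∑ e, Interp.part (pd e f) k := by
        refine Finset.sum_le_sum fun k _ => ?_
        rw [← Interp.part_succ hf k]
        exact le_mul_of_one_le_left (Interp.part_nonneg _ _) (by simp)
    _ = ∑ e, ∑ k ∈ Finset.range K, Interp.part (pd e f) k := Finset.sum_comm
    _ ≤ ∑ e, ∫ g, pd e f g ^ 2 ∂gauss ι := by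
        refine Finset.sum_le_sum fun e _ => le_trans ?_ (gauss_bessel (hf.pd e) K)
        exact Finset.sum_le_sum_of_subset_of_nonneg (by intro x; simp; omega)
          fun k _ _ => Interp.part_nonneg _ _
    _ = _ := by
        rw [integral_finsetSum]
        intro e _
        exact ((hf.pd e).pow 2).integrable

theorem pdL_sum {α : Type*} (s : Finset α) {f : α → (ι → ℝ) → ℝ} (L : List ι)
    (hf : ∀ a ∈ s, Tame (f a)) :
    pdL L (fun g => ∑ a ∈ s, f a g) = fun g => ∑ a ∈ s, pdL L (f a) g := by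
  induction L generalizing f with
  | nil => rfl
  | cons e L ih =>
    simp only [pdL]
    rw [pd_sum s e hf, ih fun a ha => (hf a ha).pd e]

theorem coef_sum {α : Type*} (s : Finset α) {f : α → (ι → ℝ) → ℝ} (γ : ι → ℕ)
    (hf : ∀ a ∈ s, Tame (f a)) :
    coefOf (fun g => ∑ a ∈ s, f a g) γ = ∑ a ∈ s, coefOf (f a) γ := by
  simp only [coefOf, pdL_sum s _ hf]
  exact integral_finsetSum s fun a ha => ((hf a ha).pdL _).integrable

theorem coef_zero (f : (ι → ℝ) → ℝ) : coefOf f 0 = ∫ g, f g ∂gauss ι := by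
  have h : multiList (0 : ι → ℕ) = [] := by simp [multiList]
  simp [coefOf, h, pdL]

theorem coef_one (γ : ι → ℕ) : coefOf (fun _ : ι → ℝ => (1 : ℝ)) γ = if γ = 0 then 1 else 0 := by
  split_ifs with h
  · subst h; rw [coef_zero]; simp
  · obtain ⟨e, he⟩ : ∃ e, γ e ≠ 0 := Function.ne_iff.1 h
    have hmem : e ∈ multiList γ := by
      rw [← List.count_pos_iff, Interp.count_multiList]; omega
    simp only [coefOf, pdL_perm (Tame.const 1) (List.perm_cons_erase hmem), pdL, pd_const,
      pdL_zero]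
    simp

theorem pdL_count {f : (ι → ℝ) → ℝ} (hf : Tame f) (L : List ι) :
    ∫ g, pdL L f g ∂gauss ι = coefOf f (fun x => L.count x) := by
  rw [coefOf, pdL_perm hf (show L.Perm (multiList fun x => L.count x) from
    List.perm_iff_count.2 fun x => (Interp.count_multiList (fun y => L.count y) x).symm)]

theorem pdL_coord_mul (x : ι) (L : List ι) : ∀ {f : (ι → ℝ) → ℝ}, Tame f →
    pdL L (fun g => g x * f g) =
      fun g => g x * pdL L f g + (L.count x : ℝ) * pdL (L.erase x) f g := by
  induction L with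
  | nil => intro f _; funext g; simp [pdL]
  | cons e L ih =>
    intro f hf
    simp only [pdL]
    rw [pd_mul e (Tame.coord x) hf, pd_coord]
    rcases eq_or_ne e x with rfl | hne
    · simp only [if_true, one_mul, List.count_cons_self, List.erase_cons_head]
      rw [pdL_add_smooth L hf.1 ((Tame.coord e).mul (hf.pd e)).1, ih (hf.pd e)]
      funext g
      by_cases hm : e ∈ L
      · have h := congrFun (pdL_perm hf (List.perm_cons_erase hm)) g
        simp only [pdL] at h
        show pdL L f g + (g e * pdL L (pd e f) g + _ * pdL (L.erase e) (pd e f) g) = _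
        rw [← h]; push_cast; ring
      · show pdL L f g + (g e * pdL L (pd e f) g + _ * pdL (L.erase e) (pd e f) g) = _
        rw [List.count_eq_zero.2 hm]; push_cast; ring
    · simp only [if_neg hne.symm, zero_mul, zero_add]
      rw [ih (hf.pd e), List.count_cons_of_ne hne,
        List.erase_cons_tail (by simpa using hne)]
      simp [pdL]

theorem coef_coord_mul {f : (ι → ℝ) → ℝ} (hf : Tame f) (x : ι) (R : ι → ℕ) :
    coefOf (fun g => g x * f g) R =
      coefOf f (R + Pi.single x 1) + (R x : ℝ) * coefOf f (R - Pi.single x 1) := by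
  unfold coefOf
  rw [pdL_coord_mul x _ hf, integral_add ((Tame.coord x).mul (hf.pdL _)).integrable
    ((hf.pdL _).const_mul _).integrable, integral_const_mul, gauss_ibp (hf.pdL _),
    Interp.count_multiList]
  have h1 : (multiList R ++ [x]).Perm (multiList (R + Pi.single x 1)) := by
    rw [List.perm_iff_count]
    intro y
    rw [List.count_append, Interp.count_multiList, Interp.count_multiList]
    rcases eq_or_ne y x with rfl | hne
    · simp
    · simp [hne, List.count_cons, Ne.symm hne]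
  have h2 : ((multiList R).erase x).Perm (multiList (R - Pi.single x 1)) := by
    rw [List.perm_iff_count]
    intro y
    rw [List.count_erase, Interp.count_multiList, Interp.count_multiList]
    rcases eq_or_ne y x with rfl | hne
    · simp
    · simp [hne, Ne.symm hne]
  rw [← pdL_perm hf h2, ← pdL_perm hf h1, pdL_append]
  rfl

/-- Shift an order after contracting the coordinates in `S ⊆ P`. -/
def shift (R : ι → ℕ) (P S : Finset ι) : ι → ℕ :=
  fun x => R x + (if x ∈ P \ S then 1 else 0) - (if x ∈ S then 1 else 0)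

/-- Multiplicity of a contraction. -/
def mult (R : ι → ℕ) (S : Finset ι) : ℝ := ∏ x ∈ S, (R x : ℝ)

theorem coef_prod {f : (ι → ℝ) → ℝ} (hf : Tame f) (P : Finset ι) : ∀ R : ι → ℕ,
    coefOf (fun g => f g * ∏ x ∈ P, g x) R =
      ∑ S ∈ P.powerset, mult R S * coefOf f (shift R P S) := by
  induction P using Finset.induction_on with
  | empty =>
    intro R
    have h : shift R (∅ : Finset ι) ∅ = R := by funext y; simp [shift]
    simp [mult, h]
  | @insert x P hx ih =>
    intro R
    have hH : Tame fun g => f g * ∏ y ∈ P, g y := hf.mul (Tame.prod P fun y _ => Tame.coord y)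
    rw [show (fun g => f g * ∏ y ∈ insert x P, g y) =
      fun g => g x * (f g * ∏ y ∈ P, g y) by funext g; rw [Finset.prod_insert hx]; ring]
    rw [coef_coord_mul hH, ih, ih, Finset.sum_powerset_insert hx, Finset.mul_sum]
    congr 1
    · refine Finset.sum_congr rfl fun S hS => ?_
      have hxS : x ∉ S := fun h => hx (Finset.mem_powerset.1 hS h)
      congr 1
      · exact Finset.prod_congr rfl fun y hy => by
          simp [Pi.single_eq_of_ne (ne_of_mem_of_not_mem hy hxS)]
      · congr 1; funext y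
        rcases eq_or_ne y x with rfl | hne
        · simp [shift, hx, hxS]
        · simp [shift, hne]
    · refine Finset.sum_congr rfl fun S hS => ?_
      have hxS : x ∉ S := fun h => hx (Finset.mem_powerset.1 hS h)
      rw [← mul_assoc]
      congr 1
      · rw [mult, mult, Finset.prod_insert hxS]
        exact congrArg _ (Finset.prod_congr rfl fun y hy => by
          simp [Pi.single_eq_of_ne (ne_of_mem_of_not_mem hy hxS)])
      · congr 1; funext y
        rcases eq_or_ne y x with rfl | hne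
        · simp [shift, hx, hxS]
        · simp [shift, hne]

/-- Cauchy and a fibre bound. -/
theorem schur {A T B : Type*} [DecidableEq B] (𝓡 : Finset A) (𝒯 : A → Finset T) (𝒜 : Finset B)
    (out : A → T → B) (a : A → ℝ) (ha : ∀ r ∈ 𝓡, 0 ≤ a r) (m ρ : A → T → ℝ)
    (hρ : ∀ r ∈ 𝓡, ∀ t ∈ 𝒯 r, 0 < ρ r t) (x q : B → ℝ) {Am Bm : ℝ} (hA0 : 0 ≤ Am)
    (hA : ∀ r ∈ 𝓡, ∑ t ∈ 𝒯 r, ρ r t ≤ Am)
    (hout : ∀ r ∈ 𝓡, ∀ t ∈ 𝒯 r, out r t ∈ 𝒜)
    (hB : ∀ b ∈ 𝒜, ∑ p ∈ (𝓡.sigma 𝒯).filter (fun p => out p.1 p.2 = b),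
      a p.1 * m p.1 p.2 ^ 2 / ρ p.1 p.2 ≤ Bm * q b) :
    ∑ r ∈ 𝓡, a r * (∑ t ∈ 𝒯 r, m r t * x (out r t)) ^ 2 ≤
      Am * Bm * ∑ b ∈ 𝒜, q b * x b ^ 2 := by
  calc _ ≤ ∑ r ∈ 𝓡, Am * ∑ t ∈ 𝒯 r, a r * m r t ^ 2 / ρ r t * x (out r t) ^ 2 := by
        refine Finset.sum_le_sum fun r hr => ?_
        have h := Finset.sum_sq_le_sum_mul_sum_of_sq_le_mul (𝒯 r)
          (r := fun t => m r t * x (out r t)) (f := ρ r)
          (g := fun t => m r t ^ 2 / ρ r t * x (out r t) ^ 2)
          (fun t ht => (hρ r hr t ht).le)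
          (fun t ht => mul_nonneg (div_nonneg (sq_nonneg _) (hρ r hr t ht).le) (sq_nonneg _))
          (fun t ht => le_of_eq (by have := (hρ r hr t ht).ne'; field_simp))
        have hg : 0 ≤ ∑ t ∈ 𝒯 r, m r t ^ 2 / ρ r t * x (out r t) ^ 2 :=
          Finset.sum_nonneg fun t ht =>
            mul_nonneg (div_nonneg (sq_nonneg _) (hρ r hr t ht).le) (sq_nonneg _)
        calc a r * _ ≤ a r * (Am * ∑ t ∈ 𝒯 r, m r t ^ 2 / ρ r t * x (out r t) ^ 2) :=
              mul_le_mul_of_nonneg_left
                (h.trans (mul_le_mul_of_nonneg_right (hA r hr) hg)) (ha r hr)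
          _ = _ := by
              rw [Finset.mul_sum, Finset.mul_sum, Finset.mul_sum]
              exact Finset.sum_congr rfl fun t _ => by ring
    _ = Am * ∑ p ∈ 𝓡.sigma 𝒯, a p.1 * m p.1 p.2 ^ 2 / ρ p.1 p.2 * x (out p.1 p.2) ^ 2 := by
        rw [← Finset.mul_sum, Finset.sum_sigma]
    _ = Am * ∑ b ∈ 𝒜, (∑ p ∈ (𝓡.sigma 𝒯).filter (fun p => out p.1 p.2 = b),
          a p.1 * m p.1 p.2 ^ 2 / ρ p.1 p.2) * x b ^ 2 := by
        congr 1
        rw [← Finset.sum_fiberwise_of_maps_to (g := fun p => out p.1 p.2) (t := 𝒜) (fun p hp => by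
          obtain ⟨h1, h2⟩ := Finset.mem_sigma.1 hp; exact hout _ h1 _ h2)]
        refine Finset.sum_congr rfl fun b _ => ?_
        rw [Finset.sum_mul]
        exact Finset.sum_congr rfl fun p hp => by rw [(Finset.mem_filter.1 hp).2]
    _ ≤ Am * ∑ b ∈ 𝒜, Bm * q b * x b ^ 2 := mul_le_mul_of_nonneg_left
        (Finset.sum_le_sum fun b hb => mul_le_mul_of_nonneg_right (hB b hb) (sq_nonneg _)) hA0
    _ = _ := by
        rw [mul_assoc, Finset.mul_sum (a := Bm)]
        simp only [mul_assoc]

end Cycle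

end Vale.Agent.P146
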