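import Vale.Agent.P146.Calc

/-!
The free energy: derivatives, symmetries, gradient bound.
-/

namespace Vale.Agent.P146

open MeasureTheory ProbabilityTheory

variable {n : ℕ}

/-- The site pair of a disorder index, as an edge. -/
def pairEdge (p : Pair n) : Edge n := s(p.1.1, p.1.2)

theorem pairEdge_injective : Function.Injective (pairEdge (n := n)) := by
  rintro ⟨⟨a, b⟩, hab⟩ ⟨⟨c, d⟩, hcd⟩ h
  simp only [pairEdge, Sym2.eq_iff] at h
  simp only at hab hcd
  rcases h with ⟨rfl, rfl⟩ | ⟨rfl, rfl⟩
  · rfl
  · exact absurd (hab.trans hcd) (lt_irrefl _)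

/-- The coefficient of a variable in the energy. -/
noncomputable def slope (s : Fin n → Bool) (p : Pair n) : ℝ :=
  spin (s p.1.1) * spin (s p.1.2) / Real.sqrt n

/-- The constant derivative of the energy along an edge. -/
noncomputable def dEnergy (s : Fin n → Bool) (e : Edge n) : ℝ :=
  ∑ p : Pair n, if pairEdge p = e then slope s p else 0

theorem energy_eq (g : Cfg n) (s : Fin n → Bool) :
    energy g s = ∑ p : Pair n, g (pairEdge p) * slope s p := by
  simp only [energy, hamiltonian, Finset.sum_div, pairEdge, slope]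
  exact Finset.sum_congr rfl fun p _ => by ring

theorem dEnergy_off {a b : Fin n} (hab : a ≠ b) (s : Fin n → Bool) :
    Real.sqrt n * dEnergy s s(a, b) = bond s (a, b) := by
  have hn : Real.sqrt n ≠ 0 := by
    have : 0 < n := lt_of_le_of_lt (Nat.zero_le _) a.isLt
    positivity
  have key : ∀ a b : Fin n, a < b → Real.sqrt n * dEnergy s s(a, b) = bond s (a, b) := by
    intro a b h
    rw [dEnergy, Finset.sum_eq_single ⟨(a, b), h⟩]
    · simp [pairEdge, slope, bond]
      field_simp
    · intro p _ hp
      exact if_neg fun hpe => hp (pairEdge_injective hpe)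
    · simp
  rcases lt_or_gt_of_ne hab with h | h
  · exact key a b h
  · have := key b a h
    rw [Sym2.eq_swap, this, bond, bond, mul_comm]

theorem dEnergy_diag (a : Fin n) (s : Fin n → Bool) : dEnergy s s(a, a) = 0 := by
  refine Finset.sum_eq_zero fun p _ => if_neg fun h => ?_
  simp only [pairEdge, Sym2.eq_iff] at h
  have := p.2
  rcases h with ⟨h1, h2⟩ | ⟨h1, h2⟩ <;> rw [h1, h2] at this <;> exact lt_irrefl _ this

theorem bond_diag (a : Fin n) (s : Fin n → Bool) : bond s (a, a) = 1 := by
  simp only [bond, spin]; split <;> norm_num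

theorem hasFDerivAt_energy (g : Cfg n) (s : Fin n → Bool) :
    HasFDerivAt (fun g : Cfg n => energy g s)
      (∑ p : Pair n, slope s p • ContinuousLinearMap.proj (R := ℝ) (φ := fun _ : Edge n => ℝ)
        (pairEdge p)) g := by
  simp only [energy_eq]
  exact HasFDerivAt.fun_sum fun p _ => (hasFDerivAt_apply (pairEdge p) g).mul_const _

theorem contDiff_energy (s : Fin n → Bool) :
    ContDiff ℝ (⊤ : ℕ∞) (fun g : Cfg n => energy g s) := by
  simp only [energy_eq]
  exact ContDiff.sum fun p _ => (contDiff_apply ℝ ℝ (pairEdge p)).mul contDiff_const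

theorem partition_pos (β : ℝ) (g : Cfg n) :
    0 < ∑ u : Fin n → Bool, Real.exp (β * energy g u) :=
  Finset.sum_pos (fun u _ => Real.exp_pos _) Finset.univ_nonempty

theorem hasFDerivAt_partition (β : ℝ) (g : Cfg n) :
    HasFDerivAt (fun g : Cfg n => ∑ u : Fin n → Bool, Real.exp (β * energy g u))
      (∑ u : Fin n → Bool, Real.exp (β * energy g u) • (β • ∑ p : Pair n, slope u p •
        ContinuousLinearMap.proj (R := ℝ) (φ := fun _ : Edge n => ℝ) (pairEdge p))) g :=
  HasFDerivAt.fun_sum fun u _ => ((hasFDerivAt_energy g u).const_mul β).exp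

theorem proj_slope_single (s : Fin n → Bool) (e : Edge n) :
    (∑ p : Pair n, slope s p • ContinuousLinearMap.proj (R := ℝ) (φ := fun _ : Edge n => ℝ)
      (pairEdge p)) (Pi.single e 1) = dEnergy s e := by
  simp [dEnergy, Pi.single_apply]

theorem pd_Fen (β : ℝ) (e : Edge n) :
    pd e (Fen β) = fun g => β * ∑ u : Fin n → Bool, gibbs β g u * dEnergy u e := by
  funext g
  have hz := partition_pos β g
  have h := (hasFDerivAt_partition β g).log hz.ne'
  change fderiv ℝ (fun g => Real.log (∑ u : Fin n → Bool, Real.exp (β * energy g u))) g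
    (Pi.single e 1) = _
  rw [h.fderiv]
  simp only [ContinuousLinearMap.smul_apply, FunLike.coe_sum, Finset.sum_apply, smul_eq_mul]
  simp only [← proj_slope_single, FunLike.coe_sum, Finset.sum_apply,
    ContinuousLinearMap.smul_apply, smul_eq_mul, gibbs]
  rw [Finset.mul_sum, Finset.mul_sum]
  exact Finset.sum_congr rfl fun u _ => by ring

theorem pd_gibbs (β : ℝ) (s : Fin n → Bool) (e : Edge n) :
    pd e (fun g => gibbs β g s) = fun g =>
      β * gibbs β g s * (dEnergy s e - ∑ u : Fin n → Bool, gibbs β g u * dEnergy u e) := by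
  funext g
  have hz := partition_pos β g
  have h := ((hasFDerivAt_energy g s).const_mul β).exp.fun_mul
    ((hasDerivAt_inv hz.ne').comp_hasFDerivAt g (hasFDerivAt_partition β g))
  have h' : HasFDerivAt (fun g => gibbs β g s) _ g := h
  rw [pd, h'.fderiv]
  simp only [FunLike.coe_add, Pi.add_apply, ContinuousLinearMap.smul_apply, FunLike.coe_sum,
    Finset.sum_apply, smul_eq_mul]
  simp only [← proj_slope_single, FunLike.coe_sum, Finset.sum_apply,
    ContinuousLinearMap.smul_apply, smul_eq_mul, gibbs, Function.comp_apply]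
  simp only [div_mul_eq_mul_div, ← Finset.sum_div, ContinuousLinearMap.proj_apply]
  rw [show ∑ u : Fin n → Bool, Real.exp (β * energy g u) * (β * ∑ p : Pair n, slope u p *
      (Pi.single e 1 : Edge n → ℝ) (pairEdge p))
    = β * ∑ u : Fin n → Bool, Real.exp (β * energy g u) * ∑ p : Pair n, slope u p *
      (Pi.single e 1 : Edge n → ℝ) (pairEdge p) by
    rw [Finset.mul_sum]; exact Finset.sum_congr rfl fun u _ => by ring]
  field_simp
  ring

/-- Polynomials in the Gibbs weights. -/
inductive GPoly (β : ℝ) : (Cfg n → ℝ) → Prop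
  | const (c : ℝ) : GPoly β (fun _ => c)
  | weight (s : Fin n → Bool) : GPoly β (fun g => gibbs β g s)
  | add {f h : Cfg n → ℝ} : GPoly β f → GPoly β h → GPoly β (fun g => f g + h g)
  | mul {f h : Cfg n → ℝ} : GPoly β f → GPoly β h → GPoly β (fun g => f g * h g)

theorem GPoly.sum {β : ℝ} {α : Type*} (S : Finset α) {f : α → Cfg n → ℝ}
    (hf : ∀ a ∈ S, GPoly β (f a)) : GPoly β (fun g => ∑ a ∈ S, f a g) := by
  induction S using Finset.cons_induction with
  | empty => simpa using GPoly.const (β := β) (n := n) 0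
  | cons a S ha ih =>
    simp only [Finset.sum_cons]
    exact .add (hf a (by simp)) (ih fun b hb => hf b (by simp [hb]))

theorem contDiff_gibbs (β : ℝ) (s : Fin n → Bool) :
    ContDiff ℝ (⊤ : ℕ∞) (fun g : Cfg n => gibbs β g s) :=
  (Real.contDiff_exp.comp (contDiff_const.mul (contDiff_energy s))).div
    (ContDiff.sum fun u _ => Real.contDiff_exp.comp (contDiff_const.mul (contDiff_energy u)))
    fun g => (partition_pos β g).ne'

theorem GPoly.contDiff {β : ℝ} {f : Cfg n → ℝ} (hf : GPoly β f) :
    ContDiff ℝ (⊤ : ℕ∞) f := by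
  induction hf with
  | const c => exact contDiff_const
  | weight s => exact contDiff_gibbs β s
  | add _ _ h1 h2 => exact h1.add h2
  | mul _ _ h1 h2 => exact h1.mul h2

theorem gibbs_mem_Icc (β : ℝ) (g : Cfg n) (s : Fin n → Bool) :
    gibbs β g s ∈ Set.Icc (0 : ℝ) 1 := by
  refine ⟨div_nonneg (Real.exp_pos _).le (partition_pos β g).le, ?_⟩
  rw [gibbs, div_le_one (partition_pos β g)]
  exact Finset.single_le_sum (f := fun u => Real.exp (β * energy g u))
    (fun u _ => (Real.exp_pos _).le) (Finset.mem_univ s)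

theorem GPoly.bounded {β : ℝ} {f : Cfg n → ℝ} (hf : GPoly β f) :
    ∃ C, ∀ g, |f g| ≤ C := by
  induction hf with
  | const c => exact ⟨|c|, fun _ => le_rfl⟩
  | weight s =>
    exact ⟨1, fun g => by
      rw [abs_of_nonneg (gibbs_mem_Icc β g s).1]; exact (gibbs_mem_Icc β g s).2⟩
  | add _ _ h1 h2 =>
    obtain ⟨C, hC⟩ := h1
    obtain ⟨D, hD⟩ := h2
    exact ⟨C + D, fun g => (abs_add_le _ _).trans (add_le_add (hC g) (hD g))⟩
  | mul _ _ h1 h2 =>
    obtain ⟨C, hC⟩ := h1
    obtain ⟨D, hD⟩ := h2
    exact ⟨C * D, fun g => by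
      rw [abs_mul]
      exact mul_le_mul (hC g) (hD g) (abs_nonneg _) ((abs_nonneg _).trans (hC g))⟩

theorem GPoly.pd {β : ℝ} {f : Cfg n → ℝ} (hf : GPoly β f) (e : Edge n) :
    GPoly β (P146.pd e f) := by
  induction hf with
  | const c =>
    have : P146.pd e (fun _ : Cfg n => c) = fun _ => 0 := by funext g; simp [P146.pd]
    rw [this]; exact .const 0
  | weight s =>
    rw [pd_gibbs]
    simp only [sub_eq_add_neg, ← neg_one_mul (∑ u : Fin n → Bool, _)]
    exact .mul (.mul (.const β) (.weight s))
      (.add (.const _) (.mul (.const (-1))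
        (GPoly.sum Finset.univ fun u _ => .mul (.weight u) (.const _))))
  | @add f h hf hh h1 h2 =>
    have : P146.pd e (fun g => f g + h g) = fun g => P146.pd e f g + P146.pd e h g := by
      funext g
      simp [P146.pd, fderiv_fun_add (hf.contDiff.differentiable (by simp) g)
        (hh.contDiff.differentiable (by simp) g)]
    rw [this]; exact .add h1 h2
  | @mul f h hf hh h1 h2 =>
    have : P146.pd e (fun g => f g * h g) =
        fun g => f g * P146.pd e h g + h g * P146.pd e f g := by
      funext g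
      simp [P146.pd, fderiv_fun_mul (hf.contDiff.differentiable (by simp) g)
        (hh.contDiff.differentiable (by simp) g)]
    rw [this]; exact .add (.mul hf h2) (.mul hh h1)

theorem GPoly.pdL {β : ℝ} : ∀ (L : List (Edge n)) {f : Cfg n → ℝ}, GPoly β f →
    GPoly β (P146.pdL L f)
  | [], _, hf => hf
  | e :: L, _, hf => GPoly.pdL L (hf.pd e)

theorem GPoly.tame {β : ℝ} {f : Cfg n → ℝ} (hf : GPoly β f) : Tame f := by
  refine ⟨hf.contDiff, fun L => ?_⟩
  obtain ⟨C, hC⟩ := (hf.pdL L).bounded
  exact ⟨C, 0, fun g => by simpa using hC g⟩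

theorem Tame.gibbs (β : ℝ) (s : Fin n → Bool) : Tame (fun g : Cfg n => P146.gibbs β g s) :=
  (GPoly.weight s).tame

theorem abs_Fen_le (β : ℝ) (g : Cfg n) :
    |Fen β g| ≤ (Real.log (2 ^ n : ℝ) + |β| * ∑ p : Pair n, |(Real.sqrt n)⁻¹|) * (1 + ‖g‖) := by
  set B : ℝ := |β| * ∑ p : Pair n, |(Real.sqrt n)⁻¹|
  have hlog : 0 ≤ Real.log (2 ^ n : ℝ) := Real.log_nonneg (one_le_pow₀ (by norm_num))
  have hE : ∀ u, |β * energy g u| ≤ B * ‖g‖ := by
    intro u
    rw [abs_mul, energy_eq, mul_assoc]
    refine mul_le_mul_of_nonneg_left ((Finset.abs_sum_le_sum_abs _ _).trans ?_) (abs_nonneg _)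
    rw [Finset.sum_mul]
    refine Finset.sum_le_sum fun p _ => ?_
    rw [abs_mul, mul_comm]
    refine mul_le_mul (le_of_eq ?_) (by simpa using norm_le_pi_norm g (pairEdge p))
      (abs_nonneg _) (abs_nonneg _)
    simp only [slope, spin]
    split <;> split <;> simp [abs_div, abs_inv]
  have hz := partition_pos β g
  have hup : ∑ u : Fin n → Bool, Real.exp (β * energy g u) ≤
      (2 ^ n : ℝ) * Real.exp (B * ‖g‖) := by
    refine (Finset.sum_le_card_nsmul _ _ _ fun u _ =>
      Real.exp_le_exp.2 ((le_abs_self _).trans (hE u))).trans_eq ?_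
    simp
  have hlo : Real.exp (-(B * ‖g‖)) ≤ ∑ u : Fin n → Bool, Real.exp (β * energy g u) :=
    (Real.exp_le_exp.2 (abs_le.1 (hE fun _ => true)).1).trans
      (Finset.single_le_sum (f := fun u => Real.exp (β * energy g u))
        (fun u _ => (Real.exp_pos _).le) (Finset.mem_univ _))
  have h1 := Real.log_le_log hz hup
  rw [Real.log_mul (by positivity) (Real.exp_pos _).ne', Real.log_exp] at h1
  have h2 := Real.log_le_log (Real.exp_pos _) hlo
  rw [Real.log_exp] at h2
  have hB : 0 ≤ B := mul_nonneg (abs_nonneg _) (Finset.sum_nonneg fun _ _ => abs_nonneg _)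
  have hg := norm_nonneg g
  change |Real.log (∑ u : Fin n → Bool, Real.exp (β * energy g u))| ≤ _
  rw [abs_le]
  constructor <;> nlinarith

/-- The scalar relating `DL` and `pdL`. -/
noncomputable def dlScale (L : List (Fin n × Fin n)) : ℝ :=
  (L.map fun p => dfac p.1 p.2 * Real.sqrt n).prod


theorem Tame.fen (β : ℝ) : Tame (P146.Fen (n := n) β) := by
  refine ⟨?_, fun L => ?_⟩
  · exact (ContDiff.sum fun u _ => Real.contDiff_exp.comp
      (contDiff_const.mul (contDiff_energy u))).log fun g => (partition_pos β g).ne'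
  · cases L with
    | nil => exact ⟨_, 1, fun g => by simpa [P146.pdL] using abs_Fen_le β g⟩
    | cons e L =>
      have h : GPoly β (P146.pd e (P146.Fen (n := n) β)) := by
        rw [pd_Fen]
        exact .mul (.const β) (GPoly.sum Finset.univ fun u _ => .mul (.weight u) (.const _))
      obtain ⟨C, hC⟩ := (h.pdL L).bounded
      exact ⟨C, 0, fun g => by simpa [P146.pdL] using hC g⟩

theorem Tame.dab {f : Cfg n → ℝ} (hf : Tame f) (p : Fin n × Fin n) :
    Tame (P146.Dab p f) := (Tame.pd _ hf).const_mul _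

theorem Tame.dl {f : Cfg n → ℝ} (hf : Tame f) (L : List (Fin n × Fin n)) :
    Tame (P146.DL L f) := by
  induction L generalizing f with
  | nil => exact hf
  | cons p L ih => exact ih (hf.dab p)

theorem DL_append (L M : List (Fin n × Fin n)) (f : Cfg n → ℝ) :
    DL (L ++ M) f = DL M (DL L f) := by
  induction L generalizing f with
  | nil => rfl
  | cons p L ih => exact ih _

theorem pdL_const_mul (c : ℝ) : ∀ (L : List (Edge n)) {f : Cfg n → ℝ}, Tame f →
    pdL L (fun g => c * f g) = fun g => c * pdL L f g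
  | [], _, _ => rfl
  | e :: L, f, hf => by
    simp only [pdL]
    rw [pd_const_mul e c hf]
    exact pdL_const_mul c L (Tame.pd e hf)

theorem DL_eq : ∀ (L : List (Fin n × Fin n)) {f : Cfg n → ℝ}, Tame f →
    DL L f = fun g => dlScale L * pdL (L.map fun p => s(p.1, p.2)) f g
  | [], f, _ => by funext g; simp [DL, pdL, dlScale]
  | p :: L, f, hf => by
    simp only [DL, List.map_cons, pdL]
    rw [DL_eq L (hf.dab p)]
    show (fun g => dlScale L * pdL (List.map (fun p => s(p.1, p.2)) L)
      (fun g => dfac p.1 p.2 * Real.sqrt n * pd s(p.1, p.2) f g) g) = _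
    rw [pdL_const_mul _ _ (Tame.pd _ hf)]
    funext g
    simp only [dlScale, List.map_cons, List.prod_cons]
    ring

theorem DL_perm {f : Cfg n → ℝ} (hf : Tame f) {L M : List (Fin n × Fin n)} (h : L.Perm M) :
    DL L f = DL M f := by
  rw [DL_eq L hf, DL_eq M hf, pdL_perm hf (h.map _), dlScale, dlScale, (h.map _).prod_eq]

theorem Dab_swap (a b : Fin n) (f : Cfg n → ℝ) : Dab (a, b) f = Dab (b, a) f := by
  funext g
  simp only [Dab, dfac, eq_comm (a := a) (b := b)]
  rw [Sym2.eq_swap]

/-- Integration by parts in matrix form. -/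
theorem mean_mat_mul (hn : n ≠ 0) {f : Cfg n → ℝ} (hf : Tame f) (a b : Fin n) :
    mean (fun g => mat g a b * f g) = mean (Dab (a, b) f) / n := by
  have h1 : (fun g => mat g a b * f g) =
      fun g => dfac a b / Real.sqrt n * (g s(a, b) * f g) := by
    funext g; simp only [mat, Matrix.of_apply]; ring
  have hn' : (0 : ℝ) < n := by exact_mod_cast Nat.pos_of_ne_zero hn
  simp only [mean, Dab, h1, integral_const_mul, gauss_ibp hf]
  have h2 := Real.mul_self_sqrt hn'.le
  field_simp
  rw [pow_two, h2]
  ring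

/-- First derivative. -/
theorem Dab_Fen (β : ℝ) {a b : Fin n} (hab : a ≠ b) (g : Cfg n) :
    Dab (a, b) (Fen β) g = β * ∑ s : Fin n → Bool, gibbs β g s * bond s (a, b) := by
  simp only [Dab, pd_Fen, dfac, if_neg hab, one_mul]
  rw [mul_left_comm, Finset.mul_sum]
  congr 1
  refine Finset.sum_congr rfl fun u _ => ?_
  rw [← dEnergy_off hab u]; ring

theorem gibbs_nonneg (β : ℝ) (g : Cfg n) (s : Fin n → Bool) : 0 ≤ gibbs β g s :=
  (gibbs_mem_Icc β g s).1

theorem gibbs_sum (β : ℝ) (g : Cfg n) : ∑ s : Fin n → Bool, gibbs β g s = 1 := by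
  simp only [gibbs, ← Finset.sum_div]
  exact div_self (partition_pos β g).ne'

theorem Dab_gibbs (β : ℝ) (s : Fin n → Bool) (p : Fin n × Fin n) :
    Dab p (fun g => gibbs β g s) = fun g =>
      β * gibbs β g s * (bond s p - ∑ u : Fin n → Bool, gibbs β g u * bond u p) := by
  funext g
  obtain ⟨a, b⟩ := p
  simp only [Dab, pd_gibbs, dfac]
  by_cases hab : a = b
  · subst hab
    simp [dEnergy_diag, bond_diag, gibbs_sum]
  · simp only [if_neg hab, one_mul, ← dEnergy_off hab]
    rw [show ∑ u : Fin n → Bool, gibbs β g u * (Real.sqrt n * dEnergy u s(a, b))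
        = Real.sqrt n * ∑ u : Fin n → Bool, gibbs β g u * dEnergy u s(a, b) by
      rw [Finset.mul_sum]; exact Finset.sum_congr rfl fun u _ => by ring]
    ring

/-- A replica average of a product of bonds. -/
noncomputable def repAvg {r : ℕ} (β : ℝ) (σ : Fin r → Fin r) (L : Fin r → Fin n × Fin n)
    (g : Cfg n) : ℝ :=
  ∑ t : Fin r → Fin n → Bool, (∏ j, gibbs β g (t j)) * ∏ i, bond (t (σ i)) (L i)

theorem Dab_prod_gibbs {r : ℕ} (β : ℝ) (t : Fin r → Fin n → Bool) (p : Fin n × Fin n) :
    Dab p (fun g => ∏ j, gibbs β g (t j)) = fun g => β * (∏ j, gibbs β g (t j)) *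
      (∑ j, bond (t j) p - (r : ℝ) * ∑ u : Fin n → Bool, gibbs β g u * bond u p) := by
  suffices H : ∀ S : Finset (Fin r), Dab p (fun g => ∏ j ∈ S, gibbs β g (t j)) = fun g =>
      β * (∏ j ∈ S, gibbs β g (t j)) *
      (∑ j ∈ S, bond (t j) p - (S.card : ℝ) * ∑ u : Fin n → Bool, gibbs β g u * bond u p) by
    simpa using H Finset.univ
  intro S
  induction S using Finset.cons_induction with
  | empty =>
    funext g
    simp [Dab, pd_const]
  | cons a S ha ih =>
    funext g
    have e1 := congrFun ih g
    have e2 := congrFun (Dab_gibbs β (t a) p) g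
    simp only [Finset.prod_cons, Finset.sum_cons, Finset.card_cons, Nat.cast_succ]
    simp only [Dab] at e1 e2 ⊢
    rw [pd_mul _ (Tame.gibbs β (t a)) (Tame.prod S fun j _ => Tame.gibbs β (t j))]
    linear_combination (∏ j ∈ S, gibbs β g (t j)) * e2 + gibbs β g (t a) * e1

theorem sum_snoc {r : ℕ} {γ : Type*} [Fintype γ] (F : (Fin (r + 1) → γ) → ℝ) :
    ∑ t, F t = ∑ u : γ, ∑ t : Fin r → γ, F (Fin.snoc t u) := by
  rw [← (Fin.snocEquiv fun _ => γ).sum_comp, Fintype.sum_prod_type]
  rfl

/-- Raising a replica map by one bond attached to replica `j`. -/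
def extMap {r : ℕ} (σ : Fin r → Fin r) (j : Fin (r + 1)) : Fin (r + 1) → Fin (r + 1) :=
  Fin.snoc (fun i => (σ i).castSucc) j

theorem repAvg_ext {r : ℕ} (β : ℝ) (σ : Fin r → Fin r) (j : Fin (r + 1))
    (L : Fin (r + 1) → Fin n × Fin n) (g : Cfg n) :
    repAvg β (extMap σ j) L g = ∑ t : Fin r → Fin n → Bool, ∑ u : Fin n → Bool,
      (∏ i, gibbs β g (t i)) * gibbs β g u * (∏ i, bond (t (σ i)) (L i.castSucc)) *
        bond ((Fin.snoc t u : Fin (r + 1) → Fin n → Bool) j) (L (Fin.last r)) := by
  rw [repAvg, sum_snoc, Finset.sum_comm]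
  refine Finset.sum_congr rfl fun t _ => Finset.sum_congr rfl fun u _ => ?_
  rw [Fin.prod_univ_castSucc, Fin.prod_univ_castSucc]
  simp only [extMap, Fin.snoc_castSucc, Fin.snoc_last]
  ring

theorem Dab_repAvg {r : ℕ} (β : ℝ) (σ : Fin r → Fin r) (L : Fin (r + 1) → Fin n × Fin n)
    (g : Cfg n) :
    Dab (L (Fin.last r)) (repAvg β σ fun i => L i.castSucc) g =
      β * (∑ j : Fin r, repAvg β (extMap σ j.castSucc) L g
        - (r : ℝ) * repAvg β (extMap σ (Fin.last r)) L g) := by
  have hT : ∀ t : Fin r → Fin n → Bool, Tame (fun g : Cfg n => ∏ j, gibbs β g (t j)) := fun t =>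
    Tame.prod _ fun j _ => Tame.gibbs β (t j)
  set p := L (Fin.last r) with hp
  have e : (repAvg β σ fun i => L i.castSucc) = fun g =>
      ∑ t : Fin r → Fin n → Bool, (∏ i, bond (t (σ i)) (L i.castSucc)) *
        ∏ j, gibbs β g (t j) := by
    funext g; exact Finset.sum_congr rfl fun t _ => mul_comm _ _
  rw [e]
  simp only [Dab]
  rw [pd_sum _ _ fun t _ => (hT t).const_mul _]
  simp only [fun t c' => pd_const_mul s(p.1, p.2) c' (hT t), Finset.mul_sum]
  simp only [repAvg_ext, Fin.snoc_castSucc, Fin.snoc_last, ← hp]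
  have key : ∀ t : Fin r → Fin n → Bool,
      dfac p.1 p.2 * Real.sqrt n * ((∏ i, bond (t (σ i)) (L i.castSucc)) *
        pd s(p.1, p.2) (fun g => ∏ j, gibbs β g (t j)) g) =
      β * ((∑ j : Fin r, ∑ u : Fin n → Bool, (∏ i, gibbs β g (t i)) * gibbs β g u *
        (∏ i, bond (t (σ i)) (L i.castSucc)) * bond (t j) p)
      - (r : ℝ) * ∑ u : Fin n → Bool, (∏ i, gibbs β g (t i)) * gibbs β g u *
        (∏ i, bond (t (σ i)) (L i.castSucc)) * bond u p) := by
    intro t
    have h := congrFun (Dab_prod_gibbs β t p) g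
    simp only [Dab] at h
    have h1 : ∀ j, ∑ u : Fin n → Bool, (∏ i, gibbs β g (t i)) * gibbs β g u *
        (∏ i, bond (t (σ i)) (L i.castSucc)) * bond (t j) p =
        (∏ i, gibbs β g (t i)) * (∏ i, bond (t (σ i)) (L i.castSucc)) * bond (t j) p := by
      intro j
      rw [← Finset.sum_mul, ← Finset.sum_mul, ← Finset.mul_sum, gibbs_sum, mul_one]
    have h2 : ∑ u : Fin n → Bool, (∏ i, gibbs β g (t i)) * gibbs β g u *
        (∏ i, bond (t (σ i)) (L i.castSucc)) * bond u p =
        (∏ i, gibbs β g (t i)) * (∏ i, bond (t (σ i)) (L i.castSucc)) *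
          ∑ u : Fin n → Bool, gibbs β g u * bond u p := by
      rw [Finset.mul_sum]; exact Finset.sum_congr rfl fun u _ => by ring
    rw [Finset.sum_congr rfl fun j _ => h1 j, h2, ← Finset.mul_sum]
    linear_combination (∏ i, bond (t (σ i)) (L i.castSucc)) * h
  rw [Finset.sum_congr rfl fun t _ => key t]
  simp only [mul_sub, Finset.sum_sub_distrib, Finset.mul_sum]
  congr 1
  exact Finset.sum_comm

theorem DL_Fen_two (β : ℝ) (L : Fin 2 → Fin n × Fin n) (g : Cfg n) :
    DL (List.ofFn L) (Fen β) g = β ^ 2 * repAvg β (extMap id 0) L g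
      - β ^ 2 * repAvg β (extMap id (Fin.last 1)) L g := by
  have hL : List.ofFn L = [L 0, L 1] := by simp [List.ofFn_succ]
  rw [hL]
  show Dab (L 1) (Dab (L 0) (Fen β)) g = _
  by_cases hab : (L 0).1 = (L 0).2
  · have h0 : Dab (L 0) (Fen β) = fun _ => (0 : ℝ) := by
      funext g'
      simp [Dab, pd_Fen, hab, dEnergy_diag]
    have hb : ∀ u, bond u (L 0) = 1 := fun u => by
      rw [show L 0 = ((L 0).1, (L 0).1) from Prod.ext rfl hab.symm]; exact bond_diag _ u
    have e1 : repAvg β (extMap id (0 : Fin 2)) L g =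
        repAvg β (extMap id (Fin.last 1)) L g := by
      rw [show (0 : Fin 2) = (0 : Fin 1).castSucc from rfl, repAvg_ext, repAvg_ext]
      simp only [Fin.snoc_castSucc, Fin.snoc_last, Fin.prod_univ_one, id]
      simp only [show (Fin.castSucc (0 : Fin 1) : Fin 2) = 0 from rfl, hb, mul_one]
      conv_rhs => rw [Finset.sum_comm]
      rw [← (Equiv.funUnique (Fin 1) (Fin n → Bool)).symm.sum_comp]
      conv_rhs => arg 2; ext; rw [← (Equiv.funUnique (Fin 1) (Fin n → Bool)).symm.sum_comp]
      simp only [Equiv.funUnique_symm_apply, uniqueElim_const]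
      refine Finset.sum_congr rfl fun u _ => Finset.sum_congr rfl fun w _ => ?_
      ring
    rw [h0, e1, sub_self]
    simp [Dab, pd_const]
  · have h1 : Dab (L 0) (Fen β) = fun g' =>
        β * repAvg β (id : Fin 1 → Fin 1) (fun i => L i.castSucc) g' := by
      funext g'
      rw [show L 0 = ((L 0).1, (L 0).2) from rfl, Dab_Fen β hab]
      simp only [repAvg, Fin.prod_univ_one, id]
      rw [← (Equiv.funUnique (Fin 1) (Fin n → Bool)).symm.sum_comp]
      rfl
    have hT : Tame (repAvg β (id : Fin 1 → Fin 1) fun i => L i.castSucc) :=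
      Tame.sum _ fun t _ => (Tame.prod _ fun j _ => Tame.gibbs β (t j)).mul (Tame.const _)
    have h2 := Dab_repAvg β (id : Fin 1 → Fin 1) L g
    simp only [Dab] at h2
    rw [h1]
    simp only [Dab]
    rw [pd_const_mul _ _ hT]
    simp only [Fin.sum_univ_one, Nat.cast_one, one_mul,
      show Fin.last 1 = (1 : Fin 2) from rfl, show ((0 : Fin 1).castSucc : Fin 2) = 0 from rfl] at h2 ⊢
    linear_combination β * h2

theorem DL_Fen_terms {β : ℝ} (hβ : 0 ≤ β) (r : ℕ) (hr : 2 ≤ r) :
    ∃ c : (Fin r → Fin r) → ℝ, ∑ σ, |c σ| ≤ (2 * β * r) ^ r ∧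
      ∀ (L : Fin r → Fin n × Fin n) (g : Cfg n),
        DL (List.ofFn L) (Fen β) g = ∑ σ, c σ * repAvg β σ L g := by
  classical
  induction r, hr using Nat.le_induction with
  | base =>
    refine ⟨fun σ => (if σ = extMap id 0 then β ^ 2 else 0) -
      (if σ = extMap id (Fin.last 1) then β ^ 2 else 0), ?_, fun L g => ?_⟩
    · refine (Finset.sum_le_sum fun σ _ => abs_sub _ _).trans ?_
      rw [Finset.sum_add_distrib]
      simp only [apply_ite abs, abs_zero, Finset.sum_ite_eq', Finset.mem_univ, if_true,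
        abs_of_nonneg (sq_nonneg β)]
      norm_num
      nlinarith [sq_nonneg β]
    · simp only [sub_mul, ite_mul, zero_mul, Finset.sum_sub_distrib, Finset.sum_ite_eq',
        Finset.mem_univ, if_true]
      exact DL_Fen_two β L g
  | succ r hr ih =>
    obtain ⟨c, hc, hrep⟩ := ih
    let C : (Fin (r + 1) → Fin (r + 1)) → ℝ := fun τ => ∑ σ : Fin r → Fin r,
      (∑ j : Fin r, (if τ = extMap σ j.castSucc then c σ * β else 0)
        - if τ = extMap σ (Fin.last r) then c σ * β * r else 0)
    refine ⟨C, ?_, fun L g => ?_⟩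
    · calc ∑ τ, |C τ| ≤ ∑ τ : Fin (r + 1) → Fin (r + 1), ∑ σ : Fin r → Fin r,
            (∑ j : Fin r, (if τ = extMap σ j.castSucc then |c σ| * β else 0)
              + if τ = extMap σ (Fin.last r) then |c σ| * β * r else 0) := by
            refine Finset.sum_le_sum fun τ _ => (Finset.abs_sum_le_sum_abs _ _).trans
              (Finset.sum_le_sum fun σ _ => (abs_sub _ _).trans (add_le_add
                ((Finset.abs_sum_le_sum_abs _ _).trans (le_of_eq ?_)) (le_of_eq ?_)))
            · refine Finset.sum_congr rfl fun j _ => ?_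
              split_ifs <;> simp [abs_mul, abs_of_nonneg hβ]
            · split_ifs <;> simp [abs_mul, abs_of_nonneg hβ]
        _ = ∑ σ : Fin r → Fin r, |c σ| * (2 * β * r) := by
            rw [Finset.sum_comm]
            refine Finset.sum_congr rfl fun σ _ => ?_
            rw [Finset.sum_add_distrib, Finset.sum_comm]
            simp
            ring
        _ ≤ (2 * β * r) ^ r * (2 * β * r) := by
            rw [← Finset.sum_mul]
            exact mul_le_mul_of_nonneg_right hc (by positivity)
        _ ≤ (2 * β * ((r + 1 : ℕ) : ℝ)) ^ (r + 1) := by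
            rw [← pow_succ]
            gcongr
            linarith
    · have hT : ∀ σ : Fin r → Fin r, Tame (repAvg β σ fun i => L i.castSucc) := fun σ =>
        Tame.sum _ fun t _ => (Tame.prod _ fun j _ => Tame.gibbs β (t j)).mul (Tame.const _)
      rw [List.ofFn_succ', List.concat_eq_append, DL_append]
      show Dab (L (Fin.last r)) (DL (List.ofFn fun i => L i.castSucc) (Fen β)) g = _
      rw [show DL (List.ofFn fun i => L i.castSucc) (Fen β) = fun g' =>
        ∑ σ : Fin r → Fin r, c σ * repAvg β σ (fun i => L i.castSucc) g' from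
          funext fun g' => hrep _ g']
      simp only [Dab]
      rw [pd_sum _ _ fun σ _ => (hT σ).const_mul _]
      simp only [fun σ c' => pd_const_mul s((L (Fin.last r)).1, (L (Fin.last r)).2) c' (hT σ),
        Finset.mul_sum]
      have key : ∀ σ : Fin r → Fin r,
          dfac (L (Fin.last r)).1 (L (Fin.last r)).2 * Real.sqrt n *
            (c σ * pd s((L (Fin.last r)).1, (L (Fin.last r)).2)
              (repAvg β σ fun i => L i.castSucc) g) =
          ∑ τ : Fin (r + 1) → Fin (r + 1),
            (∑ j : Fin r, (if τ = extMap σ j.castSucc then c σ * β else 0)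
              - if τ = extMap σ (Fin.last r) then c σ * β * r else 0) * repAvg β τ L g := by
        intro σ
        have h := Dab_repAvg β σ L g
        simp only [Dab] at h
        simp only [sub_mul, Finset.sum_mul, ite_mul, zero_mul, Finset.sum_sub_distrib]
        rw [Finset.sum_comm]
        simp only [Finset.sum_ite_eq', Finset.mem_univ, if_true, ← Finset.mul_sum]
        linear_combination (c σ) * h
      rw [Finset.sum_congr rfl fun σ _ => key σ, Finset.sum_comm]
      refine Finset.sum_congr rfl fun τ _ => ?_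
      rw [← Finset.sum_mul]

/-- All derivatives of order `r ≥ 2` share one signed replica measure. -/
theorem DL_Fen_repr {β : ℝ} (hβ : 0 ≤ β) {r : ℕ} (hr : 2 ≤ r) (g : Cfg n) :
    ∃ wt : (Fin r → Fin n → Bool) → ℝ, ∑ s, |wt s| ≤ (2 * β * r) ^ r ∧
      ∀ L : Fin r → Fin n × Fin n,
        DL (List.ofFn L) (Fen β) g = ∑ s, wt s * ∏ i, bond (s i) (L i) := by
  classical
  obtain ⟨c, hc, hrep⟩ := DL_Fen_terms (n := n) hβ r hr
  refine ⟨fun s => ∑ σ : Fin r → Fin r, ∑ t : Fin r → Fin n → Bool,
    if (fun i => t (σ i)) = s then c σ * ∏ j, gibbs β g (t j) else 0, ?_, fun L => ?_⟩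
  · refine le_trans ?_ hc
    calc _ ≤ ∑ s : Fin r → Fin n → Bool, ∑ σ : Fin r → Fin r, ∑ t : Fin r → Fin n → Bool,
          (if (fun i => t (σ i)) = s then |c σ| * ∏ j, gibbs β g (t j) else 0) := by
          refine Finset.sum_le_sum fun s _ => (Finset.abs_sum_le_sum_abs _ _).trans
            (Finset.sum_le_sum fun σ _ => (Finset.abs_sum_le_sum_abs _ _).trans
              (le_of_eq (Finset.sum_congr rfl fun t _ => ?_)))
          split_ifs
          · rw [abs_mul, abs_of_nonneg (Finset.prod_nonneg fun j _ => gibbs_nonneg β g (t j))]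
          · exact abs_zero
      _ = ∑ σ : Fin r → Fin r, |c σ| * ∑ t : Fin r → Fin n → Bool, ∏ j, gibbs β g (t j) := by
          rw [Finset.sum_comm]
          refine Finset.sum_congr rfl fun σ _ => ?_
          rw [Finset.sum_comm, Finset.mul_sum]
          simp
      _ = ∑ σ, |c σ| := by
          refine Finset.sum_congr rfl fun σ _ => ?_
          rw [← Fintype.prod_sum]
          simp [gibbs_sum]
  · rw [hrep]
    simp only [Finset.sum_mul, ite_mul, zero_mul]
    rw [Finset.sum_comm]
    refine Finset.sum_congr rfl fun σ _ => ?_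
    rw [Finset.sum_comm, repAvg, Finset.mul_sum]
    refine Finset.sum_congr rfl fun t _ => ?_
    rw [Finset.sum_ite_eq, if_pos (Finset.mem_univ _), mul_assoc]

theorem Fen_grad_le (β : ℝ) (g : Cfg n) :
    ∑ e, pd e (Fen β) g ^ 2 ≤ β ^ 2 * n := by
  classical
  have hsq : ∀ u : Fin n → Bool, ∑ e, dEnergy u e ^ 2 ≤ n := by
    intro u
    have h1 : ∑ e, dEnergy u e ^ 2 = ∑ p : Pair n, slope u p ^ 2 := by
      calc ∑ e, dEnergy u e ^ 2 = ∑ e, ∑ p : Pair n, if pairEdge p = e then
            dEnergy u e * slope u p else 0 := by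
            refine Finset.sum_congr rfl fun e _ => ?_
            rw [sq]
            nth_rewrite 2 [dEnergy]
            rw [Finset.mul_sum]
            simp only [mul_ite, mul_zero]
        _ = ∑ p : Pair n, dEnergy u (pairEdge p) * slope u p := by
            rw [Finset.sum_comm]; simp
        _ = _ := by
            refine Finset.sum_congr rfl fun p _ => ?_
            rw [sq, dEnergy, Finset.sum_eq_single p]
            · rw [if_pos rfl]
            · intro q _ hq
              exact if_neg fun h => hq (pairEdge_injective h)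
            · simp
    rw [h1]
    rcases Nat.eq_zero_or_pos n with rfl | hn
    · simp
    have hn' : (0 : ℝ) < n := by exact_mod_cast hn
    have h2 : ∀ p : Pair n, slope u p ^ 2 = 1 / n := fun p => by
      simp only [slope, spin, div_pow, Real.sq_sqrt hn'.le]
      split <;> split <;> norm_num
    rw [Finset.sum_congr rfl fun p _ => h2 p, Finset.sum_const, Finset.card_univ, nsmul_eq_mul,
      mul_one_div, div_le_iff₀ hn']
    have h3 : Fintype.card (Pair n) ≤ n * n := by
      refine (Fintype.card_subtype_le _).trans (le_of_eq ?_)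
      simp
    exact_mod_cast h3
  calc ∑ e, pd e (Fen β) g ^ 2
      ≤ ∑ e, β ^ 2 * ∑ u : Fin n → Bool, gibbs β g u * dEnergy u e ^ 2 := by
        refine Finset.sum_le_sum fun e _ => ?_
        rw [pd_Fen, mul_pow]
        refine mul_le_mul_of_nonneg_left ?_ (sq_nonneg β)
        have := Finset.sum_sq_le_sum_mul_sum_of_sq_le_mul Finset.univ
          (fun u _ => gibbs_nonneg β g u)
          (fun u _ => mul_nonneg (gibbs_nonneg β g u) (sq_nonneg (dEnergy u e)))
          (r := fun u : Fin n → Bool => gibbs β g u * dEnergy u e)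
          (fun u _ => le_of_eq (by ring))
        rwa [gibbs_sum, one_mul] at this
    _ = β ^ 2 * ∑ u : Fin n → Bool, gibbs β g u * ∑ e, dEnergy u e ^ 2 := by
        rw [← Finset.mul_sum, Finset.sum_comm]
        simp only [Finset.mul_sum]
    _ ≤ β ^ 2 * ∑ u : Fin n → Bool, gibbs β g u * n := by
        gcongr with u
        · exact gibbs_nonneg β g u
        · exact hsq u
    _ = β ^ 2 * n := by rw [← Finset.sum_mul, gibbs_sum, one_mul]

theorem energy_eq_sum (g : Cfg n) (s : Fin n → Bool) :
    energy g s = (∑ a, ∑ b, if a = b then 0 else g s(a, b) * bond s (a, b)) /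
      (2 * Real.sqrt n) := by
  set f : Fin n × Fin n → ℝ := fun p => g s(p.1, p.2) * bond s p
  have hsym : ∀ p : Fin n × Fin n, f p.swap = f p := fun p => by
    simp only [f, bond, Prod.fst_swap, Prod.snd_swap]
    rw [Sym2.eq_swap]; ring
  have h1 : (∑ a, ∑ b, if a = b then 0 else g s(a, b) * bond s (a, b)) =
      ∑ p : Fin n × Fin n, ((if p.1 < p.2 then f p else 0) + if p.2 < p.1 then f p else 0) := by
    rw [Fintype.sum_prod_type]
    refine Finset.sum_congr rfl fun a _ => Finset.sum_congr rfl fun b _ => ?_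
    rcases lt_trichotomy a b with h | h | h
    · simp [h, h.ne, not_lt.2 h.le, f]
    · simp [h]
    · simp [h, h.ne', not_lt.2 h.le, f]
  have h2 : ∑ p : Fin n × Fin n, (if p.2 < p.1 then f p else 0) =
      ∑ p : Fin n × Fin n, if p.1 < p.2 then f p else 0 := by
    rw [← (Equiv.prodComm _ _).sum_comp]
    refine Finset.sum_congr rfl fun p _ => ?_
    simp only [Equiv.prodComm_apply, Prod.fst_swap, Prod.snd_swap, hsym]
  have h3 : ∑ p : Fin n × Fin n, (if p.1 < p.2 then f p else 0) = ∑ p : Pair n, f p.1 := by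
    rw [← Finset.sum_filter]
    exact Finset.sum_subtype _ (by simp) f
  rw [h1, Finset.sum_add_distrib, h2, h3, ← two_mul, energy, hamiltonian,
    mul_div_mul_left _ _ two_ne_zero]
  congr 1
  exact Finset.sum_congr rfl fun p _ => by simp only [f, bond]; ring

/-- Invariance under relabelling of sites. -/
theorem chat_perm (β : ℝ) (π : Equiv.Perm (Fin n)) (L : List (Fin n × Fin n)) :
    chat β (L.map fun p => (π p.1, π p.2)) = chat β L := by
  let q : Edge n ≃ Edge n :=
    { toFun := Sym2.map π
      invFun := Sym2.map π.symm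
      left_inv := fun e => by rw [Sym2.map_map]; simp
      right_inv := fun e => by rw [Sym2.map_map]; simp }
  let one : Edge n → ℝ := fun _ => 1
  have hF : (fun g => Fen β (signMap q one g)) = Fen (n := n) β := by
    funext g
    show Real.log (∑ u : Fin n → Bool, Real.exp (β * energy (signMap q one g) u)) =
      Real.log (∑ u : Fin n → Bool, Real.exp (β * energy g u))
    congr 1
    rw [← (Equiv.arrowCongr π.symm (Equiv.refl Bool)).sum_comp]
    refine Finset.sum_congr rfl fun u _ => ?_
    congr 2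
    rw [energy_eq_sum, energy_eq_sum]
    congr 1
    conv_rhs => rw [← Equiv.sum_comp π]
    refine Finset.sum_congr rfl fun a _ => ?_
    conv_rhs => rw [← Equiv.sum_comp π]
    refine Finset.sum_congr rfl fun b _ => ?_
    simp only [π.injective.eq_iff]
    split
    · rfl
    · simp [signMap, q, one, bond, Equiv.arrowCongr]
  have hsc : dlScale (L.map fun p => (π p.1, π p.2)) = dlScale L := by
    simp only [dlScale, List.map_map]
    congr 1
    refine List.map_congr_left fun p _ => ?_
    simp [dfac]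
  simp only [chat, DL_eq _ (Tame.fen β), hsc, mean, integral_const_mul]
  congr 1
  rw [show (L.map fun p => (π p.1, π p.2)).map (fun p => s(p.1, p.2)) =
      (L.map fun p => s(p.1, p.2)).map q by simp [List.map_map, Function.comp_def, q]]
  calc ∫ g, pdL ((L.map fun p => s(p.1, p.2)).map q) (Fen β) g ∂gauss (Edge n)
      = ∫ g, pdL (L.map fun p => s(p.1, p.2)) (Fen β) (signMap q one g) ∂gauss (Edge n) := by
        refine integral_congr_ae (Filter.Eventually.of_forall fun g => ?_)
        conv_lhs => rw [← hF]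
        simp only [pdL_signMap (Tame.fen β) q one]
        simp [one, Function.comp_def]
    _ = _ := integral_signMap (Tame.pdL _ (Tame.fen β)) q one fun _ => Or.inl rfl

/-- Off-diagonal coefficients in terms of `chat`. -/
theorem chat_eq_coef (β : ℝ) (L : List (Fin n × Fin n)) (hL : ∀ p ∈ L, p.1 ≠ p.2)
    (α : Edge n → ℕ) (hα : (L.map fun p => s(p.1, p.2)).Perm (multiList α)) :
    chat β L = Real.sqrt n ^ L.length * coefOf (Fen β) α := by
  simp only [chat, DL_eq L (Tame.fen β), mean, integral_const_mul, coefOf,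
    pdL_perm (Tame.fen β) hα]
  congr 1
  simp only [dlScale]
  rw [List.map_congr_left (g := fun _ => Real.sqrt n) fun p hp => by simp [dfac, hL p hp]]
  simp

/-- Diagonal variables do not act. -/
theorem coef_diag_zero (β : ℝ) (α : Edge n → ℕ) (hα : ∃ a, α s(a, a) ≠ 0) :
    coefOf (Fen β) α = 0 := by
  classical
  obtain ⟨a, ha⟩ := hα
  have hmem : s(a, a) ∈ multiList α := by
    simp only [multiList, List.mem_flatMap, Finset.mem_toList, Finset.mem_univ, true_and]
    exact ⟨_, List.mem_replicate.2 ⟨ha, rfl⟩⟩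
  have h0 : pd s(a, a) (Fen (n := n) β) = fun _ => (0 : ℝ) := by
    rw [pd_Fen]; funext g; simp [dEnergy_diag]
  simp only [coefOf, pdL_perm (Tame.fen β) (List.perm_cons_erase hmem), pdL, h0, pdL_zero]
  simp

/-- The degree of a site in a multi-order. -/
def degree (α : Edge n → ℕ) (a : Fin n) : ℕ :=
  ∑ b : Fin n, if b = a then 2 * α s(a, b) else α s(a, b)

/-- Gauge symmetry. -/
theorem coef_odd_zero (β : ℝ) (α : Edge n → ℕ) (a : Fin n) (hα : Odd (degree α a)) :
    coefOf (Fen β) α = 0 := by
  classical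
  let sg : Edge n → ℝ := fun e => if a ∈ e ∧ ¬e.IsDiag then -1 else 1
  let flip : (Fin n → Bool) ≃ (Fin n → Bool) :=
    Equiv.piCongrRight fun b => if b = a then Equiv.boolNot else Equiv.refl Bool
  have hflip : ∀ u b, spin (flip u b) = (if b = a then -1 else 1) * spin (u b) := by
    intro u b
    by_cases h : b = a
    · subst h
      cases hb : u b <;> simp [flip, spin, hb]
    · simp [flip, h]
  have hF : (fun g => Fen β (signMap (Equiv.refl _) sg g)) = Fen (n := n) β := by
    funext g
    show Real.log (∑ u : Fin n → Bool, Real.exp (β * energy (signMap (Equiv.refl _) sg g) u)) =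
      Real.log (∑ u : Fin n → Bool, Real.exp (β * energy g u))
    congr 1
    rw [← flip.sum_comp]
    refine Finset.sum_congr rfl fun u _ => ?_
    congr 2
    rw [energy_eq_sum, energy_eq_sum]
    congr 1
    refine Finset.sum_congr rfl fun b _ => Finset.sum_congr rfl fun c _ => ?_
    by_cases hbc : b = c
    · simp [hbc]
    simp only [if_neg hbc, signMap, Equiv.refl_apply, bond, hflip]
    by_cases hb : b = a <;> by_cases hc : c = a
    · exact absurd (hb.trans hc.symm) hbc
    · subst hb; simp [sg, hbc, hc]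
    · subst hc; simp [sg, hbc]
    · simp [sg, hb, hc, Ne.symm hb, Ne.symm hc]
  have hprod : ((multiList α).map sg).prod = -1 := by
    have h1 : ((multiList α).map sg).prod = ∏ e, sg e ^ α e := by
      rw [← Finset.prod_map_toList, multiList]
      induction (Finset.univ : Finset (Edge n)).toList with
      | nil => simp
      | cons e l ih => simp [List.flatMap_cons, ih]
    rw [h1, ← Odd.neg_one_pow (α := ℝ) hα, degree, ← Finset.prod_pow_eq_pow_sum]
    rw [← Finset.prod_subset (Finset.subset_univ (Finset.univ.image fun b : Fin n => s(a, b)))]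
    · rw [Finset.prod_image fun b _ c _ h => Sym2.congr_right.1 h]
      refine Finset.prod_congr rfl fun b _ => ?_
      by_cases hb : b = a
      · subst hb; simp [sg, pow_mul]
      · simp [sg, hb, Ne.symm hb]
    · intro e _ he
      have : a ∉ e := fun hm => he (by
        obtain ⟨b, rfl⟩ := Sym2.mem_iff_exists.1 hm
        exact Finset.mem_image.2 ⟨b, Finset.mem_univ _, rfl⟩)
      simp [sg, this]
  have h := pdL_signMap (Tame.fen β) (Equiv.refl (Edge n)) sg (multiList α)
  rw [hF, Equiv.coe_refl, List.map_id, hprod] at h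
  have hI := integral_signMap (Tame.pdL (multiList α) (Tame.fen β)) (Equiv.refl _) sg fun e => by
    by_cases he : a ∈ e ∧ ¬e.IsDiag
    · right; simp [sg, he]
    · left; simp only [sg]; exact if_neg he
  have : coefOf (Fen β) α = -coefOf (Fen β) α := by
    rw [coefOf]
    calc ∫ g, pdL (multiList α) (Fen β) g ∂gauss (Edge n)
        = ∫ g, -pdL (multiList α) (Fen β) (signMap (Equiv.refl _) sg g) ∂gauss (Edge n) := by
          refine integral_congr_ae (Filter.Eventually.of_forall fun g => ?_)
          simp only [h g]; ring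
      _ = _ := by rw [integral_neg, hI]
  linarith

/-- The marginal on off-diagonal variables. -/
theorem disorder_map (n : ℕ) :
    (gauss (Edge n)).map (fun g (p : Pair n) => g s(p.1.1, p.1.2)) = disorder n := by
  classical
  symm
  refine Measure.pi_eq fun S hS => ?_
  have hm : Measurable fun (g : Cfg n) (p : Pair n) => g (pairEdge p) :=
    measurable_pi_lambda _ fun p => measurable_pi_apply _
  change ((gauss (Edge n)).map fun g (p : Pair n) => g (pairEdge p)) (Set.pi Set.univ S) = _
  rw [Measure.map_apply hm (MeasurableSet.univ_pi hS)]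
  have hpre : (fun (g : Cfg n) (p : Pair n) => g (pairEdge p)) ⁻¹' Set.pi Set.univ S =
      Set.pi Set.univ fun e : Edge n => ⋂ (p : Pair n) (_ : pairEdge p = e), S p := by
    ext g
    simp only [Set.mem_preimage, Set.mem_univ_pi, Set.mem_iInter]
    exact ⟨fun h e p hp => hp ▸ h p, fun h p => h _ p rfl⟩
  rw [hpre, gauss, Measure.pi_pi]
  rw [← Finset.prod_subset (Finset.subset_univ (Finset.univ.image (pairEdge (n := n))))]
  · rw [Finset.prod_image pairEdge_injective.injOn]
    refine Finset.prod_congr rfl fun p _ => congrArg _ ?_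
    ext x
    simp only [Set.mem_iInter]
    exact ⟨fun h => h p rfl, fun h q hq => pairEdge_injective hq ▸ h⟩
  · intro e _ he
    have : (⋂ (p : Pair n) (_ : pairEdge p = e), S p) = Set.univ :=
      Set.iInter_eq_univ.2 fun p => Set.iInter_eq_univ.2 fun hp =>
        absurd (Finset.mem_image.2 ⟨p, Finset.mem_univ _, hp⟩) he
    rw [this, measure_univ]

end Vale.Agent.P146
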