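import Vale.Agent.P146.CycleWords
import Vale.Agent.P146.CycleCalc
import Vale.Agent.P146.Gibbs

/-!
Schur test for the tuples meeting the rest of a multi-order.
-/

namespace Vale.Agent.P146

open MeasureTheory

namespace Cycle

attribute [local instance] Interp.isProb

variable {n l : ℕ}

/-- The path part of a tuple. -/
def pathSet (π : Fin (l + 2) → Fin n) : Finset (Edge n) := Finset.univ.image (pathEdge π)

/-- The closing edge of a tuple. -/
def closeEdge (π : Fin (l + 2) → Fin n) : Edge n := s(π 0, π (Fin.last (l + 1)))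

/-- The order left after contracting `S`. -/
def out (R : Edge n → ℕ) (π : Fin (l + 2) → Fin n) (S : Finset (Edge n)) : Edge n → ℕ :=
  shift R (pathSet π) S + Pi.single (closeEdge π) 1

theorem out_apply (R : Edge n → ℕ) (π : Fin (l + 2) → Fin n) (S : Finset (Edge n)) (x : Edge n) :
    out R π S x = R x + (if x ∈ pathSet π \ S then 1 else 0) - (if x ∈ S then 1 else 0) +
      (if x = closeEdge π then 1 else 0) := by
  simp [out, shift, Pi.single_apply]

/-- A contraction meeting the rest. -/
def Valid (R : Edge n → ℕ) (π : Fin (l + 2) → Fin n) (S : Finset (Edge n)) : Prop :=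
  Function.Injective π ∧ (∃ i, π i ∈ verts R) ∧ S ⊆ pathSet π ∧ ∀ x ∈ S, R x ≠ 0

theorem pathEdge_inj {π : Fin (l + 2) → Fin n} (hπ : Function.Injective π) :
    Function.Injective (pathEdge π) := by
  intro i j h
  rcases Sym2.eq_iff.1 h with ⟨h1, -⟩ | ⟨h1, h2⟩
  · exact Fin.castSucc_injective _ (hπ h1)
  · have e1 := congrArg Fin.val (hπ h1)
    have e2 := congrArg Fin.val (hπ h2)
    simp only [Fin.val_succ, Fin.val_castSucc] at e1 e2
    omega

theorem card_pathSet {π : Fin (l + 2) → Fin n} (hπ : Function.Injective π) :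
    (pathSet π).card = l + 1 := by
  rw [pathSet, Finset.card_image_of_injective _ (pathEdge_inj hπ), Finset.card_univ, Fintype.card_fin]

theorem pathEdge_mem (π : Fin (l + 2) → Fin n) (i : Fin (l + 1)) : pathEdge π i ∈ pathSet π :=
  Finset.mem_image.2 ⟨i, Finset.mem_univ _, rfl⟩

theorem out_close (R : Edge n → ℕ) (π : Fin (l + 2) → Fin n) (S : Finset (Edge n)) :
    out R π S (closeEdge π) ≠ 0 := by
  rw [out_apply, if_pos (rfl : closeEdge π = closeEdge π)]; omega

theorem out_path {R : Edge n → ℕ} {π : Fin (l + 2) → Fin n} {S : Finset (Edge n)}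
    (i : Fin (l + 1)) (hi : pathEdge π i ∉ S) : out R π S (pathEdge π i) ≠ 0 := by
  rw [out_apply, if_pos (Finset.mem_sdiff.2 ⟨pathEdge_mem π i, hi⟩), if_neg hi]; omega

theorem first_mem_out (R : Edge n → ℕ) (π : Fin (l + 2) → Fin n) (S : Finset (Edge n)) :
    π 0 ∈ verts (out R π S) :=
  mem_verts.2 ⟨_, out_close R π S, Sym2.mem_mk_left _ _⟩

theorem last_mem_out (R : Edge n → ℕ) (π : Fin (l + 2) → Fin n) (S : Finset (Edge n)) :
    π (Fin.last (l + 1)) ∈ verts (out R π S) :=
  mem_verts.2 ⟨_, out_close R π S, Sym2.mem_mk_right _ _⟩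

theorem ends_not_S {R : Edge n → ℕ} {π : Fin (l + 2) → Fin n} {S : Finset (Edge n)}
    (i : Fin (l + 1)) (hi : pathEdge π i ∉ S) :
    π i.castSucc ∈ verts (out R π S) ∧ π i.succ ∈ verts (out R π S) :=
  ⟨mem_verts.2 ⟨_, out_path i hi, Sym2.mem_mk_left _ _⟩,
    mem_verts.2 ⟨_, out_path i hi, Sym2.mem_mk_right _ _⟩⟩

theorem ends_S {R : Edge n → ℕ} {π : Fin (l + 2) → Fin n} {S : Finset (Edge n)}
    (hS : ∀ x ∈ S, R x ≠ 0) (i : Fin (l + 1)) (hi : pathEdge π i ∈ S) :
    π i.castSucc ∈ verts R ∧ π i.succ ∈ verts R :=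
  ⟨mem_verts.2 ⟨_, hS _ hi, Sym2.mem_mk_left _ _⟩, mem_verts.2 ⟨_, hS _ hi, Sym2.mem_mk_right _ _⟩⟩

/-- A fresh or vanished interior site only touches its two path edges. -/
theorem nbr {R : Edge n → ℕ} {π : Fin (l + 2) → Fin n} {S : Finset (Edge n)}
    (hπ : Function.Injective π) (hS : S ⊆ pathSet π) (i : Fin l)
    (hm : π i.succ.castSucc ∉ verts R ∨ π i.succ.castSucc ∉ verts (out R π S)) (z : Fin n)
    (hz : R s(π i.succ.castSucc, z) ≠ 0 ∨ out R π S s(π i.succ.castSucc, z) ≠ 0) :
    z = π i.castSucc.castSucc ∨ z = π i.succ.succ := by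
  generalize hx : s(π i.succ.castSucc, z) = x at hz
  have hmem : π i.succ.castSucc ∈ x := hx ▸ Sym2.mem_mk_left _ _
  have hne : x ∈ pathSet π ∨ x = closeEdge π := by
    by_contra hc
    obtain ⟨h1, h2⟩ := not_or.1 hc
    have : out R π S x = R x := by
      rw [out_apply, if_neg (fun h => h1 (Finset.mem_sdiff.1 h).1), if_neg (fun h => h1 (hS h)),
        if_neg h2]
      simp
    rw [this, or_self] at hz
    rcases hm with h | h
    · exact h (mem_verts.2 ⟨x, hz, hmem⟩)
    · exact h (mem_verts.2 ⟨x, by rwa [this], hmem⟩)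
  rcases hne with hP | he
  · obtain ⟨j, -, rfl⟩ := Finset.mem_image.1 hP
    rcases Sym2.eq_iff.1 hx with ⟨h1, h2⟩ | ⟨h1, h2⟩
    · right
      rw [h2, ← Fin.castSucc_injective _ (hπ h1)]
    · left
      have e := congrArg Fin.val (hπ h1)
      simp only [Fin.val_succ, Fin.val_castSucc] at e
      rw [h2]
      congr 1
      ext
      simp only [Fin.val_castSucc]
      omega
  · rw [he, closeEdge, Sym2.mem_iff] at hmem
    rcases hmem with h | h <;> have e := congrArg Fin.val (hπ h) <;>
      simp only [Fin.val_succ, Fin.val_castSucc, Fin.val_zero, Fin.val_last] at e <;> omega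

open Classical in
/-- The kind of a site, seen from the rest `R`. -/
noncomputable def kindOf (R : Edge n → ℕ) (π : Fin (l + 2) → Fin n) (S : Finset (Edge n))
    (i : Fin (l + 2)) : Kind :=
  if π i ∉ verts R then Kind.wild else if π i ∉ verts (out R π S) then Kind.forced else Kind.kept

/-- Exchange of the two sides. -/
def dual : Kind → Kind
  | .wild => .forced
  | .kept => .kept
  | .forced => .wild

theorem kindOf_wild {R : Edge n → ℕ} {π : Fin (l + 2) → Fin n} {S : Finset (Edge n)}
    {i : Fin (l + 2)} (h : kindOf R π S i = Kind.wild) : π i ∉ verts R := by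
  unfold kindOf at h; split_ifs at h; assumption

theorem kindOf_forced {R : Edge n → ℕ} {π : Fin (l + 2) → Fin n} {S : Finset (Edge n)}
    {i : Fin (l + 2)} (h : kindOf R π S i = Kind.forced) :
    π i ∈ verts R ∧ π i ∉ verts (out R π S) := by
  unfold kindOf at h; split_ifs at h with h1 h2; exact ⟨h1, h2⟩

theorem kindOf_kept {R : Edge n → ℕ} {π : Fin (l + 2) → Fin n} {S : Finset (Edge n)}
    {i : Fin (l + 2)} (h : kindOf R π S i = Kind.kept) :
    π i ∈ verts R ∧ π i ∈ verts (out R π S) := by
  unfold kindOf at h; split_ifs at h with h1 h2; exact ⟨h1, h2⟩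

theorem ok_fwd {R : Edge n → ℕ} {π : Fin (l + 2) → Fin n} {S : Finset (Edge n)}
    (h : Valid R π S) : OK R π (kindOf R π S) (fun i => decide (pathEdge π i ∈ S)) := by
  obtain ⟨hπ, -, hSP, hS⟩ := h
  refine ⟨hπ, fun i hi => (kindOf_kept hi).1,
    fun h0 => absurd (first_mem_out R π S) (kindOf_forced h0).2, fun i hi => hS _ (by simpa using hi),
    fun i hi => ?_, fun i hi => ?_, fun i hi z hz => nbr hπ hSP i (Or.inr (kindOf_forced hi).2) z (Or.inl hz)⟩
  · by_contra hb
    have := ends_not_S (R := R) i (show pathEdge π i ∉ S by simpa using hb)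
    rcases hi with h | h
    · exact (kindOf_forced h).2 this.1
    · exact (kindOf_forced h).2 this.2
  · by_contra hb
    have := ends_S hS i (show pathEdge π i ∈ S by simpa using hb)
    rcases hi with h | h
    · exact kindOf_wild h this.1
    · exact kindOf_wild h this.2

theorem dual_eq {k k' : Kind} : dual k = k' ↔ k = dual k' := by
  cases k <;> cases k' <;> simp [dual]

theorem ok_rev {R : Edge n → ℕ} {π : Fin (l + 2) → Fin n} {S : Finset (Edge n)}
    (h : Valid R π S) : OK (out R π S) π (fun i => dual (kindOf R π S i))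
      (fun i => !decide (pathEdge π i ∈ S)) := by
  obtain ⟨hπ, -, hSP, hS⟩ := h
  refine ⟨hπ, fun i hi => (kindOf_kept (dual_eq.1 hi)).2, fun _ => first_mem_out R π S,
    fun i hi => out_path i (by simpa using hi), fun i hi => ?_, fun i hi => ?_,
    fun i hi z hz => nbr hπ hSP i (Or.inl (kindOf_wild (dual_eq.1 hi))) z (Or.inr hz)⟩
  · by_contra hb
    have := ends_S hS i (show pathEdge π i ∈ S by simpa using hb)
    rcases hi with h | h
    · exact kindOf_wild (dual_eq.1 h) this.1
    · exact kindOf_wild (dual_eq.1 h) this.2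
  · by_contra hb
    have := ends_not_S (R := R) i (show pathEdge π i ∉ S by simpa using hb)
    rcases hi with h | h
    · exact (kindOf_forced (dual_eq.1 h)).2 this.1
    · exact (kindOf_forced (dual_eq.1 h)).2 this.2

/-- Some site is kept. -/
theorem exists_kept {R : Edge n → ℕ} {π : Fin (l + 2) → Fin n} {S : Finset (Edge n)}
    (h : Valid R π S) : ∃ i, kindOf R π S i = Kind.kept := by
  obtain ⟨hπ, ⟨j, hj⟩, hSP, hS⟩ := h
  by_contra hc
  have hk : ∀ i, π i ∈ verts R → π i ∉ verts (out R π S) := by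
    intro i hi ho
    exact hc ⟨i, by simp [kindOf, hi, ho]⟩
  have : ∀ i : Fin (l + 2), π i ∉ verts R := by
    intro i
    induction i using Fin.induction with
    | zero => exact fun h => hk 0 h (first_mem_out R π S)
    | succ i ih =>
      intro h
      have hiS : pathEdge π i ∈ S := by
        by_contra hb; exact hk _ h (ends_not_S i hb).2
      exact ih (ends_S hS i hiS).1
  exact this j hj

/-- Weight of a term in the Schur test. -/
noncomputable def rwt (n : ℕ) (Z : ℝ) : Kind → ℝ
  | .wild => 1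
  | .kept => Z
  | .forced => n

open Classical in
/-- The terms meeting `R`. -/
noncomputable def terms (R : Edge n → ℕ) (l : ℕ) :
    Finset ((Fin (l + 2) → Fin n) × Finset (Edge n)) :=
  Finset.univ.filter fun t => Valid R t.1 t.2

theorem mem_terms {R : Edge n → ℕ} {t : (Fin (l + 2) → Fin n) × Finset (Edge n)} :
    t ∈ terms R l ↔ Valid R t.1 t.2 := by simp [terms]

theorem eq_of_bits {π : Fin (l + 2) → Fin n} {S S' : Finset (Edge n)} (hS : S ⊆ pathSet π)
    (hS' : S' ⊆ pathSet π)
    (h : ∀ i, (pathEdge π i ∈ S ↔ pathEdge π i ∈ S')) : S = S' := by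
  ext x
  constructor
  · intro hx; obtain ⟨i, -, rfl⟩ := Finset.mem_image.1 (hS hx); exact (h i).1 hx
  · intro hx; obtain ⟨i, -, rfl⟩ := Finset.mem_image.1 (hS' hx); exact (h i).2 hx

theorem forward_count {K : ℕ} (hK : 2 ≤ K) (hn : 256 * K ^ 7 ≤ n) (hl : l + 2 ≤ K)
    {R : Edge n → ℕ} (hR : ∑ e, R e ≤ K) :
    ∑ t ∈ terms R l, ∏ i, rwt n (16 * (K : ℝ) ^ 4) (kindOf R t.1 t.2 i) ≤
      3072 * (K : ℝ) ^ 9 * (n : ℝ) ^ (l + 1) := by
  classical
  set ε : ℝ := 1 / (16 * (K : ℝ) ^ 3) with hε
  have hK' : (2 : ℝ) ≤ K := by exact_mod_cast hK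
  have hn' : 256 * (K : ℝ) ^ 7 ≤ n := by exact_mod_cast hn
  have h7 : (0 : ℝ) < 256 * (K : ℝ) ^ 7 := by positivity
  have hnpos : (0 : ℝ) < n := h7.trans_le hn'
  have hn0 : n ≠ 0 := by intro h; subst h; simp at hnpos
  let enc : (Fin (l + 2) → Fin n) × Finset (Edge n) →
      (Fin (l + 2) → Fin n) × (Fin (l + 2) → Kind) × (Fin (l + 1) → Bool) :=
    fun t => (t.1, kindOf R t.1 t.2, fun i => decide (pathEdge t.1 i ∈ t.2))
  have hterm : ∀ t ∈ terms R l, (n : ℝ) / (256 * (K : ℝ) ^ 7) *
      ∏ i, rwt n (16 * (K : ℝ) ^ 4) (kindOf R t.1 t.2 i) ≤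
      (n : ℝ) ^ (l + 2) * ∏ i, kw n ε (kindOf R t.1 t.2 i) := by
    intro t ht
    obtain ⟨j, hj⟩ := exists_kept (mem_terms.1 ht)
    have hlam : 1 ≤ (n : ℝ) / (256 * (K : ℝ) ^ 7) := (one_le_div h7).2 hn'
    have heq : (n : ℝ) * ε = 16 * (K : ℝ) ^ 4 * ((n : ℝ) / (256 * (K : ℝ) ^ 7)) := by
      rw [hε]; field_simp; ring
    rw [show (n : ℝ) ^ (l + 2) = ∏ _i : Fin (l + 2), (n : ℝ) by simp, ← Finset.prod_mul_distrib,
      ← Finset.mul_prod_erase _ _ (Finset.mem_univ j),
      ← Finset.mul_prod_erase _ (fun i => (n : ℝ) * kw n ε (kindOf R t.1 t.2 i)) (Finset.mem_univ j),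
      ← mul_assoc]
    refine mul_le_mul (le_of_eq ?_) ?_ (Finset.prod_nonneg fun i _ => ?_) ?_
    · simp only [hj, rwt, kw]; rw [heq]; ring
    · refine Finset.prod_le_prod (fun i _ => ?_) fun i _ => ?_
      · cases kindOf R t.1 t.2 i <;> simp [rwt]
      · cases kindOf R t.1 t.2 i
        · simp [rwt, kw, hnpos.ne']
        · simp only [rwt, kw, heq]; exact le_mul_of_one_le_right (by positivity) hlam
        · simp [rwt, kw]
    · cases kindOf R t.1 t.2 i <;> simp [rwt]
    · simp only [hj, kw]; positivity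
  have hinj : Set.InjOn enc (terms R l : Set ((Fin (l + 2) → Fin n) × Finset (Edge n))) := by
    rintro ⟨π, S⟩ ht ⟨π', S'⟩ ht' he
    simp only [enc, Prod.mk.injEq] at he
    obtain ⟨rfl, -, hb⟩ := he
    exact Prod.ext rfl (eq_of_bits (mem_terms.1 ht).2.2.1 (mem_terms.1 ht').2.2.1
      fun i => decide_eq_decide.1 (congrFun hb i))
  have hsum : ∑ t ∈ terms R l, ∏ i, kw n ε (kindOf R t.1 t.2 i) ≤ 12 * (K : ℝ) ^ 2 := by
    calc _ = ∑ m ∈ (terms R l).image enc, ∏ i, kw n ε (m.2.1 i) :=
          (Finset.sum_image hinj).symm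
      _ ≤ ∑ m ∈ (Finset.univ : Finset ((Fin (l + 2) → Fin n) × (Fin (l + 2) → Kind) ×
            (Fin (l + 1) → Bool))).filter (fun m => OK R m.1 m.2.1 m.2.2),
          ∏ i, kw n ε (m.2.1 i) := by
        refine Finset.sum_le_sum_of_subset_of_nonneg (fun m hm => ?_)
          fun m _ _ => Finset.prod_nonneg fun i _ => kw_nonneg n (by positivity) _
        obtain ⟨t, ht, rfl⟩ := Finset.mem_image.1 hm
        exact Finset.mem_filter.2 ⟨Finset.mem_univ _, ok_fwd (mem_terms.1 ht)⟩
      _ ≤ _ := count_le hK hn0 hR hl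
  have h := (Finset.sum_le_sum hterm).trans_eq (Finset.mul_sum _ _ _).symm
  rw [← Finset.mul_sum] at h
  have h2 := h.trans (mul_le_mul_of_nonneg_left hsum (by positivity))
  rw [div_mul_eq_mul_div, div_le_iff₀ h7] at h2
  refine le_of_mul_le_mul_left (h2.trans_eq ?_) hnpos
  ring

theorem wgt_eq_prod {ι : Type*} [Fintype ι] (α : ι → ℕ) :
    wgt α = ∏ x, ((α x).factorial : ℝ)⁻¹ := by
  simp [wgt, Finset.prod_inv_distrib]

theorem sum_out_le {R : Edge n → ℕ} {π : Fin (l + 2) → Fin n} {S : Finset (Edge n)}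
    (hπ : Function.Injective π) : ∑ x, out R π S x ≤ ∑ x, R x + (l + 2) := by
  calc ∑ x, out R π S x ≤ ∑ x, (R x + ((if x ∈ pathSet π then 1 else 0) +
        (if x = closeEdge π then 1 else 0))) := by
        refine Finset.sum_le_sum fun x _ => ?_
        rw [out_apply]
        simp only [Finset.mem_sdiff]
        split_ifs <;> simp_all <;> omega
    _ = _ := by
        rw [Finset.sum_add_distrib, Finset.sum_add_distrib, Finset.sum_ite_mem,
          Finset.univ_inter, Finset.sum_ite_eq']
        simp [card_pathSet hπ]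

theorem ratio_le {K : ℕ} (hK : 1 ≤ K) {R : Edge n → ℕ} {π : Fin (l + 2) → Fin n}
    {S : Finset (Edge n)} (h : Valid R π S) (hR : ∑ e, R e + (l + 2) ≤ K) :
    mult R S ^ 2 * wgt R ≤
      (K : ℝ) * (∏ i, if kindOf R π S i = Kind.kept then (K : ℝ) else 1) * wgt (out R π S) := by
  classical
  obtain ⟨hπ, -, hSP, hS⟩ := h
  have hKr : (1 : ℝ) ≤ K := by exact_mod_cast hK
  have ho : ∀ x, out R π S x ≤ K := fun x =>
    (Finset.single_le_sum (fun y _ => Nat.zero_le _) (Finset.mem_univ x)).trans
      ((sum_out_le hπ).trans hR)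
  have ha : ∀ x, R x ≤ K := fun x => by
    have := Finset.single_le_sum (f := R) (fun y _ => Nat.zero_le _) (Finset.mem_univ x)
    omega
  let q : Edge n → ℝ := fun x => if x ∈ S then (R x : ℝ) else R x + 1
  have hq : ∏ x ∈ pathSet π, q x ≤ ∏ i, if kindOf R π S i = Kind.kept then (K : ℝ) else 1 := by
    rw [pathSet, Finset.prod_image fun a _ b _ e => pathEdge_inj hπ e, Fin.prod_univ_succ
      (f := fun i => if kindOf R π S i = Kind.kept then (K : ℝ) else 1)]
    refine le_trans ?_ (le_mul_of_one_le_left (Finset.prod_nonneg fun i _ => by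
      split_ifs <;> positivity) (by split_ifs <;> linarith))
    refine Finset.prod_le_prod (fun i _ => by simp only [q]; split_ifs <;> positivity) fun i _ => ?_
    simp only [q]
    cases hk : kindOf R π S i.succ with
    | kept =>
      simp only [if_true]
      split_ifs with hiS
      · exact_mod_cast ha _
      · have h1 := ho (pathEdge π i)
        rw [out_apply, if_pos (Finset.mem_sdiff.2 ⟨pathEdge_mem π i, hiS⟩), if_neg hiS] at h1
        exact_mod_cast (show R (pathEdge π i) + 1 ≤ K by omega)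
    | wild =>
      simp only [reduceCtorEq, if_false]
      have hiS : pathEdge π i ∉ S := fun e => kindOf_wild hk (ends_S hS i e).2
      have hz : R (pathEdge π i) = 0 := by
        by_contra e; exact kindOf_wild hk (mem_verts.2 ⟨_, e, Sym2.mem_mk_right _ _⟩)
      simp [hiS, hz]
    | forced =>
      simp only [reduceCtorEq, if_false]
      have hiS : pathEdge π i ∈ S := by
        by_contra e; exact (kindOf_forced hk).2 (ends_not_S i e).2
      have hz : out R π S (pathEdge π i) = 0 := by
        by_contra e; exact (kindOf_forced hk).2 (mem_verts.2 ⟨_, e, Sym2.mem_mk_right _ _⟩)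
      rw [out_apply, if_pos hiS, if_neg (fun e => (Finset.mem_sdiff.1 e).2 hiS)] at hz
      rw [if_pos hiS]
      exact_mod_cast (show R (pathEdge π i) ≤ 1 by omega)
  have hsplit : ∏ x, ((if x ∈ pathSet π then q x else 1) * (if x = closeEdge π then (K : ℝ) else 1))
      = (∏ x ∈ pathSet π, q x) * K := by
    rw [Finset.prod_mul_distrib, Finset.prod_ite_mem, Finset.univ_inter, Finset.prod_ite_eq']
    simp
  calc mult R S ^ 2 * wgt R
      = ∏ x, (if x ∈ S then (R x : ℝ) ^ 2 else 1) * ((R x).factorial : ℝ)⁻¹ := by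
        rw [Finset.prod_mul_distrib, Finset.prod_ite_mem, Finset.univ_inter, mult,
          ← Finset.prod_pow, wgt_eq_prod]
    _ ≤ ∏ x, ((if x ∈ pathSet π then q x else 1) * (if x = closeEdge π then (K : ℝ) else 1)) *
          ((out R π S x).factorial : ℝ)⁻¹ := by
        refine Finset.prod_le_prod (fun x _ => by split_ifs <;> positivity) fun x _ => ?_
        rw [mul_inv_le_iff₀ (by positivity), mul_right_comm, le_mul_inv_iff₀ (by positivity)]
        have h1 := ho x
        have h2 := ha x
        rw [out_apply] at h1 ⊢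
        simp only [q, Finset.mem_sdiff] at h1 ⊢
        by_cases hxS : x ∈ S
        · have hxP := hSP hxS
          obtain ⟨a, ha'⟩ := Nat.exists_eq_succ_of_ne_zero (hS x hxS)
          simp only [hxS, hxP, if_true, not_true_eq_false, and_false, if_false, ha'] at h1 ⊢
          by_cases hxe : x = closeEdge π
          · simp only [hxe, if_true, Nat.succ_eq_add_one, add_zero, Nat.add_sub_cancel]
            rw [sq]
            gcongr
            exact_mod_cast ha' ▸ h2
          · simp only [hxe, if_false, Nat.succ_eq_add_one, add_zero, Nat.add_sub_cancel,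
              mul_one, Nat.factorial_succ]
            exact le_of_eq (by push_cast; ring)
        · by_cases hxP : x ∈ pathSet π
          · simp only [hxS, hxP, if_true, if_false, not_false_eq_true, and_self, Nat.sub_zero,
              one_mul] at h1 ⊢
            by_cases hxe : x = closeEdge π
            · simp only [hxe, if_true] at h1 ⊢
              rw [Nat.factorial_succ, Nat.factorial_succ]
              push_cast
              have h3 : ((R (closeEdge π) : ℝ) + 1 + 1) ≤ K := by exact_mod_cast h1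
              have h4 := mul_le_mul_of_nonneg_right h3 (show (0 : ℝ) ≤
                ((R (closeEdge π) : ℝ) + 1) * ((R (closeEdge π)).factorial : ℝ) by positivity)
              linarith
            · simp only [hxe, if_false, add_zero, mul_one, Nat.factorial_succ] at h1 ⊢
              exact le_of_eq (by push_cast; ring)
          · simp only [hxS, hxP, if_false, false_and, add_zero, Nat.sub_zero, one_mul] at h1 ⊢
            by_cases hxe : x = closeEdge π
            · simp only [hxe, if_true, Nat.factorial_succ] at h1 ⊢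
              push_cast
              gcongr
              exact_mod_cast h1
            · simp [hxe]
    _ = (∏ x ∈ pathSet π, q x) * K * wgt (out R π S) := by
        rw [Finset.prod_mul_distrib, hsplit, wgt_eq_prod]
    _ ≤ _ := by
        refine mul_le_mul_of_nonneg_right ?_ (wgt_nonneg _)
        rw [mul_comm (K : ℝ)]
        exact mul_le_mul_of_nonneg_right hq (by positivity)

/-- The part of the coefficient of the path functional coming from tuples that meet `R`. -/
noncomputable def err (β : ℝ) (R : Edge n → ℕ) (l : ℕ) : ℝ :=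
  ∑ t ∈ terms R l, mult R t.2 * coefOf (Fen β) (out R t.1 t.2)

theorem err_total (β : ℝ) {K : ℕ} (hK : 2 ≤ K) (hn : 256 * K ^ 7 ≤ n) (hl : l + 2 ≤ K) :
    ∑ R ∈ ordUpTo (Edge n) (K - (l + 2)), wgt R * err β R l ^ 2 ≤
      36864 * (K : ℝ) ^ 12 * β ^ 2 * (n : ℝ) ^ (l + 2) := by
  classical
  set ε : ℝ := 1 / (16 * (K : ℝ) ^ 3) with hε
  have hK' : (2 : ℝ) ≤ K := by exact_mod_cast hK
  have hn0 : n ≠ 0 := by
    have h256 : 0 < 256 * K ^ 7 := by positivity
    omega
  have hnpos : (0 : ℝ) < n := Nat.cast_pos.2 (Nat.pos_of_ne_zero hn0)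
  let 𝒜 : Finset (Edge n → ℕ) := (Finset.Icc 1 K).biUnion (orders (Edge n))
  have hmem : ∀ R ∈ ordUpTo (Edge n) (K - (l + 2)), ∑ e, R e + (l + 2) ≤ K := by
    intro R hR; have := mem_ordUpTo.1 hR; omega
  have hρ : ∀ (R : Edge n → ℕ) (t : (Fin (l + 2) → Fin n) × Finset (Edge n)),
      0 < ∏ i, rwt n (16 * (K : ℝ) ^ 4) (kindOf R t.1 t.2 i) := by
    intro R t
    refine Finset.prod_pos fun i _ => ?_
    cases kindOf R t.1 t.2 i <;> simp only [rwt] <;> positivity
  have h := schur (ordUpTo (Edge n) (K - (l + 2))) (fun R => terms R l) 𝒜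
    (fun R t => out R t.1 t.2) wgt (fun R _ => wgt_nonneg R) (fun R t => mult R t.2)
    (fun R t => ∏ i, rwt n (16 * (K : ℝ) ^ 4) (kindOf R t.1 t.2 i)) (fun R _ t _ => hρ R t)
    (coefOf (Fen β)) wgt (Am := 3072 * (K : ℝ) ^ 9 * (n : ℝ) ^ (l + 1))
    (Bm := 12 * (K : ℝ) ^ 3) (by positivity)
    (fun R hR => forward_count hK hn hl (by have := hmem R hR; omega))
    (fun R hR t ht => by
      have hv := mem_terms.1 ht
      have h1 := (sum_out_le (R := R) (S := t.2) hv.1).trans (hmem R hR)
      have h2 := Finset.single_le_sum (f := out R t.1 t.2) (fun x _ => Nat.zero_le _)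
        (Finset.mem_univ (closeEdge t.1))
      have h3 := out_close R t.1 t.2
      simp only [𝒜, Finset.mem_biUnion, Finset.mem_Icc, mem_orders]
      exact ⟨_, ⟨by omega, h1⟩, rfl⟩)
    (fun α hα => by
      obtain ⟨k, hk, hk'⟩ := Finset.mem_biUnion.1 hα
      have hαK : ∑ e, α e ≤ K := by rw [mem_orders.1 hk']; exact (Finset.mem_Icc.1 hk).2
      let P := ((ordUpTo (Edge n) (K - (l + 2))).sigma fun R => terms R l).filter
        fun p => out p.1 p.2.1 p.2.2 = α
      let enc : (Σ _ : Edge n → ℕ, (Fin (l + 2) → Fin n) × Finset (Edge n)) →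
          (Fin (l + 2) → Fin n) × (Fin (l + 2) → Kind) × (Fin (l + 1) → Bool) :=
        fun p => (p.2.1, fun i => dual (kindOf p.1 p.2.1 p.2.2 i),
          fun i => !decide (pathEdge p.2.1 i ∈ p.2.2))
      have hP : ∀ p ∈ P, Valid p.1 p.2.1 p.2.2 ∧ (∑ e, p.1 e + (l + 2) ≤ K) ∧
          out p.1 p.2.1 p.2.2 = α := by
        intro p hp
        obtain ⟨h1, h2⟩ := Finset.mem_filter.1 hp
        obtain ⟨h3, h4⟩ := Finset.mem_sigma.1 h1
        exact ⟨mem_terms.1 h4, hmem _ h3, h2⟩
      have hinj : Set.InjOn enc (P : Set (Σ _ : Edge n → ℕ, (Fin (l + 2) → Fin n) × Finset (Edge n))) := by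
        rintro ⟨R, π, S⟩ hp ⟨R', π', S'⟩ hp' he
        simp only [enc, Prod.mk.injEq] at he
        obtain ⟨rfl, -, hb⟩ := he
        obtain ⟨v, -, o⟩ := hP _ hp
        obtain ⟨v', -, o'⟩ := hP _ hp'
        obtain rfl : S = S' := eq_of_bits v.2.2.1 v'.2.2.1 fun i => by
          simpa using congrFun hb i
        obtain rfl : R = R' := by
          funext x
          have := congrFun (o.trans o'.symm) x
          simp only [out_apply, Finset.mem_sdiff] at this
          by_cases hx : x ∈ S
          · have h1 := v.2.2.2 x hx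
            have h2 := v'.2.2.2 x hx
            simp only [hx, not_true_eq_false, and_false, if_false, if_true, add_zero] at this h1 h2
            omega
          · simp only [hx, if_false, Nat.sub_zero] at this
            omega
        rfl
      calc ∑ p ∈ P, wgt p.1 * mult p.1 p.2.2 ^ 2 /
              ∏ i, rwt n (16 * (K : ℝ) ^ 4) (kindOf p.1 p.2.1 p.2.2 i)
          ≤ ∑ p ∈ P, (K : ℝ) * wgt α * ∏ i, kw n ε ((enc p).2.1 i) := by
            refine Finset.sum_le_sum fun p hp => ?_
            obtain ⟨v, hs, o⟩ := hP p hp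
            have hr := ratio_le (by omega) v hs
            rw [o] at hr
            rw [div_le_iff₀ (hρ _ _), mul_assoc, ← Finset.prod_mul_distrib, mul_comm (wgt p.1)]
            refine hr.trans_eq ?_
            rw [mul_right_comm]
            congr 1
            refine Finset.prod_congr rfl fun i _ => ?_
            simp only [enc]
            cases kindOf p.1 p.2.1 p.2.2 i <;> simp [dual, kw, rwt, hε]
            all_goals field_simp
        _ = (K : ℝ) * wgt α * ∑ m ∈ P.image enc, ∏ i, kw n ε (m.2.1 i) := by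
            rw [Finset.sum_image hinj, Finset.mul_sum]
        _ ≤ (K : ℝ) * wgt α * (12 * (K : ℝ) ^ 2) := by
            refine mul_le_mul_of_nonneg_left (le_trans ?_ (count_le hK hn0 hαK hl))
              (mul_nonneg (by positivity) (wgt_nonneg α))
            refine Finset.sum_le_sum_of_subset_of_nonneg (fun m hm => ?_)
              fun m _ _ => Finset.prod_nonneg fun i _ => kw_nonneg n (by positivity) _
            obtain ⟨p, hp, rfl⟩ := Finset.mem_image.1 hm
            obtain ⟨v, -, o⟩ := hP p hp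
            exact Finset.mem_filter.2 ⟨Finset.mem_univ _, o ▸ ok_rev v⟩
        _ = _ := by ring)
  refine h.trans ?_
  have hgrad : ∑ α ∈ 𝒜, wgt α * coefOf (Fen β) α ^ 2 ≤ β ^ 2 * n := by
    refine (positive_total (Tame.fen β) K).trans ?_
    refine (integral_mono (Tame.sum Finset.univ fun e _ => ((Tame.fen β).pd e).pow 2).integrable
      (integrable_const _) (Fen_grad_le β)).trans_eq ?_
    simp
  refine (mul_le_mul_of_nonneg_left hgrad (by positivity)).trans_eq ?_
  ring

end Cycle

end Vale.Agent.P146
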