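import Vale.Agent.P146.CycleErr

/-!
The path functional and the coefficient of a free cycle.
-/

namespace Vale.Agent.P146

open MeasureTheory

namespace Cycle

variable {n l : ℕ}

open Classical in
/-- Injective tuples. -/
noncomputable def tuples (n l : ℕ) : Finset (Fin (l + 2) → Fin n) :=
  Finset.univ.filter fun π => Function.Injective π

open Classical in
/-- Injective tuples away from `R`. -/
noncomputable def avoid (R : Edge n → ℕ) (l : ℕ) : Finset (Fin (l + 2) → Fin n) :=
  Finset.univ.filter fun π => Function.Injective π ∧ ∀ i, π i ∉ verts R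

theorem mem_avoid {R : Edge n → ℕ} {π : Fin (l + 2) → Fin n} :
    π ∈ avoid R l ↔ Function.Injective π ∧ ∀ i, π i ∉ verts R := by simp [avoid]

/-- One term of the path functional. -/
noncomputable def piece (β : ℝ) (π : Fin (l + 2) → Fin n) (g : Cfg n) : ℝ :=
  pd (closeEdge π) (Fen β) g * ∏ x ∈ pathSet π, g x

/-- The path functional. -/
noncomputable def pathFun (β : ℝ) (n l : ℕ) (g : Cfg n) : ℝ :=
  ∑ π ∈ tuples n l, piece β π g

theorem tame_piece (β : ℝ) (π : Fin (l + 2) → Fin n) : Tame (piece β π) :=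
  ((Tame.fen β).pd _).mul (Tame.prod _ fun _ _ => Tame.coord _)

theorem tame_pathFun (β : ℝ) (n l : ℕ) : Tame (pathFun β n l) :=
  Tame.sum _ fun π _ => tame_piece β π

theorem coef_piece (β : ℝ) (π : Fin (l + 2) → Fin n) (R : Edge n → ℕ) :
    coefOf (piece β π) R =
      ∑ S ∈ (pathSet π).powerset, mult R S * coefOf (Fen β) (out R π S) := by
  unfold piece
  rw [coef_prod ((Tame.fen β).pd _)]
  refine Finset.sum_congr rfl fun S _ => ?_
  rw [Interp.coef_pd (Tame.fen β)]
  rfl

/-- Split the coefficient of the path functional. -/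
theorem coef_pathFun (β : ℝ) (R : Edge n → ℕ) :
    coefOf (pathFun β n l) R =
      ∑ π ∈ avoid R l, coefOf (Fen β) (out R π ∅) + err β R l := by
  classical
  unfold pathFun
  rw [coef_sum _ _ fun π _ => tame_piece β π,
    ← Finset.sum_filter_add_sum_filter_not (tuples n l) (fun π => ∀ i, π i ∉ verts R)]
  congr 1
  · rw [tuples, Finset.filter_filter]
    refine Finset.sum_congr rfl fun π hπ => ?_
    rw [coef_piece, Finset.sum_eq_single ∅]
    · simp [mult]
    · intro S hS hne
      obtain ⟨x, hx⟩ := Finset.nonempty_iff_ne_empty.2 hne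
      obtain ⟨i, -, rfl⟩ := Finset.mem_image.1 (Finset.mem_powerset.1 hS hx)
      have hz : R (pathEdge π i) = 0 := by
        by_contra e
        exact (mem_avoid.1 hπ).2 _ (mem_verts.2 ⟨_, e, Sym2.mem_mk_left _ _⟩)
      rw [mult, Finset.prod_eq_zero hx (by simp [hz]), zero_mul]
    · simp
  · rw [err, terms, tuples, Finset.filter_filter, Finset.sum_filter, Finset.sum_filter,
      Fintype.sum_prod_type]
    refine Finset.sum_congr rfl fun π _ => ?_
    split_ifs with h
    · rw [coef_piece, show (pathSet π).powerset = Finset.univ.filter (fun S => S ⊆ pathSet π) by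
        ext S; simp, Finset.sum_filter]
      refine Finset.sum_congr rfl fun S _ => ?_
      by_cases hS : S ⊆ pathSet π
      · rw [if_pos hS]
        by_cases hR : ∀ x ∈ S, R x ≠ 0
        · rw [if_pos ⟨h.1, by simpa only [not_forall, not_not] using h.2, hS, hR⟩]
        · rw [if_neg fun v => hR v.2.2.2]
          obtain ⟨x, hx, hx0⟩ : ∃ x ∈ S, R x = 0 := by
            simpa only [not_forall, not_not, exists_prop] using hR
          rw [mult, Finset.prod_eq_zero hx (by simp [hx0]), zero_mul]
      · rw [if_neg hS, if_neg fun v => hS v.2.2.1]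
    · refine (Finset.sum_eq_zero fun S _ => if_neg fun v => h ⟨v.1, ?_⟩).symm
      obtain ⟨i, hi⟩ := v.2.1
      exact fun hall => hall i hi

theorem dlScale_ne_zero (hn : n ≠ 0) (L : List (Fin n × Fin n)) : dlScale L ≠ 0 := by
  have h : (0 : ℝ) < n := Nat.cast_pos.2 (Nat.pos_of_ne_zero hn)
  simp only [dlScale, ne_eq, List.prod_eq_zero_iff, List.mem_map, not_exists, not_and]
  intro p _
  unfold dfac
  split_ifs <;> positivity

/-- Relabelling of sites. -/
theorem coef_perm (hn : n ≠ 0) (β : ℝ) (σ : Equiv.Perm (Fin n)) {γ γ' : Edge n → ℕ}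
    (h : ∀ x, γ' (Sym2.map σ x) = γ x) : coefOf (Fen β) γ' = coefOf (Fen β) γ := by
  let L : List (Fin n × Fin n) := (multiList γ).map Quot.out
  let L' : List (Fin n × Fin n) := L.map fun p => (σ p.1, σ p.2)
  have hL : L.map (fun p => s(p.1, p.2)) = multiList γ := by
    simp only [L, List.map_map]
    conv_rhs => rw [← List.map_id (multiList γ)]
    exact List.map_congr_left fun x _ => Quot.out_eq x
  have hL' : (L'.map fun p => s(p.1, p.2)).Perm (multiList γ') := by
    have e : L'.map (fun p => s(p.1, p.2)) = (multiList γ).map (Sym2.map σ) := by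
      rw [← hL]; simp [L', List.map_map, Function.comp_def]
    rw [e, List.perm_iff_count]
    intro y
    obtain ⟨x, rfl⟩ : ∃ x, Sym2.map σ x = y := ⟨Sym2.map σ.symm y, by simp [Sym2.map_map]⟩
    rw [List.count_map_of_injective _ _ (Sym2.map.injective σ.injective), Interp.count_multiList,
      Interp.count_multiList, h]
  have key : ∀ (M : List (Fin n × Fin n)) (δ : Edge n → ℕ),
      (M.map fun p => s(p.1, p.2)).Perm (multiList δ) →
      chat β M = dlScale M * coefOf (Fen β) δ := by
    intro M δ hM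
    simp only [chat, DL_eq M (Tame.fen β), mean, integral_const_mul, coefOf,
      pdL_perm (Tame.fen β) hM]
  have hs : dlScale L' = dlScale L := by
    simp only [L', dlScale, List.map_map]
    congr 1
    exact List.map_congr_left fun p _ => by simp [dfac]
  have h1 : chat β L' = chat β L := chat_perm β σ L
  rw [key L' γ' hL', key L γ (by rw [hL]), hs] at h1
  exact mul_left_cancel₀ (dlScale_ne_zero hn L) h1

/-- All free positions give the same coefficient. -/
theorem coef_avoid (hn : n ≠ 0) (β : ℝ) {R : Edge n → ℕ} {π π' : Fin (l + 2) → Fin n}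
    (h : π ∈ avoid R l) (h' : π' ∈ avoid R l) :
    coefOf (Fen β) (out R π' ∅) = coefOf (Fen β) (out R π ∅) := by
  obtain ⟨hπ, hav⟩ := mem_avoid.1 h
  obtain ⟨hπ', hav'⟩ := mem_avoid.1 h'
  obtain ⟨σ, hσ⟩ := Equiv.Perm.exists_extending_pair
    (Sum.elim π (Subtype.val : {a // a ∈ verts R} → Fin n))
    (Sum.elim π' (Subtype.val : {a // a ∈ verts R} → Fin n))
    (hπ.sumElim Subtype.val_injective fun i a e => hav i (e ▸ a.2))
    (hπ'.sumElim Subtype.val_injective fun i a e => hav' i (e ▸ a.2))
  have hp : ∀ i, σ (π i) = π' i := fun i => hσ (Sum.inl i)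
  have hV : ∀ a ∈ verts R, σ a = a := fun a ha => hσ (Sum.inr ⟨a, ha⟩)
  have hinj := Sym2.map.injective σ.injective
  refine coef_perm hn β σ fun x => ?_
  have hfix : ∀ y, R y ≠ 0 → Sym2.map σ y = y := by
    intro y hy
    refine (Sym2.map_congr fun a ha => ?_).trans (congrFun Sym2.map_id y)
    exact hV a (mem_verts.2 ⟨y, hy, ha⟩)
  have hR : R (Sym2.map σ x) = R x := by
    by_cases hx : R x = 0
    · by_contra e
      exact e (by rw [hinj (hfix _ (hx ▸ e))])
    · rw [hfix x hx]
  have hP : Sym2.map σ x ∈ pathSet π' ↔ x ∈ pathSet π := by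
    rw [show pathSet π' = (pathSet π).image (Sym2.map σ) by
      rw [pathSet, pathSet, Finset.image_image]
      exact Finset.image_congr fun i _ => by simp [pathEdge, hp]]
    exact hinj.mem_finset_image
  have he : Sym2.map σ x = closeEdge π' ↔ x = closeEdge π := by
    rw [show closeEdge π' = Sym2.map σ (closeEdge π) by simp [closeEdge, hp]]
    exact hinj.eq_iff
  simp only [out_apply, Finset.sdiff_empty, hR, hP, he, Finset.notMem_empty]

theorem descFactorial_ge {N m : ℕ} {n : ℝ} (hn : 0 < n) {a : ℝ} (hN : n - a ≤ ((N + 1 - m : ℕ) : ℝ))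
    (ha : a ≤ n) : n ^ m * (1 - m * a / n) ≤ (N.descFactorial m : ℝ) := by
  have h1 : (n - a) ^ m ≤ (N.descFactorial m : ℝ) :=
    (pow_le_pow_left₀ (by linarith) hN m).trans (by exact_mod_cast Nat.pow_sub_le_descFactorial N m)
  refine le_trans ?_ h1
  have h2 : 1 + (m : ℝ) * (-a / n) ≤ (1 + -a / n) ^ m := one_add_mul_le_pow (by
    rw [neg_div]
    have : a / n ≤ 1 := (div_le_one hn).2 ha
    linarith) m
  calc n ^ m * (1 - m * a / n) ≤ n ^ m * (1 + -a / n) ^ m :=
        mul_le_mul_of_nonneg_left (le_trans (le_of_eq (by ring)) h2) (by positivity)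
    _ = _ := by rw [← mul_pow]; congr 1; field_simp; ring

open Classical in
theorem card_injective_avoiding (V : Finset (Fin n)) (m : ℕ) :
    (Finset.univ.filter fun π : Fin m → Fin n => Function.Injective π ∧ ∀ i, π i ∉ V).card =
      (n - V.card).descFactorial m := by
  rw [← Fintype.card_subtype]
  let e : {π : Fin m → Fin n // Function.Injective π ∧ ∀ i, π i ∉ V} ≃
      (Fin m ↪ {a : Fin n // a ∉ V}) :=
    { toFun := fun π => ⟨fun i => ⟨π.1 i, π.2.2 i⟩, fun i j h => π.2.1 (congrArg Subtype.val h)⟩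
      invFun := fun f => ⟨fun i => (f i).1,
        fun i j h => f.injective (Subtype.ext h), fun i => (f i).2⟩
      left_inv := fun π => rfl
      right_inv := fun f => rfl }
  rw [Fintype.card_congr e, Fintype.card_embedding_eq, Fintype.card_fin]
  congr 1
  rw [Fintype.card_subtype_compl, Fintype.card_fin, Fintype.card_coe]

theorem avoid_ge {K : ℕ} (hn : 6 * K * K ≤ n) {R : Edge n → ℕ}
    (hR : ∑ e, R e + (l + 2) ≤ K) :
    (n : ℝ) ^ (l + 2) / 2 ≤ ((avoid R l).card : ℝ) := by
  classical
  have hv : (verts R).card ≤ 2 * K := card_verts_le (by omega)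
  have hK : 0 < K := by omega
  have h3 : 3 * K ≤ n := le_trans (by nlinarith) hn
  have hnpos : (0 : ℝ) < n := by exact_mod_cast (show 0 < n by omega)
  rw [avoid, card_injective_avoiding]
  refine le_trans ?_ (descFactorial_ge hnpos (a := 3 * (K : ℝ)) ?_ (by exact_mod_cast h3))
  · have hm : ((l + 2 : ℕ) : ℝ) * (3 * K) / n ≤ 1 / 2 := by
      rw [div_le_div_iff₀ hnpos two_pos, one_mul]
      have : (l + 2) * (3 * K) * 2 ≤ n := by
        have h1 : (l + 2) * (6 * K) ≤ K * (6 * K) := Nat.mul_le_mul_right _ (by omega)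
        calc (l + 2) * (3 * K) * 2 = (l + 2) * (6 * K) := by ring
          _ ≤ K * (6 * K) := h1
          _ = 6 * K * K := by ring
          _ ≤ n := hn
      exact_mod_cast this
    calc (n : ℝ) ^ (l + 2) / 2 = (n : ℝ) ^ (l + 2) * (1 - 1 / 2) := by ring
      _ ≤ _ := mul_le_mul_of_nonneg_left (by linarith) (by positivity)
  · rw [sub_le_iff_le_add]
    exact_mod_cast (show n ≤ n - (verts R).card + 1 - (l + 2) + 3 * K by omega)

theorem walkEdges_append_one : ∀ {m : ℕ} (π : Fin (m + 1) → Fin n) (c : Fin n),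
    walkEdges (List.ofFn π ++ [c]) =
      List.ofFn (fun i : Fin m => (π i.castSucc, π i.succ)) ++ [(π (Fin.last m), c)] := by
  intro m
  induction m with
  | zero => intro π c; simp [walkEdges]
  | succ m ih =>
    intro π c
    rw [List.ofFn_succ, List.cons_append, List.ofFn_succ (f := fun i : Fin (m + 1) => (π i.castSucc, π i.succ)),
      List.cons_append]
    have h := ih (fun i => π i.succ) c
    rw [List.ofFn_succ, List.cons_append] at h ⊢
    rw [walkEdges, h]
    simp [Fin.castSucc_succ]

theorem cycOrd_eq {π : Fin (l + 2) → Fin n} (hπ : Function.Injective π) (x : Edge n) :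
    cycOrd π x = (if x ∈ pathSet π then 1 else 0) + (if x = closeEdge π then 1 else 0) := by
  classical
  rw [cycOrd, walkEdges_append_one, List.map_append, List.count_append, List.map_ofFn]
  congr 1
  · show List.count x (List.ofFn (pathEdge π)) = _
    rw [List.Nodup.count (List.nodup_ofFn.2 fun i j h => pathEdge_inj hπ h)]
    refine if_congr ?_ rfl rfl
    rw [List.mem_ofFn, pathSet, Finset.mem_image]
    simp [pathEdge]
  · rw [closeEdge, Sym2.eq_swap, List.map_singleton]
    by_cases h : x = s(π (Fin.last (l + 1)), π 0)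
    · simp [h]
    · rw [if_neg h, List.count_eq_zero]
      simpa using h

/-- The free cycles over one `R`. -/
theorem avoid_sum_le (hn : n ≠ 0) (β : ℝ) {R : Edge n → ℕ} {N : ℝ} (hN : 0 < N)
    (hcard : N ≤ ((avoid R l).card : ℝ)) :
    ∑ π ∈ avoid R l, wgt (out R π ∅) * coefOf (Fen β) (out R π ∅) ^ 2 ≤
      2 / N * (wgt R * (coefOf (pathFun β n l) R ^ 2 + err β R l ^ 2)) := by
  classical
  have hne : (avoid R l).Nonempty := by
    rw [← Finset.card_pos]
    exact_mod_cast hN.trans_le hcard
  obtain ⟨π₀, h₀⟩ := hne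
  set c := coefOf (Fen β) (out R π₀ ∅) with hc
  have hw : ∀ π : Fin (l + 2) → Fin n, wgt (out R π ∅) ≤ wgt R := by
    intro π
    rw [wgt_eq_prod, wgt_eq_prod]
    refine Finset.prod_le_prod (fun x _ => by positivity) fun x _ => ?_
    refine inv_anti₀ (by positivity) ?_
    refine Nat.cast_le.2 (Nat.factorial_le ?_)
    rw [out_apply]; simp only [Finset.notMem_empty, if_false]; omega
  have hsum : ∑ π ∈ avoid R l, coefOf (Fen β) (out R π ∅) = (avoid R l).card * c := by
    rw [Finset.sum_congr rfl fun π hπ => coef_avoid hn β h₀ hπ, Finset.sum_const, nsmul_eq_mul]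
  have hY := coef_pathFun (l := l) β R
  rw [hsum] at hY
  calc ∑ π ∈ avoid R l, wgt (out R π ∅) * coefOf (Fen β) (out R π ∅) ^ 2
      ≤ ∑ _π ∈ avoid R l, wgt R * c ^ 2 := Finset.sum_le_sum fun π hπ => by
        rw [coef_avoid hn β h₀ hπ]; exact mul_le_mul_of_nonneg_right (hw π) (sq_nonneg c)
    _ = wgt R * ((avoid R l).card * c ^ 2) := by
        rw [Finset.sum_const, nsmul_eq_mul]; ring
    _ ≤ _ := by
        rw [hY, mul_left_comm (2 / N)]
        refine mul_le_mul_of_nonneg_left ?_ (wgt_nonneg R)
        rw [div_mul_eq_mul_div, le_div_iff₀ hN]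
        set M := ((avoid R l).card : ℝ) with hM
        have h1 : M * c ^ 2 * N ≤ (M * c) ^ 2 := by
          have := mul_le_mul_of_nonneg_left hcard (mul_nonneg (hN.le.trans hcard) (sq_nonneg c))
          linarith [show (M * c) ^ 2 = M * c ^ 2 * M by ring]
        nlinarith [sq_nonneg (M * c + 2 * err β R l)]

end Cycle

end Vale.Agent.P146
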