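import Vale.Agent.P146.Calc

/-!
Gaussian interpolation: Bessel inequality, tail bound, moment concentration.

The bilinear form `corr t U W = E U(√t z + √(1-t) g₁) W(√t z + √(1-t) g₂)` satisfies
`(corr t U W)' = ∑ e, corr t (∂ₑ U) (∂ₑ W)`.
-/

namespace Vale.Agent.P146

open MeasureTheory ProbabilityTheory Set Filter Topology

variable {ι : Type*} [Fintype ι] [DecidableEq ι]

namespace Interp

omit [DecidableEq ι] in
theorem isProb : IsProbabilityMeasure (gauss ι) := by
  unfold gauss; infer_instance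

attribute [local instance] isProb

/-- The common law of `(z, g₁, g₂)`. -/
noncomputable def law3 (ι : Type*) [Fintype ι] : Measure ((ι → ℝ) × (ι → ℝ) × (ι → ℝ)) :=
  (gauss ι).prod ((gauss ι).prod (gauss ι))

omit [DecidableEq ι] in
theorem isProb3 : IsProbabilityMeasure (law3 ι) := by
  unfold law3; infer_instance

attribute [local instance] isProb3

/-- Product weight dominating all integrands. -/
noncomputable def dom (r : ℕ) (p : (ι → ℝ) × (ι → ℝ) × (ι → ℝ)) : ℝ :=
  (1 + ‖p.1‖) ^ r * ((1 + ‖p.2.1‖) ^ r * (1 + ‖p.2.2‖) ^ r)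

omit [DecidableEq ι] in
theorem one_add_norm_le_sum (g : ι → ℝ) : 1 + ‖g‖ ≤ 2 + ∑ e, g e * g e := by
  have h0 : 0 ≤ ∑ e, g e * g e := Finset.sum_nonneg fun e _ => mul_self_nonneg _
  have : ‖g‖ ≤ 1 + ∑ e, g e * g e := by
    refine (pi_norm_le_iff_of_nonneg (by linarith)).2 fun e => ?_
    have h1 : g e * g e ≤ ∑ i, g i * g i :=
      Finset.single_le_sum (f := fun i => g i * g i) (fun i _ => mul_self_nonneg _)
        (Finset.mem_univ e)
    rw [Real.norm_eq_abs, abs_le]
    constructor <;> nlinarith [mul_self_nonneg (g e - 1), mul_self_nonneg (g e + 1)]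
  linarith

theorem integrable_pow (r : ℕ) : Integrable (fun g : ι → ℝ => (1 + ‖g‖) ^ r) (gauss ι) := by
  have ht : Tame (fun g : ι → ℝ => (2 + ∑ e, g e * g e) ^ r) :=
    Tame.pow (Tame.add (Tame.const 2)
      (Tame.sum Finset.univ fun e _ => Tame.mul (Tame.coord e) (Tame.coord e))) r
  refine ht.integrable.mono' (by fun_prop) (.of_forall fun g => ?_)
  rw [Real.norm_eq_abs, abs_of_nonneg (by positivity)]
  exact pow_le_pow_left₀ (by positivity) (one_add_norm_le_sum g) r

theorem integrable_pair (r : ℕ) :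
    Integrable (fun q : (ι → ℝ) × (ι → ℝ) => (1 + ‖q.1‖) ^ r * (1 + ‖q.2‖) ^ r)
      ((gauss ι).prod (gauss ι)) := (integrable_pow r).mul_prod (integrable_pow r)

theorem integrable_dom (r : ℕ) : Integrable (dom (ι := ι) r) (law3 ι) :=
  (integrable_pow r).mul_prod (integrable_pair r)

omit [DecidableEq ι] in
theorem dom_nonneg (r : ℕ) (p : (ι → ℝ) × (ι → ℝ) × (ι → ℝ)) : 0 ≤ dom r p := by
  unfold dom; positivity

/-- The two interpolated points. -/
noncomputable def pt (t : ℝ) (z g : ι → ℝ) : ι → ℝ := Real.sqrt t • z + Real.sqrt (1 - t) • g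

omit [DecidableEq ι] in
theorem norm_pt_le {t : ℝ} (ht : t ∈ Icc (0 : ℝ) 1) (z g : ι → ℝ) :
    1 + ‖pt t z g‖ ≤ (1 + ‖z‖) * (1 + ‖g‖) := by
  have h1 : Real.sqrt t ≤ 1 := Real.sqrt_le_one.2 ht.2
  have h2 : Real.sqrt (1 - t) ≤ 1 := Real.sqrt_le_one.2 (by linarith [ht.1])
  have := norm_add_le (Real.sqrt t • z) (Real.sqrt (1 - t) • g)
  rw [norm_smul, norm_smul, Real.norm_eq_abs, Real.norm_eq_abs,
    abs_of_nonneg (Real.sqrt_nonneg _), abs_of_nonneg (Real.sqrt_nonneg _)] at this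
  unfold pt
  nlinarith [norm_nonneg z, norm_nonneg g, mul_nonneg (norm_nonneg z) (norm_nonneg g),
    mul_le_mul_of_nonneg_right h1 (norm_nonneg z), mul_le_mul_of_nonneg_right h2 (norm_nonneg g)]

/-- Uniform domination of an interpolated product. -/
theorem prod_bound {U W : (ι → ℝ) → ℝ} (hU : Tame U) (hW : Tame W) :
    ∃ (C : ℝ) (r : ℕ), ∀ t ∈ Icc (0 : ℝ) 1, ∀ p : (ι → ℝ) × (ι → ℝ) × (ι → ℝ),
      |U (pt t p.1 p.2.1) * W (pt t p.1 p.2.2)| ≤ C * dom r p := by
  obtain ⟨A, a, hA⟩ := hU.2 []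
  obtain ⟨B, b, hB⟩ := hW.2 []
  refine ⟨|A| * |B|, a + b, fun t ht p => ?_⟩
  simp only [pdL] at hA hB
  have e1 := norm_pt_le ht p.1 p.2.1
  have e2 := norm_pt_le ht p.1 p.2.2
  have u : |U (pt t p.1 p.2.1)| ≤ |A| * ((1 + ‖p.1‖) * (1 + ‖p.2.1‖)) ^ a :=
    (hA _).trans (mul_le_mul (le_abs_self A) (pow_le_pow_left₀ (by positivity) e1 a)
      (by positivity) (abs_nonneg A))
  have w : |W (pt t p.1 p.2.2)| ≤ |B| * ((1 + ‖p.1‖) * (1 + ‖p.2.2‖)) ^ b :=
    (hB _).trans (mul_le_mul (le_abs_self B) (pow_le_pow_left₀ (by positivity) e2 b)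
      (by positivity) (abs_nonneg B))
  rw [abs_mul]
  refine (mul_le_mul u w (abs_nonneg _) (by positivity)).trans ?_
  unfold dom
  rw [mul_pow, mul_pow, pow_add (1 + ‖p.1‖) a b]
  have x1 : (1 + ‖p.2.1‖) ^ a ≤ (1 + ‖p.2.1‖) ^ (a + b) :=
    pow_le_pow_right₀ (by linarith [norm_nonneg p.2.1]) (Nat.le_add_right a b)
  have x2 : (1 + ‖p.2.2‖) ^ b ≤ (1 + ‖p.2.2‖) ^ (a + b) :=
    pow_le_pow_right₀ (by linarith [norm_nonneg p.2.2]) (Nat.le_add_left b a)
  calc |A| * ((1 + ‖p.1‖) ^ a * (1 + ‖p.2.1‖) ^ a) *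
        (|B| * ((1 + ‖p.1‖) ^ b * (1 + ‖p.2.2‖) ^ b))
      = |A| * |B| * ((1 + ‖p.1‖) ^ a * (1 + ‖p.1‖) ^ b *
          ((1 + ‖p.2.1‖) ^ a * (1 + ‖p.2.2‖) ^ b)) := by ring
    _ ≤ _ := by gcongr

/-- The interpolated correlation. -/
noncomputable def corr (t : ℝ) (U W : (ι → ℝ) → ℝ) : ℝ :=
  ∫ p, U (pt t p.1 p.2.1) * W (pt t p.1 p.2.2) ∂law3 ι

theorem tame_continuous {U : (ι → ℝ) → ℝ} (hU : Tame U) : Continuous U := hU.1.continuous

theorem continuous_integrand {U W : (ι → ℝ) → ℝ} (hU : Tame U) (hW : Tame W) (t : ℝ) :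
    Continuous fun p : (ι → ℝ) × (ι → ℝ) × (ι → ℝ) =>
      U (pt t p.1 p.2.1) * W (pt t p.1 p.2.2) := by
  have := tame_continuous hU
  have := tame_continuous hW
  unfold pt; fun_prop

theorem integrable_integrand {U W : (ι → ℝ) → ℝ} (hU : Tame U) (hW : Tame W) {t : ℝ}
    (ht : t ∈ Icc (0 : ℝ) 1) :
    Integrable (fun p => U (pt t p.1 p.2.1) * W (pt t p.1 p.2.2)) (law3 ι) := by
  obtain ⟨C, r, h⟩ := prod_bound hU hW
  exact ((integrable_dom r).const_mul C).mono'
    (continuous_integrand hU hW t).aestronglyMeasurable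
    (.of_forall fun p => by rw [Real.norm_eq_abs]; exact h t ht p)

theorem continuousOn_corr {U W : (ι → ℝ) → ℝ} (hU : Tame U) (hW : Tame W) :
    ContinuousOn (fun t => corr t U W) (Icc (0 : ℝ) 1) := by
  obtain ⟨C, r, h⟩ := prod_bound hU hW
  refine continuousOn_of_dominated
    (fun t _ => (continuous_integrand hU hW t).aestronglyMeasurable)
    (fun t ht => .of_forall fun p => by rw [Real.norm_eq_abs]; exact h t ht p)
    ((integrable_dom r).const_mul C) (.of_forall fun p => ?_)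
  have := tame_continuous hU
  have := tame_continuous hW
  refine Continuous.continuousOn ?_
  unfold pt; fun_prop

omit [DecidableEq ι] in
theorem corr_one {U W : (ι → ℝ) → ℝ} :
    corr 1 U W = ∫ z, U z * W z ∂gauss ι := by
  simp [corr, pt, law3, integral_fun_fst (fun z => U z * W z)]

omit [DecidableEq ι] in
theorem corr_zero {U W : (ι → ℝ) → ℝ} :
    corr 0 U W = (∫ z, U z ∂gauss ι) * ∫ z, W z ∂gauss ι := by
  simp [corr, pt, law3, integral_fun_snd (fun q : (ι → ℝ) × (ι → ℝ) => U q.1 * W q.2),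
    integral_prod_mul]

theorem corr_self_nonneg {U : (ι → ℝ) → ℝ} (hU : Tame U) {t : ℝ} (ht : t ∈ Icc (0 : ℝ) 1) :
    0 ≤ corr t U U := by
  unfold corr law3
  rw [integral_prod _ (integrable_integrand hU hU ht)]
  refine integral_nonneg fun z => ?_
  rw [Pi.zero_apply]
  show 0 ≤ ∫ q : (ι → ℝ) × (ι → ℝ), (fun g => U (pt t z g)) q.1 * (fun g => U (pt t z g)) q.2
    ∂(gauss ι).prod (gauss ι)
  exact (mul_self_nonneg _).trans_eq
    (integral_prod_mul (fun g => U (pt t z g)) (fun g => U (pt t z g))).symm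

/-! ### Affine substitution and integration by parts -/

theorem pd_affine {f : (ι → ℝ) → ℝ} (hf : Tame f) (a : ℝ) (c : ι → ℝ) (e : ι) :
    pd e (fun x => f (a • x + c)) = fun x => a * pd e f (a • x + c) := by
  funext x
  have h1 : HasFDerivAt (fun x : ι → ℝ => a • x + c) (a • ContinuousLinearMap.id ℝ (ι → ℝ)) x :=
    ((hasFDerivAt_id x).const_smul a).add_const c
  have h2 : HasFDerivAt f (fderiv ℝ f (a • x + c)) (a • x + c) :=
    ((hf.1.differentiable (by simp)) _).hasFDerivAt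
  have h3 : HasFDerivAt (fun x => f (a • x + c))
      ((fderiv ℝ f (a • x + c)).comp (a • ContinuousLinearMap.id ℝ (ι → ℝ))) x := h2.comp x h1
  simp [pd, h3.fderiv]

theorem pdL_affine {f : (ι → ℝ) → ℝ} (hf : Tame f) (a : ℝ) (c : ι → ℝ) (L : List ι) :
    pdL L (fun x => f (a • x + c)) = fun x => a ^ L.length * pdL L f (a • x + c) := by
  suffices H : ∀ (L : List ι) (k : ℝ) (f : (ι → ℝ) → ℝ), Tame f →
      pdL L (fun x => k * f (a • x + c)) = fun x => k * a ^ L.length * pdL L f (a • x + c) by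
    simpa using H L 1 f hf
  intro L
  induction L with
  | nil => intro k f _; simp [pdL]
  | cons e L ih =>
    intro k f hf
    have hd : Differentiable ℝ fun x => f (a • x + c) :=
      (hf.1.differentiable (by simp)).comp
        (((differentiable_id (𝕜 := ℝ) (E := ι → ℝ)).const_smul a).add_const c)
    have h1 : pd e (fun x => k * f (a • x + c)) = fun x => k * a * pd e f (a • x + c) := by
      funext x
      have := congrFun (pd_affine hf a c e) x
      simp only [pd] at this ⊢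
      rw [fderiv_const_mul (hd x), smul_apply, smul_eq_mul, this]
      ring
    simp only [pdL, h1, ih (k * a) _ (hf.pd e), List.length_cons, pow_succ]
    funext x; ring

theorem tame_affine {f : (ι → ℝ) → ℝ} (hf : Tame f) (a : ℝ) (c : ι → ℝ) :
    Tame (fun x => f (a • x + c)) := by
  refine ⟨hf.1.comp ((contDiff_id.const_smul a).add contDiff_const), fun L => ?_⟩
  obtain ⟨C, p, h⟩ := hf.2 L
  refine ⟨|a| ^ L.length * (|C| * ((1 + |a|) * (1 + ‖c‖)) ^ p), p, fun x => ?_⟩
  rw [pdL_affine hf, abs_mul, abs_pow, mul_assoc, mul_assoc, ← mul_pow]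
  refine mul_le_mul_of_nonneg_left ((h _).trans ?_) (by positivity)
  refine mul_le_mul (le_abs_self C) (pow_le_pow_left₀ (by positivity) ?_ p) (by positivity)
    (abs_nonneg C)
  have := norm_add_le (a • x) c
  rw [norm_smul, Real.norm_eq_abs] at this
  nlinarith [norm_nonneg x, norm_nonneg c, abs_nonneg a, mul_nonneg (abs_nonneg a) (norm_nonneg x),
    mul_nonneg (mul_nonneg (abs_nonneg a) (norm_nonneg x)) (norm_nonneg c),
    mul_nonneg (norm_nonneg c) (abs_nonneg a), mul_nonneg (norm_nonneg c) (norm_nonneg x)]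

theorem ibp_affine {f : (ι → ℝ) → ℝ} (hf : Tame f) (a : ℝ) (c : ι → ℝ) (e : ι) :
    ∫ x, x e * f (a • x + c) ∂gauss ι = a * ∫ x, pd e f (a • x + c) ∂gauss ι := by
  rw [gauss_ibp (tame_affine hf a c) e, pd_affine hf a c e, integral_const_mul]

theorem integrable_coord_integrand {U W : (ι → ℝ) → ℝ} (hU : Tame U) (hW : Tame W) {t : ℝ}
    (ht : t ∈ Icc (0 : ℝ) 1) (s : (ι → ℝ) × (ι → ℝ) × (ι → ℝ) → ℝ)
    (hs : Continuous s) (hb : ∀ p, |s p| ≤ dom 1 p) :
    Integrable (fun p => s p * (U (pt t p.1 p.2.1) * W (pt t p.1 p.2.2))) (law3 ι) := by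
  obtain ⟨C, r, h⟩ := prod_bound hU hW
  refine ((integrable_dom (r + 1)).const_mul C).mono'
    (hs.mul (continuous_integrand hU hW t)).aestronglyMeasurable (.of_forall fun p => ?_)
  rw [Real.norm_eq_abs, abs_mul]
  refine (mul_le_mul (hb p) (h t ht p) (abs_nonneg _) (dom_nonneg 1 p)).trans_eq ?_
  simp only [dom, pow_succ]; ring

omit [DecidableEq ι] in
theorem abs_coord_le (p : (ι → ℝ) × (ι → ℝ) × (ι → ℝ)) (e : ι) :
    |p.1 e| ≤ dom 1 p ∧ |p.2.1 e| ≤ dom 1 p ∧ |p.2.2 e| ≤ dom 1 p := by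
  have a := norm_le_pi_norm p.1 e
  have b := norm_le_pi_norm p.2.1 e
  have c := norm_le_pi_norm p.2.2 e
  rw [Real.norm_eq_abs] at a b c
  have hx := norm_nonneg p.1
  have hy := norm_nonneg p.2.1
  have hz := norm_nonneg p.2.2
  simp only [dom, pow_one]
  refine ⟨?_, ?_, ?_⟩ <;>
    nlinarith [mul_nonneg hx hy, mul_nonneg hx hz, mul_nonneg hy hz,
      mul_nonneg (mul_nonneg hx hy) hz]

theorem ibp_centre {U W : (ι → ℝ) → ℝ} (hU : Tame U) (hW : Tame W) {t : ℝ}
    (ht : t ∈ Icc (0 : ℝ) 1) (e : ι) :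
    ∫ p, p.1 e * (U (pt t p.1 p.2.1) * W (pt t p.1 p.2.2)) ∂law3 ι =
      Real.sqrt t * (corr t (pd e U) W + corr t U (pd e W)) := by
  have hsum : Integrable (fun p => pd e U (pt t p.1 p.2.1) * W (pt t p.1 p.2.2) +
      U (pt t p.1 p.2.1) * pd e W (pt t p.1 p.2.2)) (law3 ι) :=
    (integrable_integrand (hU.pd e) hW ht).add (integrable_integrand hU (hW.pd e) ht)
  rw [show corr t (pd e U) W + corr t U (pd e W) =
      ∫ p, (pd e U (pt t p.1 p.2.1) * W (pt t p.1 p.2.2) +
        U (pt t p.1 p.2.1) * pd e W (pt t p.1 p.2.2)) ∂law3 ι from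
    (integral_add (integrable_integrand (hU.pd e) hW ht)
      (integrable_integrand hU (hW.pd e) ht)).symm]
  have hi := integrable_coord_integrand hU hW ht (fun p => p.1 e) (by fun_prop)
    (fun p => (abs_coord_le p e).1)
  unfold law3 at hi hsum ⊢
  rw [integral_prod_symm _ hi, integral_prod_symm _ hsum, ← integral_const_mul]
  refine integral_congr_ae (.of_forall fun q => ?_)
  have hU' := tame_affine hU (Real.sqrt t) (Real.sqrt (1 - t) • q.1)
  have hW' := tame_affine hW (Real.sqrt t) (Real.sqrt (1 - t) • q.2)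
  simp only [pt]
  rw [gauss_ibp (hU'.mul hW') e, pd_mul e hU' hW', pd_affine hU, pd_affine hW,
    ← integral_const_mul]
  refine integral_congr_ae (.of_forall fun x => ?_)
  dsimp only; ring

theorem ibp_left {U W : (ι → ℝ) → ℝ} (hU : Tame U) (hW : Tame W) {t : ℝ}
    (ht : t ∈ Icc (0 : ℝ) 1) (e : ι) :
    ∫ p, p.2.1 e * (U (pt t p.1 p.2.1) * W (pt t p.1 p.2.2)) ∂law3 ι =
      Real.sqrt (1 - t) * corr t (pd e U) W := by
  have hi := integrable_coord_integrand hU hW ht (fun p => p.2.1 e) (by fun_prop)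
    (fun p => (abs_coord_le p e).2.1)
  have hj := integrable_integrand (hU.pd e) hW ht
  unfold corr
  unfold law3 at hi hj ⊢
  rw [integral_prod _ hi, integral_prod _ hj, ← integral_const_mul]
  refine integral_congr_ae ?_
  filter_upwards [hi.prod_right_ae, hj.prod_right_ae] with z hz hz'
  rw [integral_prod_symm _ hz, integral_prod_symm _ hz', ← integral_const_mul]
  refine integral_congr_ae (.of_forall fun y => ?_)
  dsimp only
  simp only [← mul_assoc, integral_mul_const]
  congr 1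
  simp only [pt, add_comm (Real.sqrt t • z)]
  exact ibp_affine hU _ _ e

theorem ibp_right {U W : (ι → ℝ) → ℝ} (hU : Tame U) (hW : Tame W) {t : ℝ}
    (ht : t ∈ Icc (0 : ℝ) 1) (e : ι) :
    ∫ p, p.2.2 e * (U (pt t p.1 p.2.1) * W (pt t p.1 p.2.2)) ∂law3 ι =
      Real.sqrt (1 - t) * corr t U (pd e W) := by
  have hi := integrable_coord_integrand hU hW ht (fun p => p.2.2 e) (by fun_prop)
    (fun p => (abs_coord_le p e).2.2)
  have hj := integrable_integrand hU (hW.pd e) ht
  unfold corr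
  unfold law3 at hi hj ⊢
  rw [integral_prod _ hi, integral_prod _ hj, ← integral_const_mul]
  refine integral_congr_ae ?_
  filter_upwards [hi.prod_right_ae, hj.prod_right_ae] with z hz hz'
  rw [integral_prod _ hz, integral_prod _ hz', ← integral_const_mul]
  refine integral_congr_ae (.of_forall fun y => ?_)
  dsimp only
  simp only [mul_left_comm _ (U (pt t z y)), integral_const_mul]
  congr 1
  simp only [pt, add_comm (Real.sqrt t • z)]
  exact ibp_affine hW _ _ e

/-! ### The derivative of the correlation -/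

omit [DecidableEq ι] in
theorem hasDerivAt_pt {t : ℝ} (ht : t ∈ Ioo (0 : ℝ) 1) (z g : ι → ℝ) :
    HasDerivAt (fun u => pt u z g)
      ((1 / (2 * Real.sqrt t)) • z + (-1 / (2 * Real.sqrt (1 - t))) • g) t := by
  have h1 := (Real.hasDerivAt_sqrt ht.1.ne').smul_const z
  have h2 := (((hasDerivAt_id t).const_sub 1).sqrt (by simp only [id]; linarith [ht.2])).smul_const g
  exact h1.add h2

theorem apply_eq_sum (T : (ι → ℝ) →L[ℝ] ℝ) (v : ι → ℝ) :
    T v = ∑ e, v e * T (Pi.single e 1) := by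
  conv_lhs => rw [pi_eq_sum_univ' v]
  simp [map_sum, smul_eq_mul]

theorem hasDerivAt_comp_pt {U : (ι → ℝ) → ℝ} (hU : Tame U) {t : ℝ} (ht : t ∈ Ioo (0 : ℝ) 1)
    (z g : ι → ℝ) :
    HasDerivAt (fun u => U (pt u z g))
      (∑ e, (1 / (2 * Real.sqrt t) * z e + -1 / (2 * Real.sqrt (1 - t)) * g e) *
        pd e U (pt t z g)) t := by
  have h := (((hU.1.differentiable (by simp)) (pt t z g)).hasFDerivAt).comp_hasDerivAt t
    (hasDerivAt_pt ht z g)
  rw [apply_eq_sum] at h
  exact h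

theorem hasDerivAt_corr {U W : (ι → ℝ) → ℝ} (hU : Tame U) (hW : Tame W) {t : ℝ}
    (ht : t ∈ Ioo (0 : ℝ) 1) :
    HasDerivAt (fun u => corr u U W) (∑ e, corr t (pd e U) (pd e W)) t := by
  set F' : ℝ → (ι → ℝ) × (ι → ℝ) × (ι → ℝ) → ℝ := fun u p => ∑ e,
    ((1 / (2 * Real.sqrt u)) * (p.1 e * (pd e U (pt u p.1 p.2.1) * W (pt u p.1 p.2.2))) +
    (-1 / (2 * Real.sqrt (1 - u))) *
      (p.2.1 e * (pd e U (pt u p.1 p.2.1) * W (pt u p.1 p.2.2))) +
    (1 / (2 * Real.sqrt u)) * (p.1 e * (U (pt u p.1 p.2.1) * pd e W (pt u p.1 p.2.2))) +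
    (-1 / (2 * Real.sqrt (1 - u))) *
      (p.2.2 e * (U (pt u p.1 p.2.1) * pd e W (pt u p.1 p.2.2)))) with hF'
  choose A ra hA using fun e => prod_bound (hU.pd e) hW
  choose B rb hB using fun e => prod_bound hU (hW.pd e)
  have hsI : Ioo (t / 2) ((1 + t) / 2) ∈ 𝓝 t :=
    Ioo_mem_nhds (by linarith [ht.1]) (by linarith [ht.2])
  have hsub : ∀ u ∈ Ioo (t / 2) ((1 + t) / 2), u ∈ Ioo (0 : ℝ) 1 := fun u hu =>
    ⟨by linarith [hu.1, ht.1], by linarith [hu.2, ht.2]⟩
  set c : ℝ := 1 / (2 * Real.sqrt (t / 2)) with hc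
  set d : ℝ := 1 / (2 * Real.sqrt ((1 - t) / 2)) with hd
  set bnd : (ι → ℝ) × (ι → ℝ) × (ι → ℝ) → ℝ := fun p => ∑ e,
    ((c + d) * |A e| * dom (ra e + 1) p + (c + d) * |B e| * dom (rb e + 1) p) with hbnd
  have hder : ∀ p, ∀ u ∈ Ioo (t / 2) ((1 + t) / 2),
      HasDerivAt (fun v => U (pt v p.1 p.2.1) * W (pt v p.1 p.2.2)) (F' u p) u := by
    intro p u hu
    refine ((hasDerivAt_comp_pt hU (hsub u hu) p.1 p.2.1).mul
      (hasDerivAt_comp_pt hW (hsub u hu) p.1 p.2.2)).congr_deriv ?_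
    simp only [hF', Finset.sum_mul, Finset.mul_sum, ← Finset.sum_add_distrib]
    exact Finset.sum_congr rfl fun e _ => by ring
  have hbound : ∀ p, ∀ u ∈ Ioo (t / 2) ((1 + t) / 2), ‖F' u p‖ ≤ bnd p := by
    intro p u hu
    have hu' : u ∈ Icc (0 : ℝ) 1 := ⟨(hsub u hu).1.le, (hsub u hu).2.le⟩
    have c1 : |1 / (2 * Real.sqrt u)| ≤ c := by
      rw [abs_of_nonneg (by positivity), hc]
      gcongr
      · have := Real.sqrt_pos.2 (by linarith [ht.1] : 0 < t / 2); positivity
      · exact hu.1.le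
    have c2 : |-1 / (2 * Real.sqrt (1 - u))| ≤ d := by
      rw [neg_div, abs_neg, abs_of_nonneg (by positivity), hd]
      gcongr
      · have := Real.sqrt_pos.2 (by linarith [ht.2] : 0 < (1 - t) / 2); positivity
      · linarith [hu.2]
    have key : ∀ (k x y C : ℝ) (r : ℕ) (m : ℝ), |k| ≤ m → |x| ≤ dom 1 p → |y| ≤ C * dom r p →
        |k * (x * y)| ≤ m * |C| * dom (r + 1) p := by
      intro k x y C r m hk hx hy
      have hm : 0 ≤ m := (abs_nonneg k).trans hk
      have hy' : |y| ≤ |C| * dom r p :=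
        hy.trans (mul_le_mul_of_nonneg_right (le_abs_self C) (dom_nonneg r p))
      rw [abs_mul, abs_mul]
      refine (mul_le_mul hk (mul_le_mul hx hy' (abs_nonneg _) (dom_nonneg 1 p))
        (by positivity) hm).trans_eq ?_
      simp only [dom, pow_succ]; ring
    rw [Real.norm_eq_abs, hF', hbnd]
    refine (Finset.abs_sum_le_sum_abs _ _).trans (Finset.sum_le_sum fun e _ => ?_)
    have k1 := key _ _ _ _ _ _ c1 (abs_coord_le p e).1 (hA e u hu' p)
    have k2 := key _ _ _ _ _ _ c2 (abs_coord_le p e).2.1 (hA e u hu' p)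
    have k3 := key _ _ _ _ _ _ c1 (abs_coord_le p e).1 (hB e u hu' p)
    have k4 := key _ _ _ _ _ _ c2 (abs_coord_le p e).2.2 (hB e u hu' p)
    rw [abs_le] at k1 k2 k3 k4 ⊢
    constructor <;> linarith [k1.1, k1.2, k2.1, k2.2, k3.1, k3.2, k4.1, k4.2]
  have htI : t ∈ Icc (0 : ℝ) 1 := ⟨ht.1.le, ht.2.le⟩
  have hmeas : AEStronglyMeasurable (F' t) (law3 ι) := by
    have := tame_continuous hU
    have := tame_continuous hW
    have := fun e => tame_continuous (hU.pd e)
    have := fun e => tame_continuous (hW.pd e)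
    apply Continuous.aestronglyMeasurable
    simp only [hF', pt]; fun_prop
  have hbi : Integrable bnd (law3 ι) := integrable_finsetSum _ fun e _ =>
    ((integrable_dom _).const_mul _).add ((integrable_dom _).const_mul _)
  have h := (hasDerivAt_integral_of_dominated_loc_of_deriv_le (μ := law3 ι)
    (F := fun u p => U (pt u p.1 p.2.1) * W (pt u p.1 p.2.2)) (F' := F') hsI
    (.of_forall fun u => (continuous_integrand hU hW u).aestronglyMeasurable)
    (integrable_integrand hU hW htI) hmeas (.of_forall hbound) hbi (.of_forall hder)).2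
  refine h.congr_deriv ?_
  have i1 := fun e => (integrable_coord_integrand (hU.pd e) hW htI (fun p => p.1 e)
    (by fun_prop) (fun p => (abs_coord_le p e).1)).const_mul (1 / (2 * Real.sqrt t))
  have i2 := fun e => (integrable_coord_integrand (hU.pd e) hW htI (fun p => p.2.1 e)
    (by fun_prop) (fun p => (abs_coord_le p e).2.1)).const_mul (-1 / (2 * Real.sqrt (1 - t)))
  have i3 := fun e => (integrable_coord_integrand hU (hW.pd e) htI (fun p => p.1 e)
    (by fun_prop) (fun p => (abs_coord_le p e).1)).const_mul (1 / (2 * Real.sqrt t))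
  have i4 := fun e => (integrable_coord_integrand hU (hW.pd e) htI (fun p => p.2.2 e)
    (by fun_prop) (fun p => (abs_coord_le p e).2.2)).const_mul (-1 / (2 * Real.sqrt (1 - t)))
  simp only [hF']
  rw [integral_finsetSum _ fun e _ => (((i1 e).fun_add (i2 e)).fun_add (i3 e)).fun_add (i4 e)]
  refine Finset.sum_congr rfl fun e _ => ?_
  rw [integral_add (((i1 e).fun_add (i2 e)).fun_add (i3 e)) (i4 e),
    integral_add ((i1 e).fun_add (i2 e)) (i3 e), integral_add (i1 e) (i2 e),
    integral_const_mul, integral_const_mul, integral_const_mul, integral_const_mul,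
    ibp_centre (hU.pd e) hW htI e, ibp_left (hU.pd e) hW htI e,
    ibp_centre hU (hW.pd e) htI e, ibp_right hU (hW.pd e) htI e]
  have hs1 : Real.sqrt t ≠ 0 := (Real.sqrt_pos.2 ht.1).ne'
  have hs2 : Real.sqrt (1 - t) ≠ 0 := (Real.sqrt_pos.2 (by linarith [ht.2])).ne'
  field_simp
  ring

theorem le_of_deriv {F F' : ℝ → ℝ} (hc : ContinuousOn F (Icc 0 1))
    (hd : ∀ t ∈ Ioo (0 : ℝ) 1, HasDerivAt F (F' t) t) (hp : ∀ t ∈ Ioo (0 : ℝ) 1, 0 ≤ F' t)
    {s t : ℝ} (hs : s ∈ Icc (0 : ℝ) 1) (ht : t ∈ Icc (0 : ℝ) 1) (hst : s ≤ t) : F s ≤ F t := by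
  refine monotoneOn_of_hasDerivWithinAt_nonneg (f' := F') (convex_Icc 0 1) hc ?_ ?_ hs ht hst
  · intro u hu; rw [interior_Icc] at hu; exact (hd u hu).hasDerivWithinAt
  · intro u hu; rw [interior_Icc] at hu; exact hp u hu

theorem corr_const_right {U : (ι → ℝ) → ℝ} (hU : Tame U) {t : ℝ} (ht : t ∈ Icc (0 : ℝ) 1) :
    corr t U (fun _ => 1) = ∫ z, U z ∂gauss ι := by
  have hd : ∀ u ∈ Ioo (0 : ℝ) 1, HasDerivAt (fun u => corr u U (fun _ => 1)) 0 u := fun u hu =>
    (hasDerivAt_corr hU (Tame.const 1) hu).congr_deriv (by simp [corr, pd_const])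
  have h0 : (0 : ℝ) ∈ Icc (0 : ℝ) 1 := by simp
  have a := le_of_deriv (continuousOn_corr hU (Tame.const 1)) hd (fun _ _ => le_rfl) h0 ht ht.1
  have b := le_of_deriv (continuousOn_corr hU (Tame.const 1)).neg (fun u hu => (hd u hu).neg)
    (fun _ _ => (neg_zero (G := ℝ)).ge) h0 ht ht.1
  simp only [corr_zero, integral_const, probReal_univ, smul_eq_mul, mul_one, Pi.neg_apply] at a b
  linarith

theorem corr_const_left {U : (ι → ℝ) → ℝ} (hU : Tame U) {t : ℝ} (ht : t ∈ Icc (0 : ℝ) 1) :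
    corr t (fun _ => 1) U = ∫ z, U z ∂gauss ι := by
  have hd : ∀ u ∈ Ioo (0 : ℝ) 1, HasDerivAt (fun u => corr u (fun _ => 1) U) 0 u := fun u hu =>
    (hasDerivAt_corr (Tame.const 1) hU hu).congr_deriv (by simp [corr, pd_const])
  have h0 : (0 : ℝ) ∈ Icc (0 : ℝ) 1 := by simp
  have a := le_of_deriv (continuousOn_corr (Tame.const 1) hU) hd (fun _ _ => le_rfl) h0 ht ht.1
  have b := le_of_deriv (continuousOn_corr (Tame.const 1) hU).neg (fun u hu => (hd u hu).neg)
    (fun _ _ => (neg_zero (G := ℝ)).ge) h0 ht ht.1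
  simp only [corr_zero, integral_const, probReal_univ, smul_eq_mul, one_mul, Pi.neg_apply] at a b
  linarith

/-! ### Expansion of `corr t f f` -/

/-- The order `k` part of the second moment. -/
noncomputable def part (f : (ι → ℝ) → ℝ) (k : ℕ) : ℝ :=
  ∑ α ∈ orders ι k, wgt α * coefOf f α ^ 2

theorem count_multiList (α : ι → ℕ) (x : ι) : (multiList α).count x = α x := by
  simp only [multiList, List.count_flatMap, Function.comp_def, List.count_replicate]
  rw [Finset.sum_map_toList Finset.univ]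
  simp

theorem coef_pd {f : (ι → ℝ) → ℝ} (hf : Tame f) (e : ι) (β : ι → ℕ) :
    coefOf (pd e f) β = coefOf f (β + Pi.single e 1) := by
  have h : (e :: multiList β).Perm (multiList (β + Pi.single e 1)) := by
    rw [List.perm_iff_count]
    intro x
    rw [List.count_cons, count_multiList, count_multiList]
    rcases eq_or_ne e x with rfl | hne
    · simp
    · simp [hne]
  unfold coefOf
  rw [← pdL_perm hf h]
  rfl

theorem wgt_add_single (e : ι) (β : ι → ℕ) :
    ((β e : ℝ) + 1) * wgt (β + Pi.single e 1) = wgt β := by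
  have hrest : ∏ x ∈ Finset.univ.erase e, ((β + Pi.single e 1 : ι → ℕ) x).factorial =
      ∏ x ∈ Finset.univ.erase e, (β x).factorial :=
    Finset.prod_congr rfl fun x hx => by
      simp [Pi.single_eq_of_ne (Finset.ne_of_mem_erase hx)]
  have hprod : ∏ x, ((β + Pi.single e 1 : ι → ℕ) x).factorial =
      (β e + 1) * ∏ x, (β x).factorial := by
    rw [← Finset.prod_erase_mul Finset.univ _ (Finset.mem_univ e),
      ← Finset.prod_erase_mul Finset.univ (fun x => (β x).factorial) (Finset.mem_univ e), hrest]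
    simp [Pi.add_apply, Nat.factorial_succ]
    ring
  have hpos : (0 : ℝ) < ((∏ x, (β x).factorial : ℕ) : ℝ) :=
    Nat.cast_pos.2 (Finset.prod_pos fun x _ => Nat.factorial_pos _)
  simp only [wgt]
  rw [hprod, Nat.cast_mul, Nat.cast_add, Nat.cast_one]
  field_simp

theorem part_zero (f : (ι → ℝ) → ℝ) : part f 0 = (∫ z, f z ∂gauss ι) ^ 2 := by
  have h : multiList (0 : ι → ℕ) = [] := by
    simp [multiList]
  simp [part, orders, wgt, coefOf, h, pdL]

theorem part_succ {f : (ι → ℝ) → ℝ} (hf : Tame f) (k : ℕ) :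
    ((k : ℝ) + 1) * part f (k + 1) = ∑ e, part (pd e f) k := by
  have hmem : ∀ (j : ℕ) (α : ι → ℕ), α ∈ orders ι j ↔ ∑ x, α x = j := by
    intro j α; simp [orders, Finset.mem_piAntidiag]
  calc ((k : ℝ) + 1) * part f (k + 1)
      = ∑ α ∈ orders ι (k + 1), ∑ e, (α e : ℝ) * (wgt α * coefOf f α ^ 2) := by
        rw [part, Finset.mul_sum]
        refine Finset.sum_congr rfl fun α hα => ?_
        rw [← Finset.sum_mul, ← Nat.cast_sum, (hmem _ α).1 hα]
        push_cast; ring
    _ = ∑ e, ∑ α ∈ orders ι (k + 1), (α e : ℝ) * (wgt α * coefOf f α ^ 2) := Finset.sum_comm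
    _ = _ := by
      refine Finset.sum_congr rfl fun e _ => ?_
      rw [part, ← Finset.sum_filter_of_ne (p := fun α : ι → ℕ => α e ≠ 0)
        (fun α _ h h0 => h (by simp [h0]))]
      refine Finset.sum_nbij' (fun α => α - Pi.single e 1) (fun β => β + Pi.single e 1)
        ?_ ?_ ?_ ?_ ?_
      · intro α hα
        simp only [Finset.mem_filter, hmem] at hα ⊢
        have hrec : (fun x => (α - Pi.single e 1 : ι → ℕ) x + (Pi.single e 1 : ι → ℕ) x) = α := by
          funext x
          rcases eq_or_ne x e with rfl | hne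
          · simp; omega
          · simp [Pi.single_eq_of_ne hne]
        have := congrArg (fun v : ι → ℕ => ∑ x, v x) hrec
        simp only [Finset.sum_add_distrib, Fintype.sum_pi_single', hα.1] at this
        omega
      · intro β hβ
        simp only [Finset.mem_filter, hmem] at hβ ⊢
        simp [Finset.sum_add_distrib, hβ]
      · intro α hα
        simp only [Finset.mem_filter] at hα
        funext x
        rcases eq_or_ne x e with rfl | hne
        · simp; omega
        · simp [Pi.single_eq_of_ne hne]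
      · intro β _
        funext x; simp
      · intro α hα
        simp only [Finset.mem_filter] at hα
        have hrec : α - Pi.single e 1 + Pi.single e 1 = α := by
          funext x
          rcases eq_or_ne x e with rfl | hne
          · simp; omega
          · simp [Pi.single_eq_of_ne hne]
        have hw := wgt_add_single e (α - Pi.single e 1)
        rw [hrec] at hw
        rw [coef_pd hf, hrec, ← hw]
        have h1 : (((α - Pi.single e 1 : ι → ℕ) e : ℝ) + 1) = α e := by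
          have : (α - Pi.single e 1 : ι → ℕ) e + 1 = α e := by simp; omega
          exact_mod_cast this
        rw [h1]; ring

/-- The truncated expansion. -/
noncomputable def trunc (f : (ι → ℝ) → ℝ) (K : ℕ) (t : ℝ) : ℝ :=
  ∑ j ∈ Finset.range (K + 1), t ^ j * part f j

theorem hasDerivAt_trunc_succ {f : (ι → ℝ) → ℝ} (hf : Tame f) (K : ℕ) (t : ℝ) :
    HasDerivAt (fun u => trunc f (K + 1) u) (∑ e, trunc (pd e f) K t) t := by
  have h1 : (fun u => trunc f (K + 1) u) =
      fun u => ∑ j ∈ Finset.range (K + 1), u ^ (j + 1) * part f (j + 1) + part f 0 := by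
    funext u; simp [trunc, Finset.sum_range_succ' _ (K + 1)]
  rw [h1]
  refine ((HasDerivAt.fun_sum fun j _ =>
    (hasDerivAt_pow (j + 1) t).mul_const (part f (j + 1))).add_const _).congr_deriv ?_
  simp only [trunc]
  rw [Finset.sum_comm]
  refine Finset.sum_congr rfl fun j _ => ?_
  rw [← Finset.mul_sum, ← part_succ hf j]
  simp; ring

theorem part_nonneg (f : (ι → ℝ) → ℝ) (j : ℕ) : 0 ≤ part f j :=
  Finset.sum_nonneg fun α _ => mul_nonneg (by unfold wgt; positivity) (sq_nonneg _)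

theorem continuous_trunc (f : (ι → ℝ) → ℝ) (K : ℕ) : Continuous (trunc f K) := by
  unfold trunc; fun_prop

/-- `corr t (∂f) (∂f)`, the derivative of `corr t f f`. -/
noncomputable def dcorr (t : ℝ) (f : (ι → ℝ) → ℝ) : ℝ := ∑ e, corr t (pd e f) (pd e f)

theorem expansion (K : ℕ) : ∀ {f : (ι → ℝ) → ℝ}, Tame f → ∀ {t : ℝ}, t ∈ Icc (0 : ℝ) 1 →
    trunc f K t ≤ corr t f f ∧ corr t f f - trunc f K t ≤ t / (K + 1) * dcorr t f := by
  have hD : ∀ {f : (ι → ℝ) → ℝ}, Tame f → ∀ {t : ℝ}, t ∈ Ioo (0 : ℝ) 1 →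
      HasDerivAt (fun u => dcorr u f) (∑ e, dcorr t (pd e f)) t := fun hf _ ht =>
    HasDerivAt.fun_sum fun e _ => hasDerivAt_corr (hf.pd e) (hf.pd e) ht
  have hDc : ∀ {f : (ι → ℝ) → ℝ}, Tame f → ContinuousOn (fun u => dcorr u f) (Icc (0 : ℝ) 1) :=
    fun hf => continuousOn_finsetSum _ fun e _ => continuousOn_corr (hf.pd e) (hf.pd e)
  have hDp : ∀ {f : (ι → ℝ) → ℝ}, Tame f → ∀ {t : ℝ}, t ∈ Icc (0 : ℝ) 1 → 0 ≤ dcorr t f :=
    fun hf _ ht => Finset.sum_nonneg fun e _ => corr_self_nonneg (hf.pd e) ht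
  have hzero : ∀ (K : ℕ) (f : (ι → ℝ) → ℝ), trunc f K 0 = corr 0 f f := fun K f => by
    simp [trunc, Finset.sum_range_succ' _ K, corr_zero, part_zero, sq]
  -- the analytic step
  have step : ∀ (K : ℕ) {f : (ι → ℝ) → ℝ}, Tame f → ∀ (T' : ℝ → ℝ),
      (∀ u ∈ Ioo (0 : ℝ) 1, HasDerivAt (fun u => trunc f K u) (T' u) u) →
      (∀ u ∈ Ioo (0 : ℝ) 1, 0 ≤ T' u ∧ T' u ≤ dcorr u f ∧
        (K : ℝ) * (dcorr u f - T' u) ≤ u * ∑ e, dcorr u (pd e f)) →
      ∀ {t : ℝ}, t ∈ Icc (0 : ℝ) 1 →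
        trunc f K t ≤ corr t f f ∧ corr t f f - trunc f K t ≤ t / (K + 1) * dcorr t f := by
    intro K f hf T' hT hb t ht
    have h0 : (0 : ℝ) ∈ Icc (0 : ℝ) 1 := by simp
    have hK : (0 : ℝ) < K + 1 := by positivity
    have hc := (continuousOn_corr hf hf).sub (continuous_trunc f K).continuousOn
    constructor
    · have := le_of_deriv hc (fun u hu => (hasDerivAt_corr hf hf hu).sub (hT u hu))
        (fun u hu => sub_nonneg.2 (hb u hu).2.1) h0 ht ht.1
      simp only [Pi.sub_apply, hzero K f] at this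
      linarith
    · have := le_of_deriv (F := fun u => u / (K + 1) * dcorr u f - (corr u f f - trunc f K u))
        (F' := fun u => 1 / (K + 1) * dcorr u f + u / (K + 1) * (∑ e, dcorr u (pd e f)) -
          (dcorr u f - T' u))
        (((continuousOn_id.div_const _).mul (hDc hf)).sub hc)
        (fun u hu => (((hasDerivAt_id u).div_const _).mul (hD hf hu)).sub
          ((hasDerivAt_corr hf hf hu).sub (hT u hu)))
        (fun u hu => by
          obtain ⟨a, b, c⟩ := hb u hu
          have e1 : 1 / ((K : ℝ) + 1) * dcorr u f + u / (K + 1) * (∑ e, dcorr u (pd e f)) -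
              (dcorr u f - T' u) = (dcorr u f + u * (∑ e, dcorr u (pd e f)) -
                ((K : ℝ) + 1) * (dcorr u f - T' u)) / (K + 1) := by
            field_simp
          rw [e1]
          exact div_nonneg (by nlinarith) hK.le) h0 ht ht.1
      simp only [hzero K f, zero_div, zero_mul, sub_self] at this
      linarith
  induction K with
  | zero =>
    intro f hf t ht
    refine step 0 hf (fun _ => 0) (fun u _ => ?_) (fun u hu => ⟨le_rfl,
      hDp hf ⟨hu.1.le, hu.2.le⟩, ?_⟩) ht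
    · simpa [trunc] using hasDerivAt_const u (part f 0)
    · simp only [Nat.cast_zero, zero_mul]
      exact mul_nonneg hu.1.le (Finset.sum_nonneg fun e _ => hDp (hf.pd e) ⟨hu.1.le, hu.2.le⟩)
  | succ K ih =>
    intro f hf t ht
    refine step (K + 1) hf (fun u => ∑ e, trunc (pd e f) K u)
      (fun u _ => hasDerivAt_trunc_succ hf K u) (fun u hu => ?_) ht
    have hu' : u ∈ Icc (0 : ℝ) 1 := ⟨hu.1.le, hu.2.le⟩
    refine ⟨Finset.sum_nonneg fun e _ => Finset.sum_nonneg fun j _ =>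
      mul_nonneg (pow_nonneg hu.1.le j) (part_nonneg _ j),
      Finset.sum_le_sum fun e _ => (ih (hf.pd e) hu').1, ?_⟩
    simp only [dcorr] at ⊢
    rw [← Finset.sum_sub_distrib, Finset.mul_sum, Finset.mul_sum]
    refine Finset.sum_le_sum fun e _ => ?_
    have := (ih (hf.pd e) hu').2
    push_cast
    have hK : (0 : ℝ) < K + 1 := by positivity
    rw [div_mul_eq_mul_div, le_div_iff₀ hK] at this
    simp only [dcorr] at this
    linarith

theorem part_le {f : (ι → ℝ) → ℝ} (hf : Tame f) (K : ℕ) :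
    trunc f K 1 ≤ ∫ g, f g ^ 2 ∂gauss ι ∧
    (∫ g, f g ^ 2 ∂gauss ι) - trunc f K 1 ≤ (∫ g, ∑ e, pd e f g ^ 2 ∂gauss ι) / (K + 1) := by
  have h := expansion K hf (t := 1) (by simp)
  have hd : dcorr 1 f = ∫ g, ∑ e, pd e f g ^ 2 ∂gauss ι := by
    rw [integral_finsetSum _ fun e _ => ((hf.pd e).pow 2).integrable]
    simp [dcorr, corr_one, sq]
  rw [hd, corr_one] at h
  simp only [← sq, one_div_mul_eq_div] at h
  exact h

theorem trunc_one_eq (f : (ι → ℝ) → ℝ) (K : ℕ) :
    trunc f K 1 = ∑ k ∈ Finset.range (K + 1), part f k := by simp [trunc]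

/-! ### Moments -/

theorem young (p : ℕ) {a b : ℝ} (ha : 0 ≤ a) (hb : 0 ≤ b) :
    ((p : ℝ) + 1) * (a * b ^ p) ≤ a ^ (p + 1) + p * b ^ (p + 1) := by
  induction p with
  | zero => simp
  | succ p ih =>
    have h1 := mul_le_mul_of_nonneg_left ih hb
    have h2 : 0 ≤ (a - b) * (a ^ (p + 1) - b ^ (p + 1)) := by
      rcases le_total a b with h | h
      · exact mul_nonneg_of_nonpos_of_nonpos (by linarith)
          (by linarith [pow_le_pow_left₀ ha h (p + 1)])
      · exact mul_nonneg (by linarith) (by linarith [pow_le_pow_left₀ hb h (p + 1)])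
    simp only [pow_succ] at h1 h2 ⊢
    push_cast
    nlinarith

theorem young_scaled (p : ℕ) {a b l : ℝ} (ha : 0 ≤ a) (hb : 0 ≤ b) (hl : 0 < l) :
    ((p : ℝ) + 1) * (a * b ^ p) ≤ l ^ p * a ^ (p + 1) + p * b ^ (p + 1) / l := by
  have h := young p (mul_nonneg hl.le ha) hb
  rw [mul_pow, pow_succ l] at h
  have e : l ^ p * a ^ (p + 1) + p * b ^ (p + 1) / l =
      (l ^ p * l * a ^ (p + 1) + p * b ^ (p + 1)) / l := by field_simp
  rw [e, le_div_iff₀ hl]
  linarith

theorem pd_pow_succ {h : (ι → ℝ) → ℝ} (hh : Tame h) (e : ι) (k : ℕ) :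
    pd e (fun g => h g ^ (k + 1)) = fun g => ((k : ℝ) + 1) * h g ^ k * pd e h g := by
  induction k with
  | zero => funext g; simp
  | succ k ih =>
    have : (fun g => h g ^ (k + 1 + 1)) = fun g => h g ^ (k + 1) * h g := by
      funext g; ring
    rw [this, pd_mul e (hh.pow (k + 1)) hh, ih]
    funext g; push_cast; ring

theorem moment_succ {f : (ι → ℝ) → ℝ} (hf : Tame f) (q : ℕ) :
    ∫ g, (f g - ∫ h, f h ∂gauss ι) ^ (2 * (q + 1)) ∂gauss ι ≤
      (5 * ((q : ℝ) + 1)) ^ (q + 1) * ∫ g, (∑ e, pd e f g ^ 2) ^ (q + 1) ∂gauss ι := by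
  set m := ∫ h, f h ∂gauss ι with hm
  set h : (ι → ℝ) → ℝ := fun g => f g - m with hh
  have th : Tame h := hf.sub (Tame.const m)
  have tG : Tame (fun g => ∑ e, pd e f g ^ 2) := Tame.sum _ fun e _ => (hf.pd e).pow 2
  have hG0 : ∀ g, 0 ≤ ∑ e, pd e f g ^ 2 := fun g => Finset.sum_nonneg fun e _ => sq_nonneg _
  have tA : Tame (fun g => (∑ e, pd e f g ^ 2) ^ (q + 1)) := tG.pow _
  have tM : Tame (fun g => h g ^ (2 * (q + 1))) := th.pow _
  have tW : Tame (fun g => h g ^ (2 * q + 1)) := th.pow _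
  have hpd : ∀ e, pd e h = pd e f := fun e => by
    rw [hh, pd_sub e hf (Tame.const m), pd_const]; simp
  set A := ∫ g, (∑ e, pd e f g ^ 2) ^ (q + 1) ∂gauss ι with hA
  set M := ∫ g, h g ^ (2 * (q + 1)) ∂gauss ι with hM
  set l : ℝ := 2 * (q : ℝ) + 1 with hl
  have hl0 : 0 < l := by positivity
  set D : ℝ := l * ((l ^ q * A + q * M / l) / (q + 1)) with hD
  have hder : ∀ t ∈ Ioo (0 : ℝ) 1,
      ∑ e, corr t (pd e h) (pd e fun g => h g ^ (2 * q + 1)) ≤ D := by
    intro t ht
    have ht' : t ∈ Icc (0 : ℝ) 1 := ⟨ht.1.le, ht.2.le⟩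
    have tY : ∀ e, Tame (fun g => l * (h g ^ (2 * q) * pd e f g)) := fun e =>
      ((th.pow (2 * q)).mul (hf.pd e)).const_mul l
    have e1 : ∀ e, pd e (fun g => h g ^ (2 * q + 1)) =
        fun g => l * (h g ^ (2 * q) * pd e f g) := fun e => by
      rw [pd_pow_succ th e (2 * q), hpd]; funext g; rw [hl]; push_cast; ring
    simp only [hpd, e1, corr]
    rw [← integral_finsetSum _ fun e _ => integrable_integrand (hf.pd e) (tY e) ht']
    set R : (ι → ℝ) × (ι → ℝ) × (ι → ℝ) → ℝ := fun p =>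
      l * (((l ^ q) / (2 * (q + 1))) *
          ((∑ e, pd e f (pt t p.1 p.2.1) ^ 2) ^ (q + 1) * (fun _ => (1 : ℝ)) (pt t p.1 p.2.2)) +
        ((l ^ q) / (2 * (q + 1))) *
          ((fun _ => (1 : ℝ)) (pt t p.1 p.2.1) * (∑ e, pd e f (pt t p.1 p.2.2) ^ 2) ^ (q + 1)) +
        (q / (l * (q + 1))) *
          ((fun _ => (1 : ℝ)) (pt t p.1 p.2.1) * h (pt t p.1 p.2.2) ^ (2 * (q + 1)))) with hR
    have j1 := (integrable_integrand tA (Tame.const 1) ht').const_mul ((l ^ q) / (2 * (q + 1)))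
    have j2 := (integrable_integrand (Tame.const 1) tA ht').const_mul ((l ^ q) / (2 * (q + 1)))
    have j3 := (integrable_integrand (Tame.const 1) tM ht').const_mul ((q : ℝ) / (l * (q + 1)))
    calc _ ≤ ∫ p, R p ∂law3 ι := by
          refine integral_mono (integrable_finsetSum _ fun e _ =>
            integrable_integrand (hf.pd e) (tY e) ht') (((j1.fun_add j2).fun_add j3).const_mul l)
            fun p => ?_
          dsimp only [hR]
          set x := pt t p.1 p.2.1
          set y := pt t p.1 p.2.2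
          have hS : ∑ e, pd e f x * (l * (h y ^ (2 * q) * pd e f y)) ≤
              l * (((∑ e, pd e f x ^ 2) + ∑ e, pd e f y ^ 2) / 2 * (h y ^ 2) ^ q) := by
            rw [← Finset.sum_add_distrib, Finset.sum_div, Finset.sum_mul, Finset.mul_sum,
              ← pow_mul]
            refine Finset.sum_le_sum fun e _ => ?_
            have : pd e f x * pd e f y ≤ (pd e f x ^ 2 + pd e f y ^ 2) / 2 := by
              nlinarith [sq_nonneg (pd e f x - pd e f y)]
            have hp : 0 ≤ h y ^ (2 * q) := by rw [pow_mul]; positivity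
            nlinarith [mul_le_mul_of_nonneg_right this (mul_nonneg hl0.le hp)]
          refine hS.trans (mul_le_mul_of_nonneg_left ?_ hl0.le)
          have y1 := young_scaled q (hG0 x) (sq_nonneg (h y)) hl0
          have y2 := young_scaled q (hG0 y) (sq_nonneg (h y)) hl0
          rw [show (2 * (q + 1)) = 2 * (q + 1) from rfl, pow_mul (h y) 2 (q + 1)]
          have hq : (0 : ℝ) < (q : ℝ) + 1 := by positivity
          rw [← mul_le_mul_iff_right₀ (mul_pos two_pos hq)]
          field_simp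
          have y3 := add_le_add y1 y2
          field_simp at y3
          linarith
      _ = _ := by
          simp only [hR]
          rw [integral_const_mul, integral_add (j1.fun_add j2) j3, integral_add j1 j2,
            integral_const_mul, integral_const_mul, integral_const_mul]
          simp only [one_mul, mul_one, integral_const_mul]
          have c1 := corr_const_right tA ht'
          have c2 := corr_const_left tA ht'
          have c3 := corr_const_left tM ht'
          simp only [corr, one_mul, mul_one] at c1 c2 c3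
          rw [c1, c2, c3, ← hA, ← hM, hD]
          field_simp
          ring
  have hkey : M ≤ D := by
    have h1 : (1 : ℝ) ∈ Icc (0 : ℝ) 1 := by simp
    have h0 : (0 : ℝ) ∈ Icc (0 : ℝ) 1 := by simp
    have := le_of_deriv (F := fun u => D * u - corr u h (fun g => h g ^ (2 * q + 1)))
      (F' := fun u => D * 1 - ∑ e, corr u (pd e h) (pd e fun g => h g ^ (2 * q + 1)))
      ((continuousOn_const.mul continuousOn_id).sub (continuousOn_corr th tW))
      (fun u hu => ((hasDerivAt_id u).const_mul D).sub (hasDerivAt_corr th tW hu))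
      (fun u hu => by linarith [hder u hu]) h0 h1 zero_le_one
    have hz : ∫ g, h g ∂gauss ι = 0 := by
      simp only [hh]
      rw [integral_sub hf.integrable (integrable_const m)]
      simp [hm]
    have hM1 : ∫ g, h g * h g ^ (2 * q + 1) ∂gauss ι = M :=
      integral_congr_ae (.of_forall fun g => by ring)
    simp only [corr_zero, corr_one, hz, hM1, zero_mul, mul_zero, sub_zero, mul_one] at this
    linarith
  have hA0 : 0 ≤ A := integral_nonneg fun g => pow_nonneg (hG0 g) _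
  have hb : M ≤ l ^ (q + 1) * A := by
    have hq : (0 : ℝ) < (q : ℝ) + 1 := by positivity
    rw [hD] at hkey
    field_simp at hkey
    rw [pow_succ]
    nlinarith
  refine hb.trans (mul_le_mul_of_nonneg_right (pow_le_pow_left₀ hl0.le ?_ _) hA0)
  rw [hl]; linarith [(Nat.cast_nonneg q : (0 : ℝ) ≤ q)]

end Interp

open Interp

attribute [local instance] isProb

/-- Bessel inequality for expected derivatives. -/
theorem gauss_bessel {f : (ι → ℝ) → ℝ} (hf : Tame f) (K : ℕ) :
    ∑ k ∈ Finset.range (K + 1), ∑ α ∈ orders ι k, wgt α * coefOf f α ^ 2 ≤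
      ∫ g, f g ^ 2 ∂gauss ι :=
  (trunc_one_eq f K).symm.trans_le (part_le hf K).1

/-- The variance is at most its part of order `≤ K` plus the energy divided by `K + 1`. -/
theorem gauss_tail {f : (ι → ℝ) → ℝ} (hf : Tame f) (K : ℕ) :
    (∫ g, f g ^ 2 ∂gauss ι) - (∫ g, f g ∂gauss ι) ^ 2 ≤
      ∑ k ∈ Finset.Icc 1 K, ∑ α ∈ orders ι k, wgt α * coefOf f α ^ 2 +
        (∫ g, ∑ e, pd e f g ^ 2 ∂gauss ι) / (K + 1) := by
  have h := (part_le hf K).2
  rw [trunc_one_eq, Finset.range_eq_Ico, Finset.sum_eq_sum_Ico_succ_bot (Nat.succ_pos K),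
    part_zero] at h
  rw [← Finset.Ico_succ_right_eq_Icc]
  simp only [part, Nat.succ_eq_succ, Nat.succ_eq_add_one, zero_add] at h ⊢
  linarith

theorem gauss_poincare {f : (ι → ℝ) → ℝ} (hf : Tame f) :
    (∫ g, f g ^ 2 ∂gauss ι) - (∫ g, f g ∂gauss ι) ^ 2 ≤
      ∫ g, ∑ e, pd e f g ^ 2 ∂gauss ι := by
  simpa using gauss_tail hf 0

/-- Moment concentration. -/
theorem gauss_moment {f : (ι → ℝ) → ℝ} (hf : Tame f) (p : ℕ) :
    ∫ g, (f g - ∫ h, f h ∂gauss ι) ^ (2 * p) ∂gauss ι ≤
      (5 * (p : ℝ)) ^ p * ∫ g, (∑ e, pd e f g ^ 2) ^ p ∂gauss ι := by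
  cases p with
  | zero => simp
  | succ q => simpa using moment_succ hf q

end Vale.Agent.P146
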