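import Vale.Agent.P146.EventNorm
import Vale.Agent.P146.Interp

/-!
Moments of the matrix size, gradients and means of the traces, and their tails.
-/

namespace Vale.Agent.P146

open MeasureTheory ProbabilityTheory Finset

variable {n : ℕ}

theorem gauss_even_moment {ι : Type*} [Fintype ι] [DecidableEq ι] (e : ι) :
    ∀ r : ℕ, ∫ g, g e ^ (2 * r) ∂gauss ι ≤ (2 * (r : ℝ)) ^ r
  | 0 => by simp
  | r + 1 => by
    have hc : Tame (fun g : ι → ℝ => g e) := Tame.coord e
    have hpd : pd e (fun g : ι → ℝ => g e ^ (2 * r + 1))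
        = fun g => ((2 * r + 1 : ℕ) : ℝ) * g e ^ (2 * r) := by
      funext g
      rw [Interp.pd_pow_succ hc e (2 * r)]
      simp [pd_coord]
    have h1 : ∫ g, g e ^ (2 * (r + 1)) ∂gauss ι
        = ((2 * r + 1 : ℕ) : ℝ) * ∫ g, g e ^ (2 * r) ∂gauss ι := by
      rw [← integral_const_mul]
      calc ∫ g, g e ^ (2 * (r + 1)) ∂gauss ι = ∫ g, g e * g e ^ (2 * r + 1) ∂gauss ι :=
            integral_congr_ae (Filter.Eventually.of_forall fun g => by simp only; ring)
        _ = _ := by rw [gauss_ibp (hc.pow _) e, hpd]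
    rw [h1, pow_succ' (2 * ((r + 1 : ℕ) : ℝ)) r]
    refine mul_le_mul (by push_cast; linarith) ((gauss_even_moment e r).trans ?_)
      (integral_nonneg fun g => (even_two_mul r).pow_nonneg _) (by positivity)
    exact pow_le_pow_left₀ (by positivity) (by push_cast; linarith) r

/-- The squared Frobenius norm of the matrix. -/
noncomputable def frob (g : Cfg n) : ℝ := ∑ a, ∑ b, mat g a b ^ 2

theorem frob_nonneg (g : Cfg n) : 0 ≤ frob g :=
  sum_nonneg fun _ _ => sum_nonneg fun _ _ => sq_nonneg _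

theorem Tame.frob : Tame (P146.frob (n := n)) :=
  Tame.sum univ fun a _ => Tame.sum univ fun b _ => (Tame.matEntry a b).pow 2

theorem mean_frob_pow_le (hn : n ≠ 0) {r : ℕ} (hr : 4 * ((r : ℝ) + 1) ≤ n) :
    mean (fun g : Cfg n => frob g ^ (r + 1)) ≤ (n : ℝ) ^ (2 * (r + 1)) := by
  have hn' : (0 : ℝ) < n := by exact_mod_cast Nat.pos_of_ne_zero hn
  have hpt : ∀ g : Cfg n, frob g ^ (r + 1) ≤ (2 / (n : ℝ)) ^ (r + 1) * ((n : ℝ) ^ 2) ^ r *
      ∑ p : Fin n × Fin n, g s(p.1, p.2) ^ (2 * (r + 1)) := by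
    intro g
    have h1 : frob g ≤ 2 / (n : ℝ) * ∑ p : Fin n × Fin n, g s(p.1, p.2) ^ 2 := by
      rw [frob, Fintype.sum_prod_type]
      simp only [mul_sum]
      refine sum_le_sum fun a _ => sum_le_sum fun b _ => ?_
      have hd : dfac a b ^ 2 ≤ 2 := by
        unfold dfac; split
        · simp
        · norm_num
      simp only [mat, Matrix.of_apply, div_pow, mul_pow, Real.sq_sqrt hn'.le]
      rw [div_mul_eq_mul_div]
      gcongr
    refine (pow_le_pow_left₀ (frob_nonneg g) h1 (r + 1)).trans ?_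
    rw [mul_pow, mul_assoc ((2 / (n : ℝ)) ^ (r + 1))]
    refine mul_le_mul_of_nonneg_left ?_ (by positivity)
    have h2 := pow_sum_le_card_mul_sum_pow (s := (univ : Finset (Fin n × Fin n)))
      (f := fun p => g s(p.1, p.2) ^ 2) (fun _ _ => sq_nonneg _) r
    simp only [card_univ, Fintype.card_prod, Fintype.card_fin, Nat.cast_mul, ← pow_mul] at h2
    rw [show ((n : ℝ) ^ 2) ^ r = ((n : ℝ) * n) ^ r by ring]
    exact h2
  have hT : ∀ p : Fin n × Fin n, Tame (fun g : Cfg n => g s(p.1, p.2) ^ (2 * (r + 1))) :=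
    fun p => (Tame.coord _).pow _
  refine (integral_mono (Tame.frob.pow _).integrable
    (Tame.const_mul _ (Tame.sum univ fun p _ => hT p)).integrable hpt).trans ?_
  rw [integral_const_mul, integral_finsetSum _ fun p _ => (hT p).integrable]
  refine (mul_le_mul_of_nonneg_left (sum_le_sum fun p _ => gauss_even_moment _ (r + 1))
    (by positivity)).trans ?_
  rw [sum_const, card_univ, Fintype.card_prod, Fintype.card_fin, nsmul_eq_mul, pow_mul (n : ℝ) 2]
  refine le_of_eq_of_le ?_ (pow_le_pow_left₀ (show 0 ≤ 4 * ((r : ℝ) + 1) * n by positivity)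
    (show 4 * ((r : ℝ) + 1) * n ≤ (n : ℝ) ^ 2 by nlinarith) (r + 1))
  push_cast
  rw [mul_assoc ((2 / (n : ℝ)) ^ (r + 1)),
    show ((n : ℝ) ^ 2) ^ r * ((n : ℝ) * n * (2 * ((r : ℝ) + 1)) ^ (r + 1))
      = ((n : ℝ) ^ 2) ^ (r + 1) * (2 * ((r : ℝ) + 1)) ^ (r + 1) by ring,
    ← mul_pow, ← mul_pow]
  congr 1
  field_simp
  ring

theorem continuous_msize : Continuous (msize (n := n)) :=
  continuous_const.add (Real.continuous_sqrt.comp Tame.frob.continuous)

theorem msize_moment (hn8 : (8 : ℝ) ≤ n) {q : ℕ} (hq : 4 * (q : ℝ) ≤ n) :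
    Integrable (fun g => msize g ^ (2 * q)) (gauss (Edge n)) ∧
      mean (fun g : Cfg n => msize g ^ (2 * q)) ≤ (n : ℝ) ^ (3 * q) := by
  have hn : n ≠ 0 := fun h => by subst h; norm_num at hn8
  cases q with
  | zero => simp [mean]
  | succ r =>
    push_cast at hq
    have hT : Tame (fun g : Cfg n => (4 : ℝ) ^ (r + 1) * (1 + frob g ^ (r + 1))) :=
      Tame.const_mul _ ((Tame.const 1).add (Tame.frob.pow _))
    have hpt : ∀ g : Cfg n, msize g ^ (2 * (r + 1)) ≤ (4 : ℝ) ^ (r + 1) * (1 + frob g ^ (r + 1)) := by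
      intro g
      have hF := frob_nonneg g
      have h1 : msize g ^ 2 ≤ 2 * (1 + frob g) := by
        have h := Real.sq_sqrt hF
        rw [msize, ← frob]
        nlinarith [sq_nonneg (Real.sqrt (frob g) - 1)]
      rw [pow_mul]
      refine (pow_le_pow_left₀ (sq_nonneg _) h1 _).trans ?_
      rw [mul_pow, show (4 : ℝ) ^ (r + 1) = 2 ^ (r + 1) * 2 ^ (r + 1) by rw [← mul_pow]; norm_num,
        mul_assoc]
      refine mul_le_mul_of_nonneg_left ?_ (by positivity)
      refine (add_pow_le zero_le_one hF (r + 1)).trans ?_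
      rw [one_pow, Nat.add_sub_cancel]
      refine mul_le_mul_of_nonneg_right (pow_le_pow_right₀ one_le_two (Nat.le_succ r)) ?_
      positivity
    have hint : Integrable (fun g => msize g ^ (2 * (r + 1))) (gauss (Edge n)) :=
      hT.integrable.mono' (continuous_msize.pow _).aestronglyMeasurable
        (Filter.Eventually.of_forall fun g => by
          rw [Real.norm_of_nonneg (pow_nonneg (zero_le_one.trans (one_le_msize g)) _)]
          exact hpt g)
    refine ⟨hint, (integral_mono hint hT.integrable hpt).trans ?_⟩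
    rw [integral_const_mul, integral_add (integrable_const _) (Tame.frob.pow _).integrable,
      integral_const]
    have h2 := mean_frob_pow_le hn (r := r) (by linarith)
    simp only [mean] at h2
    simp only [probReal_univ, one_smul]
    have h1n : (1 : ℝ) ≤ (n : ℝ) ^ (2 * (r + 1)) := one_le_pow₀ (by linarith)
    calc (4 : ℝ) ^ (r + 1) * (1 + ∫ g, frob g ^ (r + 1) ∂gauss (Edge n))
        ≤ 4 ^ (r + 1) * (2 * (n : ℝ) ^ (2 * (r + 1))) := by gcongr; linarith
      _ ≤ 8 ^ (r + 1) * (n : ℝ) ^ (2 * (r + 1)) := by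
        rw [show (8 : ℝ) ^ (r + 1) = 4 ^ (r + 1) * 2 ^ (r + 1) by rw [← mul_pow]; norm_num]
        rw [mul_assoc]
        gcongr
        exact le_self_pow₀ one_le_two (by omega)
      _ ≤ (n : ℝ) ^ (r + 1) * (n : ℝ) ^ (2 * (r + 1)) := by gcongr
      _ = _ := by rw [← pow_add]; congr 1; omega

/-- A mean is controlled by a bound off a small set and a crude bound everywhere. -/
theorem mean_le_off (hn8 : (8 : ℝ) ≤ n) {S : Set (Cfg n)} (hS : MeasurableSet S) {q R : ℕ}
    (hq : 4 * (q : ℝ) ≤ n) (hP : (gauss (Edge n)).real S ≤ ((n : ℝ) ^ (3 * q + 2 * R))⁻¹)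
    {f : Cfg n → ℝ} (hf : Measurable f) {A B : ℝ} (hA : 0 ≤ A) (hB : 0 ≤ B)
    (hgood : ∀ g, g ∉ S → |f g| ≤ A) (hall : ∀ g, |f g| ≤ B * msize g ^ q) :
    Integrable f (gauss (Edge n)) ∧ |mean f| ≤ A + B * ((n : ℝ) ^ R)⁻¹ := by
  obtain ⟨hmi, hmm⟩ := msize_moment hn8 hq
  have hn : (0 : ℝ) < n := by linarith
  set w : ℝ := (n : ℝ) ^ (3 * q + R) with hw
  have hw0 : 0 < w := pow_pos hn _
  set U : Cfg n → ℝ := fun g =>
    A + B / 2 * (w * S.indicator (fun _ => (1 : ℝ)) g + msize g ^ (2 * q) / w) with hU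
  have hi1 : Integrable (fun g => w * S.indicator (fun _ => (1 : ℝ)) g) (gauss (Edge n)) :=
    ((integrable_const (1 : ℝ)).indicator hS).const_mul w
  have hi2 : Integrable (fun g => msize g ^ (2 * q) / w) (gauss (Edge n)) := hmi.div_const w
  have hUi : Integrable U (gauss (Edge n)) :=
    (integrable_const A).add ((hi1.add hi2).const_mul (B / 2))
  have hb : ∀ g, |f g| ≤ U g := by
    intro g
    simp only [hU]
    by_cases hg : g ∈ S
    · rw [Set.indicator_of_mem hg, mul_one]
      refine (hall g).trans ?_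
      have h1 : msize g ^ q ≤ (w + msize g ^ (2 * q) / w) / 2 := by
        rw [le_div_iff₀ two_pos, mul_comm 2 q, pow_mul]
        have h := two_mul_le_add_sq w (msize g ^ q)
        have h' : (w + (msize g ^ q) ^ 2 / w) = (w ^ 2 + (msize g ^ q) ^ 2) / w := by field_simp
        rw [h', le_div_iff₀ hw0]
        linarith
      have := mul_le_mul_of_nonneg_left h1 hB
      linarith
    · rw [Set.indicator_of_notMem hg, mul_zero, zero_add]
      refine (hgood g hg).trans (le_add_of_nonneg_right ?_)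
      exact mul_nonneg (by linarith) (div_nonneg ((even_two_mul q).pow_nonneg _) hw0.le)
  have hfi : Integrable f (gauss (Edge n)) :=
    hUi.mono' hf.aestronglyMeasurable (Filter.Eventually.of_forall hb)
  refine ⟨hfi, ?_⟩
  refine (abs_integral_le_integral_abs).trans ((integral_mono hfi.abs hUi hb).trans ?_)
  simp only [hU]
  rw [integral_add (integrable_const _) ?_, integral_const, integral_const_mul,
    integral_add hi1 hi2, integral_const_mul, integral_div, integral_indicator_const _ hS]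
  · simp only [probReal_univ, one_smul, smul_eq_mul, mul_one]
    simp only [mean] at hmm
    have e1 : w * (gauss (Edge n)).real S ≤ ((n : ℝ) ^ R)⁻¹ := by
      refine (mul_le_mul_of_nonneg_left hP hw0.le).trans_eq ?_
      rw [hw, show 3 * q + 2 * R = 3 * q + R + R by omega, pow_add _ (3 * q + R) R]
      field_simp
    have e2 : (∫ g, msize g ^ (2 * q) ∂gauss (Edge n)) / w ≤ ((n : ℝ) ^ R)⁻¹ := by
      refine (div_le_div_of_nonneg_right hmm hw0.le).trans_eq ?_
      rw [hw, pow_add]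
      field_simp
    have := mul_le_mul_of_nonneg_left (add_le_add e1 e2) (show 0 ≤ B / 2 by linarith)
    linarith
  · exact (hi1.add hi2).const_mul (B / 2)

/-- The squared gradient. -/
noncomputable def gradSq (f : Cfg n → ℝ) (g : Cfg n) : ℝ := ∑ e, pd e f g ^ 2

theorem gradSq_nonneg (f : Cfg n → ℝ) (g : Cfg n) : 0 ≤ gradSq f g :=
  sum_nonneg fun _ _ => sq_nonneg _

theorem Tame.gradSq {f : Cfg n → ℝ} (hf : Tame f) : Tame (P146.gradSq f) :=
  Tame.sum univ fun e _ => (hf.pd e).pow 2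

theorem gradSq_le (hn : n ≠ 0) (f : Cfg n → ℝ) (g : Cfg n) :
    gradSq f g ≤ (∑ a, ∑ b, Dab (a, b) f g ^ 2) / n := by
  have hn' : (0 : ℝ) < n := by exact_mod_cast Nat.pos_of_ne_zero hn
  let π : Fin n × Fin n → Edge n := fun p => s(p.1, p.2)
  rw [gradSq, ← Fintype.sum_prod_type (f := fun p => Dab p f g ^ 2), Finset.sum_div]
  refine le_trans ?_ (sum_le_sum (f := fun p => pd (π p) f g ^ 2) fun p _ => ?_)
  · rw [← Finset.sum_fiberwise (univ : Finset (Fin n × Fin n)) π]
    refine sum_le_sum fun e _ => ?_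
    induction e using Sym2.ind with
    | h a b =>
      have hm : (a, b) ∈ univ.filter (fun p : Fin n × Fin n => π p = s(a, b)) :=
        mem_filter.2 ⟨mem_univ _, rfl⟩
      exact single_le_sum (f := fun p => pd (π p) f g ^ 2) (fun p _ => sq_nonneg _) hm
  · have hd : 1 ≤ dfac p.1 p.2 ^ 2 := by
      unfold dfac; split
      · simp
      · norm_num
    simp only [Dab, mul_pow, Real.sq_sqrt hn'.le]
    rw [le_div_iff₀ hn', mul_comm]
    refine mul_le_mul_of_nonneg_right ?_ (sq_nonneg _)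
    exact le_mul_of_one_le_left hn'.le hd

theorem Dab_trU_eq (i : ℕ) (c d : Fin n) (g : Cfg n) :
    Dab (c, d) (trU i) g = 2 / (n : ℝ) *
      ∑ p ∈ range i, ∑ l ∈ range (min p (i - 1 - p) + 1), uEnt (i - 1 - 2 * l) c d g := by
  rw [Dab_trU]
  congr 1
  refine sum_congr rfl fun p hp => ?_
  rw [mem_range] at hp
  rw [uEnt_mul, show p + (i - 1 - p) = i - 1 by omega]

theorem gradSq_trU_le (hn : n ≠ 0) {i : ℕ} {M : ℝ} (g : Cfg n)
    (hM : ∀ m < i, ∑ a, ∑ b, uEnt m a b g ^ 2 ≤ M) :
    gradSq (trU i) g ≤ 4 * (i : ℝ) ^ 4 * M / (n : ℝ) ^ 3 := by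
  have hn' : (0 : ℝ) < n := by exact_mod_cast Nat.pos_of_ne_zero hn
  refine (gradSq_le hn _ g).trans ?_
  have hpt : ∀ c d : Fin n, Dab (c, d) (trU i) g ^ 2 ≤ 4 / (n : ℝ) ^ 2 *
      ((i : ℝ) * ∑ p ∈ range i, (i : ℝ) *
        ∑ l ∈ range (min p (i - 1 - p) + 1), uEnt (i - 1 - 2 * l) c d g ^ 2) := by
    intro c d
    rw [Dab_trU_eq, mul_pow, div_pow, show (2 : ℝ) ^ 2 = 4 by norm_num]
    refine mul_le_mul_of_nonneg_left (sq_sum_le_card_mul_sum_sq.trans ?_) (by positivity)
    rw [card_range]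
    refine mul_le_mul_of_nonneg_left (sum_le_sum fun p hp => ?_) (Nat.cast_nonneg i)
    rw [mem_range] at hp
    refine sq_sum_le_card_mul_sum_sq.trans ?_
    rw [card_range]
    refine mul_le_mul_of_nonneg_right ?_ (sum_nonneg fun _ _ => sq_nonneg _)
    exact_mod_cast (by omega : min p (i - 1 - p) + 1 ≤ i)
  have hM0 : ∀ p ∈ range i, 0 ≤ M := fun p hp =>
    (sum_nonneg fun _ _ => sum_nonneg fun _ _ => sq_nonneg _).trans (hM p (mem_range.1 hp))
  calc (∑ a, ∑ b, Dab (a, b) (trU i) g ^ 2) / (n : ℝ)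
      ≤ (∑ a, ∑ b, 4 / (n : ℝ) ^ 2 * ((i : ℝ) * ∑ p ∈ range i, (i : ℝ) *
        ∑ l ∈ range (min p (i - 1 - p) + 1), uEnt (i - 1 - 2 * l) a b g ^ 2)) / (n : ℝ) := by
        gcongr with a _ b _; exact hpt a b
    _ = 4 / (n : ℝ) ^ 2 * ((i : ℝ) * ∑ p ∈ range i, (i : ℝ) *
        ∑ l ∈ range (min p (i - 1 - p) + 1), ∑ a, ∑ b, uEnt (i - 1 - 2 * l) a b g ^ 2) / (n : ℝ) := by
        simp only [← mul_sum]
        rw [sum_comm_cycle]
        congr 4
        refine sum_congr rfl fun p _ => ?_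
        rw [sum_comm_cycle]
    _ ≤ 4 / (n : ℝ) ^ 2 * ((i : ℝ) * ((i : ℝ) * ((i : ℝ) * ((i : ℝ) * M)))) / (n : ℝ) := by
        gcongr
        refine (sum_le_card_nsmul _ _ ((i : ℝ) * ((i : ℝ) * M)) fun p hp => ?_).trans_eq (by
          rw [card_range, nsmul_eq_mul])
        refine mul_le_mul_of_nonneg_left ?_ (Nat.cast_nonneg i)
        have hp' := mem_range.1 hp
        refine (sum_le_card_nsmul _ _ M fun l hl => hM _ (by omega)).trans ?_
        rw [card_range, nsmul_eq_mul]
        refine mul_le_mul_of_nonneg_right ?_ (hM0 p hp)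
        exact_mod_cast (by omega : min p (i - 1 - p) + 1 ≤ i)
    _ = _ := by field_simp

theorem gradSq_trU_normBd {β : ℝ} {K : ℕ} (hB : Big β n K) {g : Cfg n} (hg : NormBd K g) {i : ℕ}
    (hi : i ≤ 2 * K) : gradSq (trU i) g ≤ 1024 * (K : ℝ) ^ 6 / (n : ℝ) ^ 2 := by
  obtain ⟨hn0, hn4⟩ := big_pos hB
  have hn : (0 : ℝ) < n := by linarith
  have hiR : (i : ℝ) ≤ 2 * K := by exact_mod_cast hi
  refine (gradSq_trU_le hn0 g (M := (n : ℝ) * (4 * (K : ℝ)) ^ 2) fun m hm => ?_).trans ?_
  · refine (frob_uEnt_le_of_quad hg (by omega)).trans ?_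
    have : (m : ℝ) + 1 ≤ 2 * K := by exact_mod_cast (by omega : m + 1 ≤ 2 * K)
    exact mul_le_mul_of_nonneg_left (pow_le_pow_left₀ (by positivity) (by linarith) 2) hn.le
  · calc 4 * (i : ℝ) ^ 4 * ((n : ℝ) * (4 * (K : ℝ)) ^ 2) / (n : ℝ) ^ 3
        ≤ 4 * (2 * (K : ℝ)) ^ 4 * ((n : ℝ) * (4 * (K : ℝ)) ^ 2) / (n : ℝ) ^ 3 := by gcongr
      _ = _ := by field_simp; ring

theorem gradSq_trU_crude (hn : n ≠ 0) {K i : ℕ} (hi : i ≤ 2 * K) (g : Cfg n) :
    gradSq (trU i) g ≤ 64 * (K : ℝ) ^ 4 / n * msize g ^ (4 * K) := by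
  have hn' : (0 : ℝ) < n := by exact_mod_cast Nat.pos_of_ne_zero hn
  have hiR : (i : ℝ) ≤ 2 * K := by exact_mod_cast hi
  refine (gradSq_trU_le hn g (M := (n : ℝ) ^ 2 * msize g ^ (4 * K)) fun m hm => ?_).trans ?_
  · calc ∑ a, ∑ b, uEnt m a b g ^ 2 ≤ ∑ _a : Fin n, ∑ _b : Fin n, msize g ^ (4 * K) := by
          refine sum_le_sum fun a _ => sum_le_sum fun b _ => ?_
          rw [← sq_abs]
          refine (pow_le_pow_left₀ (abs_nonneg _) (uEnt_crude m a b g) 2).trans ?_
          rw [← pow_mul]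
          exact pow_le_pow_right₀ (one_le_msize g) (by omega)
      _ = _ := by simp [sq, mul_assoc]
  · have : 0 ≤ msize g ^ (4 * K) := pow_nonneg (zero_le_one.trans (one_le_msize g)) _
    calc 4 * (i : ℝ) ^ 4 * ((n : ℝ) ^ 2 * msize g ^ (4 * K)) / (n : ℝ) ^ 3
        ≤ 4 * (2 * (K : ℝ)) ^ 4 * ((n : ℝ) ^ 2 * msize g ^ (4 * K)) / (n : ℝ) ^ 3 := by gcongr
      _ = _ := by field_simp; ring

theorem mean_gradSq_pow_le {β : ℝ} {K : ℕ} (hB : Big β n K) {p i : ℕ} (hp : p ≤ 22 * K)
    (hi : i ≤ 2 * K) :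
    mean (fun g : Cfg n => gradSq (trU i) g ^ p) ≤ 2 * (1024 * (K : ℝ) ^ 6 / (n : ℝ) ^ 2) ^ p := by
  obtain ⟨hn0, hn4⟩ := big_pos hB
  have hn : (0 : ℝ) < n := by linarith
  have hk : 2 ≤ K := hB.1
  have hkR : (2 : ℝ) ≤ K := by exact_mod_cast hk
  have hpK : p * K ≤ 22 * K * K := Nat.mul_le_mul_right K hp
  have hq : 4 * ((4 * K * p : ℕ) : ℝ) ≤ n := by
    refine le_trans ?_ (big_mono hB (c := 352) (j := 2) (by norm_num) (by norm_num) (by norm_num))
    exact_mod_cast (by nlinarith : 4 * (4 * K * p) ≤ 352 * K ^ 2)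
  have hP : (gauss (Edge n)).real {g : Cfg n | ¬ NormBd K g} ≤
      ((n : ℝ) ^ (3 * (4 * K * p) + 2 * (2 * p)))⁻¹ := by
    refine (prob_not_normBd hB).trans (inv_anti₀ (by positivity) ?_)
    exact pow_le_pow_right₀ (by linarith) (by nlinarith)
  obtain ⟨-, h⟩ := mean_le_off (by linarith : (8 : ℝ) ≤ n)
    (measurableSet_normBd K).compl (q := 4 * K * p) (R := 2 * p) hq hP
    ((Tame.gradSq (Tame.trU i)).pow p).continuous.measurable
    (A := (1024 * (K : ℝ) ^ 6 / (n : ℝ) ^ 2) ^ p) (B := (64 * (K : ℝ) ^ 4 / n) ^ p)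
    (by positivity) (by positivity)
    (fun g hg => by
    simp only [Set.mem_compl_iff, Set.mem_ofPred_eq, not_not] at hg
    rw [abs_pow, abs_of_nonneg (gradSq_nonneg _ g)]
    exact pow_le_pow_left₀ (gradSq_nonneg _ g) (gradSq_trU_normBd hB hg hi) p)
    (fun g => by
    rw [abs_pow, abs_of_nonneg (gradSq_nonneg _ g), pow_mul, ← mul_pow]
    exact pow_le_pow_left₀ (gradSq_nonneg _ g) (gradSq_trU_crude hn0 hi g) p)
  refine (le_abs_self _).trans (h.trans ?_)
  rw [two_mul ((1024 * (K : ℝ) ^ 6 / (n : ℝ) ^ 2) ^ p)]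
  refine add_le_add le_rfl ?_
  rw [← inv_pow, pow_mul (n : ℝ)⁻¹ 2 p, ← mul_pow]
  refine pow_le_pow_left₀ (by positivity) ?_ p
  rw [inv_pow, ← div_eq_mul_inv]
  refine div_le_div_of_nonneg_right ?_ (by positivity)
  refine (div_le_self (by positivity) (by linarith)).trans ?_
  have : (K : ℝ) ^ 4 ≤ (K : ℝ) ^ 6 := pow_le_pow_right₀ (by linarith) (by norm_num)
  linarith [pow_nonneg (show (0:ℝ) ≤ K by linarith) 4]

theorem trU_one_mean (hn : n ≠ 0) : mean (trU (n := n) 1) = 0 := by
  have h : trU (n := n) 1 = fun g => (n : ℝ)⁻¹ * ∑ a, mat g a a * 1 := by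
    funext g; simp only [trU, uEnt_one, mul_one]; ring
  have hi : ∀ a : Fin n, Tame (fun g : Cfg n => mat g a a * 1) := fun a =>
    (Tame.matEntry a a).mul (Tame.const 1)
  rw [h, mean, integral_const_mul, integral_finsetSum _ fun a _ => (hi a).integrable]
  refine mul_eq_zero_of_right _ (sum_eq_zero fun a _ => ?_)
  refine (mat_ibp hn (Tame.const 1) a a).trans ?_
  simp [mean, Dab_const_at]

theorem trU_rec (hn : n ≠ 0) (m : ℕ) :
    mean (trU (n := n) (m + 2)) =
      (∑ i ∈ range (m + 1), mean (fun g : Cfg n => trU i g * trU (m - i) g)) +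
      (n : ℝ)⁻¹ * (∑ i ∈ range (m + 1), ∑ l ∈ range (min i (m - i) + 1),
        mean (trU (n := n) (m - 2 * l))) - mean (trU (n := n) m) := by
  have hn' : (n : ℝ) ≠ 0 := by exact_mod_cast hn
  have hexp : trU (n := n) (m + 2) = fun g =>
      (n : ℝ)⁻¹ * (∑ a, ∑ c, mat g a c * uEnt (m + 1) c a g) - trU m g := by
    funext g; simp only [trU, mat_mul_uEnt, sum_add_distrib]; ring
  have hT : ∀ a c : Fin n, Tame (fun g => mat g a c * uEnt (m + 1) c a g) := fun a c =>
    (Tame.matEntry a c).mul (Tame.uEnt _ c a)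
  have hpt : ∀ g : Cfg n, (∑ a, ∑ c, Dab (a, c) (uEnt (m + 1) c a) g) =
      (n : ℝ) ^ 2 * ((∑ i ∈ range (m + 1), trU i g * trU (m - i) g) +
      (n : ℝ)⁻¹ * ∑ i ∈ range (m + 1), ∑ l ∈ range (min i (m - i) + 1), trU (m - 2 * l) g) := by
    intro g
    simp only [Dab_uEnt, Nat.add_sub_cancel, sum_add_distrib]
    have q : ∀ F : Fin n → Fin n → ℕ → ℝ, (∑ a, ∑ c, ∑ i ∈ range (m + 1), F a c i)
        = ∑ i ∈ range (m + 1), ∑ a, ∑ c, F a c i := fun F => sum_comm_cycle
    rw [q, q]
    have p1 : ∀ i ∈ range (m + 1), (∑ a, ∑ c, uEnt i c a g * uEnt (m - i) c a g) =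
        (n : ℝ) * ∑ l ∈ range (min i (m - i) + 1), trU (m - 2 * l) g := by
      intro i hi
      rw [mem_range] at hi
      have h : ∀ a, (∑ c, uEnt i c a g * uEnt (m - i) c a g)
          = ∑ l ∈ range (min i (m - i) + 1), uEnt (m - 2 * l) a a g := by
        intro a
        simp only [uEnt_symm i _ a]
        rw [uEnt_mul, show i + (m - i) = m by omega]
      simp only [h, trU, mul_sum]
      rw [sum_comm]
      refine sum_congr rfl fun l _ => ?_
      rw [mul_div_cancel₀ _ hn']
    have p2 : ∀ i, (∑ a, ∑ c, uEnt i c c g * uEnt (m - i) a a g) =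
        (n : ℝ) ^ 2 * (trU i g * trU (m - i) g) := by
      intro i
      rw [sum_comm, ← sum_mul_sum]
      simp only [trU]
      field_simp
    rw [sum_congr rfl p1, sum_congr rfl fun i _ => p2 i, ← mul_sum, ← mul_sum]
    field_simp
    ring
  rw [hexp]
  simp only [mean]
  rw [integral_sub (Tame.const_mul _ (Tame.sum univ fun a _ => Tame.sum univ fun c _ => hT a c)).integrable
      (Tame.trU m).integrable, integral_const_mul,
    integral_finsetSum _ fun a _ => (Tame.sum univ fun c _ => hT a c).integrable]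
  simp only [integral_finsetSum _ fun c _ => (hT _ c).integrable]
  have hi : ∀ a c : Fin n, (∫ g, mat g a c * uEnt (m + 1) c a g ∂gauss (Edge n))
      = (n : ℝ)⁻¹ * ∫ g, Dab (a, c) (uEnt (m + 1) c a) g ∂gauss (Edge n) :=
    fun a c => mat_ibp hn (Tame.uEnt _ c a) a c
  have hD : ∀ a c : Fin n, Tame (Dab (a, c) (uEnt (m + 1) c a)) := fun a c =>
    Tame.Dab _ (Tame.uEnt _ c a)
  simp only [hi, ← mul_sum]
  simp only [← integral_finsetSum _ fun c _ => (hD _ c).integrable]
  rw [← integral_finsetSum _ fun a _ => (Tame.sum univ fun c _ => hD a c).integrable,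
    integral_congr_ae (Filter.Eventually.of_forall hpt), integral_const_mul, integral_add,
    integral_const_mul, integral_finsetSum _ fun i _ => ((Tame.trU i).mul (Tame.trU _)).integrable,
    integral_finsetSum]
  · simp only [integral_finsetSum _ fun l _ => (Tame.trU (n := n) (m - 2 * l)).integrable]
    field_simp
  · exact fun i _ => (Tame.sum _ fun l _ => Tame.trU _).integrable
  · exact (Tame.sum _ fun i _ => (Tame.trU i).mul (Tame.trU _)).integrable
  · exact (Tame.const_mul _ (Tame.sum _ fun i _ => Tame.sum _ fun l _ => Tame.trU _)).integrable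

theorem trU_var_le {β : ℝ} {K : ℕ} (hB : Big β n K) {i : ℕ} (hi : i ≤ 2 * K) :
    mean (fun g : Cfg n => (trU i g - mean (trU (n := n) i)) ^ 2) ≤
      10240 * (K : ℝ) ^ 6 / (n : ℝ) ^ 2 := by
  have h := gauss_moment (Tame.trU (n := n) i) 1
  have h2 := mean_gradSq_pow_le hB (p := 1) (by have := hB.1; omega) hi
  simp only [mean, gradSq, pow_one] at h2
  simp only [mul_one, Nat.cast_one, pow_one] at h
  refine h.trans ((mul_le_mul_of_nonneg_left h2 (by norm_num)).trans_eq ?_)
  ring

theorem abs_mean_mul_le {f h : Cfg n → ℝ} (hf : Tame f) (hh : Tame h) :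
    |mean (fun g => f g * h g)| ≤ |mean f| * |mean h| +
      (mean (fun g => (f g - mean f) ^ 2) + mean (fun g => (h g - mean h) ^ 2)) / 2 := by
  have tf := hf.sub (Tame.const (mean f))
  have th := hh.sub (Tame.const (mean h))
  have e : mean (fun g => f g * h g) =
      mean (fun g => (f g - mean f) * (h g - mean h)) + mean f * mean h := by
    have : mean (fun g => (f g - mean f) * (h g - mean h)) =
        ∫ g, (f g * h g - mean f * h g) - (mean h * f g - mean f * mean h) ∂gauss (Edge n) :=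
      integral_congr_ae (Filter.Eventually.of_forall fun g => by ring)
    rw [this, integral_sub ((hf.mul hh).sub (Tame.const_mul _ hh)).integrable
      ((Tame.const_mul _ hf).sub (Tame.const _)).integrable,
      integral_sub (hf.mul hh).integrable (Tame.const_mul _ hh).integrable,
      integral_sub (Tame.const_mul _ hf).integrable (integrable_const _)]
    simp only [integral_const_mul, integral_const, probReal_univ, one_smul, mean]
    ring
  rw [e]
  refine (abs_add_le _ _).trans ?_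
  rw [abs_mul, add_comm]
  refine add_le_add le_rfl ?_
  simp only [mean] at tf th ⊢
  refine (abs_integral_le_integral_abs).trans ?_
  rw [← integral_add (tf.pow 2).integrable (th.pow 2).integrable, ← integral_div]
  refine integral_mono (tf.mul th).integrable.abs (((tf.pow 2).add (th.pow 2)).integrable.div_const _) ?_
  intro g
  simp only
  rw [abs_mul, le_div_iff₀ two_pos]
  have := two_mul_le_add_sq |f g - mean f| |h g - mean h|
  simp only [sq_abs, mean] at this
  linarith

theorem trU_mean_le {β : ℝ} {K : ℕ} (hB : Big β n K) :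
    ∀ j : ℕ, 1 ≤ j → j ≤ 2 * K → |mean (trU (n := n) j)| ≤ (j : ℝ) * (9 * (K : ℝ) ^ 2 / n) := by
  obtain ⟨hn0, hn4⟩ := big_pos hB
  have hn : (0 : ℝ) < n := by linarith
  have hk : (2 : ℝ) ≤ K := by exact_mod_cast hB.1
  have hz : mean (trU (n := n) 0) = 1 := by
    rw [show trU (n := n) 0 = fun _ => 1 from funext fun g => trU_zero hn0 g]; simp [mean]
  intro j
  induction j using Nat.strong_induction_on with
  | h j ih =>
    intro h1 hjK
    match j, h1 with
    | 1, _ => rw [trU_one_mean hn0]; simp; positivity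
    | m + 2, _ =>
      have hmK : m + 2 ≤ 2 * K := hjK
      have hmR : (m : ℝ) + 2 ≤ 2 * K := by exact_mod_cast hmK
      have hone : ∀ l, l ≤ m → |mean (trU (n := n) l)| ≤ 1 := by
        intro l hl
        rcases Nat.eq_zero_or_pos l with rfl | hl0
        · simp [hz]
        refine (ih l (by omega) hl0 (by omega)).trans ?_
        have hlR : (l : ℝ) ≤ 2 * K := by exact_mod_cast (by omega : l ≤ 2 * K)
        rw [mul_div_assoc', div_le_one hn]
        refine (mul_le_mul_of_nonneg_right hlR (by positivity)).trans ?_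
        have := big_mono hB (c := 18) (j := 3) (by norm_num) (by norm_num) (by norm_num)
        linarith
      have hA : |(n : ℝ)⁻¹ * ∑ i ∈ range (m + 1), ∑ l ∈ range (min i (m - i) + 1),
          mean (trU (n := n) (m - 2 * l))| ≤ 4 * (K : ℝ) ^ 2 / n := by
        rw [abs_mul, abs_of_pos (inv_pos.2 hn), inv_mul_eq_div]
        refine div_le_div_of_nonneg_right ?_ hn.le
        refine (abs_sum_le_sum_abs _ _).trans ((sum_le_card_nsmul _ _ (2 * (K : ℝ)) fun i hi => ?_).trans ?_)
        · refine (abs_sum_le_sum_abs _ _).trans ((sum_le_card_nsmul _ _ 1 fun l _ => hone _ (by omega)).trans ?_)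
          rw [card_range, nsmul_eq_mul, mul_one]
          exact_mod_cast (by omega : min i (m - i) + 1 ≤ 2 * K)
        · rw [card_range, nsmul_eq_mul]
          push_cast
          nlinarith
      rw [trU_rec hn0]
      match m with
      | 0 =>
        simp only [zero_add, range_one, sum_singleton, Nat.sub_zero, hz, mul_zero, min_self]
        have h00 : mean (fun g : Cfg n => trU 0 g * trU 0 g) = 1 := by
          simp [trU_zero hn0, mean]
        rw [h00, show (1 : ℝ) + (n : ℝ)⁻¹ * 1 - 1 = (n : ℝ)⁻¹ by ring, abs_of_pos (inv_pos.2 hn),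
          inv_eq_one_div, mul_div_assoc']
        refine div_le_div_of_nonneg_right ?_ hn.le
        push_cast; nlinarith
      | m + 1 =>
        have hint : |∑ i ∈ range m, mean (fun g : Cfg n => trU (i + 1) g * trU (m + 1 - (i + 1)) g)|
            ≤ (K : ℝ) ^ 2 / n := by
          refine (abs_sum_le_sum_abs _ _).trans ((sum_le_card_nsmul _ _
            ((18 * (K : ℝ) ^ 3 / n) * (18 * (K : ℝ) ^ 3 / n) + 10240 * (K : ℝ) ^ 6 / (n : ℝ) ^ 2)
            fun i hi => ?_).trans ?_)
          · rw [mem_range] at hi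
            refine (abs_mean_mul_le (Tame.trU _) (Tame.trU _)).trans ?_
            have b : ∀ l, 1 ≤ l → l ≤ m → |mean (trU (n := n) l)| ≤ 18 * (K : ℝ) ^ 3 / n := by
              intro l h1 h2
              refine (ih l (by omega) h1 (by omega)).trans ?_
              have hlR : (l : ℝ) ≤ 2 * K := by exact_mod_cast (by omega : l ≤ 2 * K)
              refine (mul_le_mul_of_nonneg_right hlR (by positivity)).trans_eq ?_
              ring
            have v1 := trU_var_le hB (i := i + 1) (by omega)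
            have v2 := trU_var_le hB (i := m + 1 - (i + 1)) (by omega)
            refine add_le_add ?_ (by linarith)
            exact mul_le_mul (b _ (by omega) (by omega)) (b _ (by omega) (by omega))
              (abs_nonneg _) (by positivity)
          · rw [card_range, nsmul_eq_mul]
            have hm2 : (m : ℝ) ≤ 2 * K := by
              push_cast at hmR ⊢; linarith
            refine (mul_le_mul_of_nonneg_right hm2 (by positivity)).trans ?_
            have hb := big_mono hB (c := 21128) (j := 5) (by norm_num) (by norm_num) (by norm_num)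
            rw [div_mul_div_comm, show (n : ℝ) * n = (n : ℝ) ^ 2 by ring, ← add_div, mul_div_assoc',
              div_le_div_iff₀ (by positivity) hn]
            have := mul_le_mul_of_nonneg_left hb (show 0 ≤ (K : ℝ) ^ 2 * n by positivity)
            linarith
        rw [sum_range_succ, sum_range_succ' _ m]
        simp only [Nat.sub_self, Nat.sub_zero, trU_zero hn0, one_mul, mul_one]
        have ihm := ih (m + 1) (by omega) (by omega) (by omega)
        refine le_trans (le_of_eq_of_le (congrArg abs ?_)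
          ((abs_add_three _ _ _).trans (add_le_add (add_le_add hint ihm) hA))) ?_
        · ring
        · push_cast
          have : 0 ≤ (K : ℝ) ^ 2 / n := by positivity
          linear_combination (13 : ℝ) * this

theorem trU_tail {β : ℝ} {K : ℕ} (hB : Big β n K) {i : ℕ} (h1 : 1 ≤ i) (hi : i ≤ 2 * K) :
    (gauss (Edge n)).real {g : Cfg n | 1 / Real.sqrt n < |trU i g|} ≤
      2 * ((n : ℝ) ^ (16 * K))⁻¹ := by
  obtain ⟨hn0, hn4⟩ := big_pos hB
  have hn : (0 : ℝ) < n := by linarith
  have hk : (2 : ℝ) ≤ K := by exact_mod_cast hB.1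
  have hiR : (i : ℝ) ≤ 2 * K := by exact_mod_cast hi
  have hs : 0 < Real.sqrt n := Real.sqrt_pos.2 hn
  have hm : |mean (trU (n := n) i)| ≤ 1 / (2 * Real.sqrt n) := by
    refine (trU_mean_le hB i h1 hi).trans ((mul_le_mul_of_nonneg_right hiR (by positivity)).trans ?_)
    rw [mul_div_assoc', div_le_div_iff₀ hn (by positivity), one_mul]
    have hb := big_mono hB (c := 1296) (j := 6) (by norm_num) (by norm_num) (by norm_num)
    have : 36 * (K : ℝ) ^ 3 ≤ Real.sqrt n := Real.le_sqrt_of_sq_le (by linarith)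
    have := mul_le_mul_of_nonneg_right this hs.le
    rw [Real.mul_self_sqrt hn.le] at this
    linarith
  set p := 22 * K with hp
  set c := mean (trU (n := n) i) with hc
  have hsub : {g : Cfg n | 1 / Real.sqrt n < |trU i g|} ⊆
      {g | (1 / (4 * (n : ℝ))) ^ p ≤ (trU i g - c) ^ (2 * p)} := by
    intro g hg
    simp only [Set.mem_ofPred_eq] at hg ⊢
    rw [pow_mul (trU i g - c) 2 p]
    refine pow_le_pow_left₀ (by positivity) ?_ p
    have h := abs_sub_abs_le_abs_sub (trU i g) c
    have h2 : 1 / (2 * Real.sqrt n) ≤ |trU i g - c| := by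
      have : 1 / Real.sqrt n = 2 * (1 / (2 * Real.sqrt n)) := by field_simp
      linarith
    have h3 : (1 / (2 * Real.sqrt (n : ℝ))) ^ 2 ≤ (trU i g - c) ^ 2 :=
      (pow_le_pow_left₀ (by positivity) h2 2).trans_eq (sq_abs _)
    refine le_trans (le_of_eq ?_) h3
    rw [div_pow, mul_pow, Real.sq_sqrt hn.le]; norm_num
  have hT : Tame (fun g : Cfg n => (trU i g - c) ^ (2 * p)) :=
    ((Tame.trU i).sub (Tame.const c)).pow _
  have hmk := mul_meas_ge_le_integral_of_nonneg (μ := gauss (Edge n))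
    (Filter.Eventually.of_forall fun g => (even_two_mul p).pow_nonneg (trU i g - c))
    hT.integrable ((1 / (4 * (n : ℝ))) ^ p)
  refine (measureReal_mono hsub).trans ?_
  have h2 := mean_gradSq_pow_le hB (p := p) (le_of_eq hp) hi
  simp only [mean, gradSq] at h2
  have h3 := (gauss_moment (Tame.trU (n := n) i) p).trans
    (mul_le_mul_of_nonneg_left h2 (by positivity))
  have h4 := hmk.trans h3
  rw [← le_div_iff₀' (by positivity)] at h4
  refine h4.trans ?_
  rw [mul_left_comm, mul_div_assoc, ← mul_pow, ← div_pow]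
  refine mul_le_mul_of_nonneg_left ?_ two_pos.le
  rw [show 5 * (p : ℝ) * (1024 * (K : ℝ) ^ 6 / (n : ℝ) ^ 2) / (1 / (4 * (n : ℝ)))
      = 450560 * (K : ℝ) ^ 7 / n by rw [hp]; push_cast; field_simp; ring,
    div_pow, div_le_iff₀ (by positivity), ← div_eq_inv_mul, le_div_iff₀ (by positivity), hp]
  have hb : (450560 * (K : ℝ) ^ 7) ^ 22 ≤ (n : ℝ) ^ 6 := by
    have h8 : 450560 * (K : ℝ) ^ 7 ≤ (100000 * (K : ℝ)) ^ 8 := by
      have h7 : (K : ℝ) ^ 7 ≤ (K : ℝ) ^ 8 := pow_le_pow_right₀ (by linarith) (by norm_num)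
      rw [mul_pow]
      exact mul_le_mul (by norm_num) h7 (by positivity) (by positivity)
    refine (pow_le_pow_left₀ (by positivity) h8 22).trans ?_
    refine le_trans ?_ (pow_le_pow_left₀ (by positivity) (big_base hB) 6)
    rw [← pow_mul, ← pow_mul]
    exact pow_le_pow_right₀ (by linarith) (by norm_num)
  calc (450560 * (K : ℝ) ^ 7) ^ (22 * K) * (n : ℝ) ^ (16 * K)
      ≤ ((n : ℝ) ^ 6) ^ K * (n : ℝ) ^ (16 * K) := by rw [pow_mul]; gcongr
    _ = (n : ℝ) ^ (22 * K) := by rw [← pow_mul, ← pow_add]; congr 1; omega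

end Vale.Agent.P146
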