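import Vale.Agent.P146.Interp
import Vale.Agent.P146.Cheb
import Vale.Agent.P146.EventTrace

/-!
The good event: it has overwhelming probability.
-/

namespace Vale.Agent.P146

open MeasureTheory ProbabilityTheory

variable {n : ℕ}

theorem measurableSet_good (K : ℕ) : MeasurableSet {g : Cfg n | Good K g} := by
  have h : {g : Cfg n | Good K g} = {g : Cfg n | NormBd K g} ∩
      ⋂ i ∈ Finset.Icc 1 (2 * K), {g : Cfg n | |trU i g| ≤ 1 / Real.sqrt n} := by
    ext g
    simp [Good, NormBd]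
  rw [h]
  refine (measurableSet_normBd K).inter (Finset.measurableSet_biInter _ fun i _ => ?_)
  exact (isClosed_le (continuous_abs.comp (Tame.trU i).continuous) continuous_const).measurableSet

theorem prob_bad {β : ℝ} {K : ℕ} (hB : Big β n K) :
    (gauss (Edge n)).real {g : Cfg n | ¬ Good K g} ≤ ((n : ℝ) ^ (10 * K))⁻¹ := by
  obtain ⟨hn0, hn4⟩ := big_pos hB
  have hn : (0 : ℝ) < n := by linarith
  have hk : 2 ≤ K := hB.1
  have hkR : (2 : ℝ) ≤ K := by exact_mod_cast hk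
  have hsub : {g : Cfg n | ¬ Good K g} ⊆ {g : Cfg n | ¬ NormBd K g} ∪
      ⋃ i ∈ Finset.Icc 1 (2 * K), {g : Cfg n | 1 / Real.sqrt n < |trU i g|} := by
    intro g hg
    simp only [Good, NormBd, Set.mem_ofPred_eq, not_and, not_forall, Set.mem_union, Set.mem_iUnion,
      Finset.mem_Icc, not_le] at hg ⊢
    by_cases h : ∀ v : Fin n → ℝ,
        |quad g v| ≤ (2 + 1 / (2 * (2 * (K : ℝ) + 2) ^ 2)) * ∑ a, v a ^ 2
    · obtain ⟨i, h1, h2, h3⟩ := hg h
      exact Or.inr ⟨i, ⟨h1, h2⟩, h3⟩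
    · simp only [not_forall, not_le] at h
      exact Or.inl h
  refine (measureReal_mono hsub).trans ((measureReal_union_le _ _).trans ?_)
  refine (add_le_add (prob_not_normBd hB) ((measureReal_biUnion_finset_le _ _).trans
    (Finset.sum_le_card_nsmul _ _ (2 * ((n : ℝ) ^ (16 * K))⁻¹) fun i hi =>
      trU_tail hB (Finset.mem_Icc.1 hi).1 (Finset.mem_Icc.1 hi).2))).trans ?_
  rw [Nat.card_Icc, Nat.add_sub_cancel, nsmul_eq_mul]
  have h1 : ((n : ℝ) ^ (600 * K ^ 2))⁻¹ ≤ ((n : ℝ) ^ (16 * K))⁻¹ :=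
    inv_anti₀ (by positivity) (pow_le_pow_right₀ (by linarith) (by nlinarith))
  have hc : 4 * (K : ℝ) + 1 ≤ (n : ℝ) ^ (6 * K) := by
    refine le_trans ?_ (le_self_pow₀ (by linarith) (by omega : 6 * K ≠ 0))
    have := big_mono hB (c := 5) (j := 1) (by norm_num) (by norm_num) (by norm_num)
    linarith
  have h2 : (4 * (K : ℝ) + 1) * ((n : ℝ) ^ (16 * K))⁻¹ ≤ ((n : ℝ) ^ (10 * K))⁻¹ := by
    refine (mul_le_mul_of_nonneg_right hc (by positivity)).trans_eq ?_
    rw [show 16 * K = 6 * K + 10 * K by omega, pow_add]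
    field_simp
  push_cast
  linarith

/-- Bound a mean by its size on the good event, allowing a crude bound elsewhere. -/
theorem mean_le_of_good {β : ℝ} {K : ℕ} (hB : Big β n K) {f : Cfg n → ℝ}
    (hf : Tame f) {A B : ℝ} {q : ℕ} (hq : q ≤ 2 * K) (hA : 0 ≤ A) (hB0 : 0 ≤ B)
    (hgood : ∀ g, Good K g → |f g| ≤ A) (hall : ∀ g, |f g| ≤ B * msize g ^ q) :
    |mean f| ≤ A + B * ((n : ℝ) ^ (2 * K))⁻¹ := by
  obtain ⟨hn0, hn4⟩ := big_pos hB
  have hn : (0 : ℝ) < n := by linarith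
  have hqn : 4 * (q : ℝ) ≤ n := by
    have hqR : (q : ℝ) ≤ 2 * K := by exact_mod_cast hq
    have := big_mono hB (c := 8) (j := 1) (by norm_num) (by norm_num) (by norm_num)
    linarith
  have hP : (gauss (Edge n)).real {g : Cfg n | ¬ Good K g} ≤
      ((n : ℝ) ^ (3 * q + 2 * (2 * K)))⁻¹ :=
    (prob_bad hB).trans
      (inv_anti₀ (by positivity) (pow_le_pow_right₀ (by linarith) (by omega)))
  exact (mean_le_off (by linarith) (measurableSet_good K).compl hqn hP hf.continuous.measurable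
    hA hB0 (fun g hg => hgood g (not_not.1 hg)) hall).2

/-- The same for a nonnegative measurable function, not assumed smooth. -/
theorem mean_sq_le_of_good {β : ℝ} {K : ℕ} (hB : Big β n K) {f : Cfg n → ℝ}
    (hf : Measurable f) {A B : ℝ} {q : ℕ} (hq : q ≤ K) (hA : 0 ≤ A) (hB0 : 0 ≤ B)
    (hgood : ∀ g, Good K g → |f g| ≤ A) (hall : ∀ g, |f g| ≤ B * msize g ^ q) :
    Integrable (fun g => f g ^ 2) (gauss (Edge n)) ∧
      mean (fun g => f g ^ 2) ≤ A ^ 2 + B ^ 2 * ((n : ℝ) ^ (2 * K))⁻¹ := by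
  obtain ⟨hn0, hn4⟩ := big_pos hB
  have hn : (0 : ℝ) < n := by linarith
  have hqn : 4 * ((q * 2 : ℕ) : ℝ) ≤ n := by
    have hqR : (q : ℝ) ≤ K := by exact_mod_cast hq
    have := big_mono hB (c := 8) (j := 1) (by norm_num) (by norm_num) (by norm_num)
    push_cast
    linarith
  have hP : (gauss (Edge n)).real {g : Cfg n | ¬ Good K g} ≤
      ((n : ℝ) ^ (3 * (q * 2) + 2 * (2 * K)))⁻¹ :=
    (prob_bad hB).trans
      (inv_anti₀ (by positivity) (pow_le_pow_right₀ (by linarith) (by omega)))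
  obtain ⟨h1, h2⟩ := mean_le_off (f := fun g => f g ^ 2) (A := A ^ 2) (B := B ^ 2) (by linarith)
    (measurableSet_good K).compl hqn hP (hf.pow_const 2) (sq_nonneg A) (sq_nonneg B)
    (fun g hg => by
      rw [abs_pow]
      exact pow_le_pow_left₀ (abs_nonneg _) (hgood g (not_not.1 hg)) 2)
    (fun g => by
      rw [abs_pow, pow_mul, ← mul_pow]
      exact pow_le_pow_left₀ (abs_nonneg _) (hall g) 2)
  exact ⟨h1, (le_abs_self _).trans h2⟩

end Vale.Agent.P146
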