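import Vale.Agent.P146.WickWalk
import Vale.Agent.P146.Event

/-!
Reversal of walks by integration by parts: the two estimates used later.
-/

namespace Vale.Agent.P146

open MeasureTheory ProbabilityTheory

variable {n : ℕ}

theorem abs_spin (b : Bool) : |spin b| = 1 := by cases b <;> simp [spin]

theorem big_facts {β : ℝ} {K : ℕ} (hB : Big β n K) :
    n ≠ 0 ∧ (2 * K) * stepEps n K ≤ 1 / 2 := by
  obtain ⟨hK, hβ, hn⟩ := hB
  have hk : (2 : ℝ) ≤ K := by exact_mod_cast hK
  have hx : (1 : ℝ) ≤ 100000 * (1 + β) * (K : ℝ) := by nlinarith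
  have hpos : (0 : ℝ) < n := lt_of_lt_of_le (by positivity) hn
  have hn0 : n ≠ 0 := by exact_mod_cast hpos.ne'
  refine ⟨hn0, ?_⟩
  have hs : (100000 * (K : ℝ)) ^ 30 ≤ Real.sqrt n := by
    refine Real.le_sqrt_of_sq_le (le_trans ?_ hn)
    rw [← pow_mul]
    refine pow_le_pow_left₀ (by positivity) ?_ 60
    nlinarith
  have h5 : 256 * ((K : ℝ) + 1) ^ 5 ≤ (100000 * (K : ℝ)) ^ 30 := by
    calc 256 * ((K : ℝ) + 1) ^ 5 ≤ 256 * (2 * (K : ℝ)) ^ 5 := by gcongr; linarith
      _ = 8192 * (K : ℝ) ^ 5 := by ring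
      _ ≤ (100000 * (K : ℝ)) ^ 5 := by rw [mul_pow]; gcongr; norm_num
      _ ≤ _ := pow_le_pow_right₀ (by nlinarith) (by norm_num)
  have h := stepEps_le hn0 K
  calc (2 * K : ℝ) * stepEps n K ≤ (2 * K : ℝ) * (64 * ((K : ℝ) + 1) ^ 4 / Real.sqrt n) := by
        gcongr
    _ ≤ 128 * ((K : ℝ) + 1) ^ 5 / Real.sqrt n := by
        rw [← mul_div_assoc]
        refine div_le_div_of_nonneg_right ?_ (Real.sqrt_nonneg _)
        nlinarith [pow_nonneg (show (0 : ℝ) ≤ (K : ℝ) + 1 by positivity) 4]
    _ ≤ 1 / 2 := by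
        rw [div_le_iff₀ (Real.sqrt_pos.2 hpos)]
        linarith

theorem growth_le {β : ℝ} {K : ℕ} (hB : Big β n K) {l : ℕ} (hl : l ≤ 2 * K) :
    (1 + stepEps n K) ^ l ≤ 1 + 2 * (l * stepEps n K) ∧ (1 + stepEps n K) ^ l ≤ 2 := by
  obtain ⟨-, hsmall⟩ := big_facts hB
  have he := stepEps_nonneg n K
  have hle : (l : ℝ) * stepEps n K ≤ 1 / 2 := by
    refine le_trans (mul_le_mul_of_nonneg_right ?_ he) hsmall
    exact_mod_cast hl
  have key : ∀ j ≤ l, (1 + stepEps n K) ^ j ≤ 1 + 2 * (j * stepEps n K) := by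
    intro j hj
    induction j with
    | zero => simp
    | succ j ih =>
      have hj' : (j : ℝ) * stepEps n K ≤ (l : ℝ) * stepEps n K :=
        mul_le_mul_of_nonneg_right (Nat.cast_le.2 (by omega)) he
      calc (1 + stepEps n K) ^ (j + 1) ≤ (1 + 2 * (j * stepEps n K)) * (1 + stepEps n K) := by
            rw [pow_succ]; gcongr; exact ih (by omega)
        _ ≤ _ := by push_cast; nlinarith
  exact ⟨key l le_rfl, le_trans (key l le_rfl) (by linarith)⟩

theorem sum_bool_fun {α : Type*} [Fintype α] [DecidableEq α] (F : α → α → ℝ) :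
    ∑ w : Bool → α, F (w false) (w true) = ∑ a, ∑ b, F a b := by
  rw [← Fintype.sum_prod_type' (f := F)]
  exact Fintype.sum_equiv (Equiv.boolArrowEquivProd α) _ _ fun w => rfl

/-- Summing over all slot values factorises along the pairs. -/
theorem sum_slots {σ : Type*} [Fintype σ] [DecidableEq σ] (ps : List (σ × σ × ℕ))
    (hperm : (ps.flatMap fun p => [p.1, p.2.1]).Perm (Finset.univ : Finset σ).toList)
    (φ : σ → Fin n → ℝ) (g : Cfg n) :
    ∑ z : σ → Fin n, (∏ x, φ x (z x)) * pairVal ps z g =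
      (ps.map fun p => ∑ a, ∑ b, φ p.1 a * uEnt p.2.2 a b g * φ p.2.1 b).prod := by
  let e : Fin ps.length × Bool → σ := fun ib =>
    bif ib.2 then (ps.get ib.1).2.1 else (ps.get ib.1).1
  have hcard : Fintype.card σ = 2 * ps.length := by
    have h := hperm.length_eq
    rw [Finset.length_toList, Finset.card_univ] at h
    rw [← h]
    clear * -
    induction ps with
    | nil => rfl
    | cons p t ih => simp [List.flatMap_cons]; omega
  have hbij : Function.Bijective e := by
    rw [Fintype.bijective_iff_surjective_and_card]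
    refine ⟨fun s => ?_, by simp [hcard, mul_comm]⟩
    have hs : s ∈ ps.flatMap fun p => [p.1, p.2.1] := hperm.mem_iff.2 (by simp)
    obtain ⟨p, hp, hsp⟩ := List.mem_flatMap.1 hs
    obtain ⟨i, rfl⟩ := List.get_of_mem hp
    simp only [List.mem_cons, List.not_mem_nil, or_false] at hsp
    rcases hsp with h | h
    · exact ⟨(i, false), h.symm⟩
    · exact ⟨(i, true), h.symm⟩
  let ee := Equiv.ofBijective e hbij
  have hmap : ∀ f : σ × σ × ℕ → ℝ, (ps.map f).prod = ∏ i : Fin ps.length, f (ps.get i) := by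
    intro f
    conv_lhs => rw [← List.ofFn_get ps, List.map_ofFn, List.prod_ofFn]
    rfl
  let ψ : Fin ps.length → Fin n → Fin n → ℝ := fun i a b =>
    φ (ps.get i).1 a * uEnt (ps.get i).2.2 a b g * φ (ps.get i).2.1 b
  have hz : ∀ z : σ → Fin n, (∏ x, φ x (z x)) * pairVal ps z g =
      ∏ i, ψ i (z (ee (i, false))) (z (ee (i, true))) := by
    intro z
    rw [← Equiv.prod_comp ee (fun x => φ x (z x)), Fintype.prod_prod_type, pairVal, hmap,
      ← Finset.prod_mul_distrib]
    refine Finset.prod_congr rfl fun i _ => ?_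
    simp only [Fintype.prod_bool, ee, Equiv.ofBijective_apply, e, cond_true, cond_false, ψ]
    ring
  rw [Finset.sum_congr rfl fun z _ => hz z, hmap]
  let E := (Equiv.arrowCongr ee.symm (Equiv.refl (Fin n))).trans
    (Equiv.curry (Fin ps.length) Bool (Fin n))
  rw [Fintype.sum_equiv E (fun z => ∏ i, ψ i (z (ee (i, false))) (z (ee (i, true))))
      (fun w => ∏ i, ψ i (w i false) (w i true)) (fun z => rfl),
    ← Fintype.prod_sum (fun i (u : Bool → Fin n) => ψ i (u false) (u true))]
  exact Finset.prod_congr rfl fun i _ => sum_bool_fun (ψ i)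

theorem listAbsProd {α : Type*} (l : List α) (f : α → ℝ) :
    |(l.map f).prod| = (l.map ((fun x => |x|) ∘ f)).prod := by
  induction l with
  | nil => simp
  | cons a t ih => simp [abs_mul, ih]

theorem sqrt_sum_sq_le {a : Fin n → ℝ} (h : ∀ i, |a i| ≤ 1) :
    Real.sqrt (∑ i, a i ^ 2) ≤ Real.sqrt n := by
  refine Real.sqrt_le_sqrt ?_
  calc ∑ i, a i ^ 2 ≤ ∑ _i : Fin n, (1 : ℝ) := by
        refine Finset.sum_le_sum fun i _ => ?_
        rw [← sq_abs]
        exact pow_le_one₀ (abs_nonneg _) (h i)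
    _ = n := by simp

theorem pairs_length {σ : Type*} [Fintype σ] {P : ℕ} (hP : Fintype.card σ = 2 * P) {M : Mon σ}
    {N : ℕ} (hM : M.Ok (Finset.univ : Finset σ).toList N) : M.pairs.length = P := by
  have h := hM.1.length_eq
  rw [Finset.length_toList, Finset.card_univ, hP] at h
  have h2 : ∀ l : List (σ × σ × ℕ), (l.flatMap fun p => [p.1, p.2.1]).length = 2 * l.length := by
    intro l
    induction l with
    | nil => rfl
    | cons p t ih => simp [List.flatMap_cons]; omega
  rw [Mon.slots, h2] at h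
  omega

/-- Bilinear bounds for one monomial, on the good event and everywhere. -/
theorem mon_bound {σ : Type*} [Fintype σ] [DecidableEq σ] {K N P : ℕ}
    (hP : Fintype.card σ = 2 * P) (hN : N ≤ K) {M : Mon σ}
    (hM : M.Ok (Finset.univ : Finset σ).toList N) (φ : σ → Fin n → ℝ) (hφ : ∀ x a, |φ x a| ≤ 1)
    (g : Cfg n) :
    (Good K g → |∑ z : σ → Fin n, (∏ x, φ x (z x)) * M.val z g| ≤
        (n * (2 * (K : ℝ) + 2)) ^ P * (1 / Real.sqrt n) ^ M.ts.length) ∧
      |∑ z : σ → Fin n, (∏ x, φ x (z x)) * M.val z g| ≤ (n : ℝ) ^ P * msize g ^ N := by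
  have hlenP := pairs_length hP hM
  obtain ⟨hperm, htot, hts⟩ := hM
  have hsum : ∑ z : σ → Fin n, (∏ x, φ x (z x)) * M.val z g =
      (M.pairs.map fun p => ∑ a, ∑ b, φ p.1 a * uEnt p.2.2 a b g * φ p.2.1 b).prod *
        trVal M.ts g := by
    rw [← sum_slots M.pairs hperm φ g, Finset.sum_mul]
    exact Finset.sum_congr rfl fun z _ => by simp [Mon.val]; ring
  have hnn : Real.sqrt n * Real.sqrt n = (n : ℝ) := Real.mul_self_sqrt (Nat.cast_nonneg n)
  have hpm : ∀ p ∈ M.pairs, p.2.2 ≤ N := fun p hp => by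
    have : p.2.2 ≤ (M.pairs.map fun p => p.2.2).sum :=
      List.le_sum_of_mem (List.mem_map.2 ⟨p, hp, rfl⟩)
    simp only [Mon.tot] at htot
    omega
  have hti : ∀ i ∈ M.ts, i ≤ N := fun i hi => by
    have : i ≤ M.ts.sum := List.le_sum_of_mem hi
    simp only [Mon.tot] at htot
    omega
  rw [hsum, abs_mul, trVal, listAbsProd, listAbsProd]
  constructor
  · intro hg
    refine mul_le_mul ?_ ?_ ?_ (by positivity)
    · refine le_trans (List.prod_map_le_prod_map₀ _ (fun _ => (n : ℝ) * (2 * (K : ℝ) + 2))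
        (fun p _ => abs_nonneg _) fun p hp => ?_) (le_of_eq ?_)
      · simp only [Function.comp_apply]
        refine le_trans (bilin_uEnt_le hg (m := p.2.2) (by have := hpm p hp; omega) _ _) ?_
        have hm : ((p.2.2 : ℕ) : ℝ) ≤ K := by
          have := hpm p hp
          exact_mod_cast (show p.2.2 ≤ K by omega)
        have h1 := sqrt_sum_sq_le (hφ p.1)
        have h2 := sqrt_sum_sq_le (hφ p.2.1)
        calc _ ≤ 2 * ((K : ℝ) + 1) * Real.sqrt n * Real.sqrt n := by gcongr
          _ = _ := by rw [mul_assoc, hnn]; ring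
      · rw [List.map_const', List.prod_replicate, hlenP]
    · refine le_trans (List.prod_map_le_prod_map₀ _ (fun _ => 1 / Real.sqrt n)
        (fun p _ => abs_nonneg _) fun i hi => ?_) (le_of_eq ?_)
      · exact hg.2 i (hts i hi) (by have := hti i hi; omega)
      · rw [List.map_const', List.prod_replicate]
    · exact List.prod_nonneg fun x hx => by
        obtain ⟨i, -, rfl⟩ := List.mem_map.1 hx
        exact abs_nonneg _
  · have h1 : (M.pairs.map ((fun x => |x|) ∘ fun p =>
        ∑ a, ∑ b, φ p.1 a * uEnt p.2.2 a b g * φ p.2.1 b)).prod ≤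
        (n : ℝ) ^ M.pairs.length * msize g ^ (M.pairs.map fun p => p.2.2).sum := by
      generalize M.pairs = ps
      induction ps with
      | nil => simp
      | cons p t ih =>
        simp only [List.map_cons, List.prod_cons, List.length_cons, List.sum_cons,
          Function.comp_apply]
        have hb := bilin_uEnt_crude p.2.2 g (φ p.1) (φ p.2.1)
        have h1 := sqrt_sum_sq_le (hφ p.1)
        have h2 := sqrt_sum_sq_le (hφ p.2.1)
        have hm := one_le_msize g
        calc _ ≤ (msize g ^ p.2.2 * Real.sqrt n * Real.sqrt n) *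
              ((n : ℝ) ^ t.length * msize g ^ (t.map fun p => p.2.2).sum) := by
              refine mul_le_mul (le_trans hb (by gcongr)) ih ?_ (by positivity)
              exact List.prod_nonneg fun x hx => by
                obtain ⟨q, -, rfl⟩ := List.mem_map.1 hx
                exact abs_nonneg _
          _ = _ := by
            rw [pow_succ, pow_add]
            linear_combination ((n : ℝ) ^ t.length * msize g ^ p.2.2 *
              msize g ^ (t.map fun p => p.2.2).sum) * hnn
    have h2 : (M.ts.map ((fun x => |x|) ∘ fun i => trU i g)).prod ≤ msize g ^ M.ts.sum := by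
      generalize M.ts = ts
      induction ts with
      | nil => simp
      | cons i t ih =>
        simp only [List.map_cons, List.prod_cons, List.sum_cons, Function.comp_apply, pow_add]
        exact mul_le_mul (trU_crude i g) ih (List.prod_nonneg fun x hx => by
            obtain ⟨q, -, rfl⟩ := List.mem_map.1 hx
            exact abs_nonneg _) (pow_nonneg (le_trans zero_le_one (one_le_msize g)) _)
    refine le_trans (mul_le_mul h1 h2 (List.prod_nonneg fun x hx => by
        obtain ⟨q, -, rfl⟩ := List.mem_map.1 hx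
        exact abs_nonneg _) (by have := one_le_msize g; positivity)) ?_
    rw [mul_assoc, ← pow_add, hlenP]
    simp only [Mon.tot] at htot
    gcongr
    exact one_le_msize g

/-- Bilinear bounds for a combination. -/
theorem rep_bound {σ : Type*} [Fintype σ] [DecidableEq σ] {K N P : ℕ} (hn : n ≠ 0)
    (hP : Fintype.card σ = 2 * P) (hN : N ≤ K) {W : ℝ} {f : (σ → Fin n) → Cfg n → ℝ}
    (hf : Rep (1 / Real.sqrt n) (Finset.univ : Finset σ).toList N W f) (φ : σ → Fin n → ℝ)
    (hφ : ∀ x a, |φ x a| ≤ 1) (g : Cfg n) :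
    (Good K g → |∑ z : σ → Fin n, (∏ x, φ x (z x)) * f z g| ≤
        (n * (2 * (K : ℝ) + 2)) ^ P * W) ∧
      |∑ z : σ → Fin n, (∏ x, φ x (z x)) * f z g| ≤
        (n : ℝ) ^ P * msize g ^ N * (W * Real.sqrt n ^ N) := by
  obtain ⟨L, hok, hw, rfl⟩ := hf
  set B := fun M : Mon σ => ∑ z : σ → Fin n, (∏ x, φ x (z x)) * M.val z g with hBdef
  have hsum : ∑ z : σ → Fin n, (∏ x, φ x (z x)) * combVal L z g =
      (L.map fun cm => cm.1 * B cm.2).sum := by
    clear hw hok
    induction L with
    | nil => simp [combVal]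
    | cons cm t ih =>
      simp only [combVal, List.map_cons, List.sum_cons] at ih ⊢
      rw [← ih]
      simp only [hBdef, mul_add, Finset.sum_add_distrib, Finset.mul_sum]
      congr 1
      exact Finset.sum_congr rfl fun z _ => by ring
  rw [hsum]
  have habs : ∀ (C : ℝ), (∀ cm ∈ L, |B cm.2| ≤ C * (1 / Real.sqrt n) ^ cm.2.ts.length) →
      |(L.map fun cm => cm.1 * B cm.2).sum| ≤ C * combWgt (1 / Real.sqrt n) L := by
    intro C hC
    clear hw hok hsum
    induction L with
    | nil => simp [combWgt]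
    | cons cm t ih =>
      simp only [List.map_cons, List.sum_cons, combWgt, mul_add] at ih ⊢
      refine le_trans (abs_add_le _ _) (add_le_add ?_ (ih fun d hd => hC d (List.mem_cons_of_mem _ hd)))
      rw [abs_mul]
      refine le_trans (mul_le_mul_of_nonneg_left (hC cm List.mem_cons_self) (abs_nonneg _)) ?_
      exact le_of_eq (by ring)
  constructor
  · intro hg
    refine le_trans (habs _ fun cm hcm => (mon_bound hP hN (hok cm hcm) φ hφ g).1 hg) ?_
    exact mul_le_mul_of_nonneg_left hw (by positivity)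
  · have hs : (1 : ℝ) ≤ Real.sqrt n :=
      Real.one_le_sqrt.2 (by exact_mod_cast Nat.one_le_iff_ne_zero.2 hn)
    have hm := one_le_msize g
    refine le_trans (habs ((n : ℝ) ^ P * msize g ^ N * Real.sqrt n ^ N) fun cm hcm => ?_) ?_
    · refine le_trans (mon_bound hP hN (hok cm hcm) φ hφ g).2 ?_
      rw [mul_assoc ((n : ℝ) ^ P * msize g ^ N)]
      refine le_mul_of_one_le_right (by positivity) ?_
      have hlt : cm.2.ts.length ≤ N := le_trans
        (List.length_le_sum_of_one_le _ (hok cm hcm).2.2) (by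
          have := (hok cm hcm).2.1
          simp only [Mon.tot] at this
          omega)
      rw [div_pow, one_pow, mul_one_div, one_le_div (by positivity)]
      exact pow_le_pow_right₀ hs hlt
    · calc _ ≤ (n : ℝ) ^ P * msize g ^ N * Real.sqrt n ^ N * W :=
            mul_le_mul_of_nonneg_left hw (by positivity)
        _ = _ := by ring

theorem sqrt_pow_le {K N : ℕ} (hn : n ≠ 0) (hN : N ≤ K) :
    Real.sqrt n ^ N ≤ (n : ℝ) ^ K := by
  have h1 : (1 : ℝ) ≤ n := by exact_mod_cast Nat.one_le_iff_ne_zero.2 hn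
  refine le_trans (pow_le_pow_left₀ (Real.sqrt_nonneg _) ?_ N) (pow_le_pow_right₀ h1 hN)
  exact Real.sqrt_le_iff.2 ⟨by linarith, by nlinarith⟩

/-- The main estimate: summed coefficients of a pattern with few derivative edges. -/
theorem walk_T_bound {β : ℝ} {K : ℕ} (hB : Big β n K) {h P r : ℕ} (hr : 2 ≤ r) (hrK : r ≤ 2 * K)
    (hP : P ≤ K) (len : Fin P → ℕ) (hlen : ∑ p, len p ≤ K)
    (D : Fin r → (Fin h ⊕ (Fin P × Bool)) × (Fin h ⊕ (Fin P × Bool))) :
    |∑ zc : Fin h → Fin n, ∑ z : Fin P × Bool → Fin n,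
        multiWalk (List.ofFn fun p => (len p, z (p, false), z (p, true))) fun L =>
          chat β (List.ofFn (fun i =>
            (Sum.elim zc z (D i).1, Sum.elim zc z (D i).2)) ++ L)| ≤
      3 * (n : ℝ) ^ (h + P + ∑ p, len p) * (2 * β * r) ^ r * (2 * (K : ℝ) + 2) ^ P := by
  obtain ⟨hn, -⟩ := big_facts hB
  obtain ⟨hK2, hβ, -⟩ := id hB
  set ps : List (ℕ × (Fin P × Bool) × (Fin P × Bool)) :=
    List.ofFn fun p => (len p, (p, false), (p, true)) with hps
  have hflat : (ps.flatMap fun p => [p.2.1, p.2.2]) =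
      (List.finRange P).flatMap fun p => [((p, false) : Fin P × Bool), (p, true)] := by
    rw [hps, List.ofFn_eq_map, List.flatMap_map]
  have hnd : (ps.flatMap fun p => [p.2.1, p.2.2]).Nodup := by
    rw [hflat, List.nodup_flatMap]
    refine ⟨fun p _ => by simp, ?_⟩
    refine (List.nodup_finRange P).imp ?_
    intro p q hpq x hx hy
    simp only [List.mem_cons, List.not_mem_nil, or_false] at hx hy
    rcases hx with rfl | rfl <;> rcases hy with h | h <;> exact hpq (congrArg Prod.fst h)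
  have hperm : (ps.flatMap fun p => [p.2.1, p.2.2]).Perm
      (Finset.univ : Finset (Fin P × Bool)).toList := by
    refine (List.perm_ext_iff_of_nodup hnd (Finset.nodup_toList _)).2 fun x => ?_
    simp only [Finset.mem_toList, Finset.mem_univ, iff_true, hflat, List.mem_flatMap]
    obtain ⟨p, b⟩ := x
    exact ⟨p, List.mem_finRange p, by cases b <;> simp⟩
  have hN : (ps.map Prod.fst).sum = ∑ p, len p := by
    rw [hps, List.map_ofFn, List.sum_ofFn]
    rfl
  obtain ⟨f, hrep, -, hid⟩ := reverse_multi (K := K) (n := n) hn ps hnd (by simp [hps, hP])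
    (by omega)
  rw [hN] at hrep hid
  set N := ∑ p, len p with hNdef
  have hrepU := hrep.mono hperm le_rfl (growth_le hB (by omega : N ≤ 2 * K)).2
  let ends : (Fin h → Fin n) → (Fin P × Bool → Fin n) → Fin r → Fin n × Fin n := fun zc z i =>
    (Sum.elim zc z (D i).1, Sum.elim zc z (D i).2)
  let G : (Fin h → Fin n) → (Fin P × Bool → Fin n) → Cfg n → ℝ := fun zc z =>
    DL (List.ofFn (ends zc z)) (Fen β)
  have hG : ∀ zc z, Tame (G zc z) := fun zc z => (Tame.fen β).dl _
  have hterm : ∀ zc z, (multiWalk (List.ofFn fun p => (len p, z (p, false), z (p, true)))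
      fun L => chat β (List.ofFn (ends zc z) ++ L)) =
      (n : ℝ) ^ N * mean fun g => G zc z g * f z g := by
    intro zc z
    rw [← hid (G zc z) (hG zc z) z]
    simp only [chat, DL_append, hps, List.map_ofFn]
    rfl
  set S : Cfg n → ℝ := fun g => ∑ zc : Fin h → Fin n, ∑ z : Fin P × Bool → Fin n,
    G zc z g * f z g with hS
  have hSt : Tame S := Tame.sum _ fun zc _ => Tame.sum _ fun z _ => (hG zc z).mul (hrep.tame z)
  have hT : (∑ zc : Fin h → Fin n, ∑ z : Fin P × Bool → Fin n,
      multiWalk (List.ofFn fun p => (len p, z (p, false), z (p, true))) fun L =>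
        chat β (List.ofFn (ends zc z) ++ L)) = (n : ℝ) ^ N * mean S := by
    simp only [hterm, hS, ← Finset.mul_sum]
    rw [mean_sum _ fun zc _ => Tame.sum _ fun z _ => (hG zc z).mul (hrep.tame z)]
    congr 1
    refine Finset.sum_congr rfl fun zc _ => ?_
    rw [mean_sum _ fun z _ => (hG zc z).mul (hrep.tame z)]
  have hcard : Fintype.card (Fin P × Bool) = 2 * P := by simp [mul_comm]
  have key : ∀ g (C : ℝ), (∀ φ : Fin P × Bool → Fin n → ℝ, (∀ x a, |φ x a| ≤ 1) →
      |∑ z : Fin P × Bool → Fin n, (∏ x, φ x (z x)) * f z g| ≤ C) →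
      |S g| ≤ (2 * β * r) ^ r * ((n : ℝ) ^ h * C) := by
    intro g C hC
    obtain ⟨wt, hwt, hrepr⟩ := DL_Fen_repr (n := n) hβ hr g
    let endp : Fin r × Bool → Fin h ⊕ (Fin P × Bool) := fun ib =>
      bif ib.2 then (D ib.1).2 else (D ib.1).1
    let A : (Fin r → Fin n → Bool) → (Fin h ⊕ (Fin P × Bool)) → Fin n → ℝ := fun s x a =>
      ∏ ib ∈ Finset.univ.filter (fun ib => endp ib = x), spin (s ib.1 a)
    have hA : ∀ s x a, |A s x a| ≤ 1 := fun s x a => by
      simp only [A, Finset.abs_prod, abs_spin, Finset.prod_const_one, le_refl]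
    have hprod : ∀ s zc z, ∏ i, bond (s i) (ends zc z i) =
        (∏ j, A s (Sum.inl j) (zc j)) * ∏ x, A s (Sum.inr x) (z x) := by
      intro s zc z
      rw [show (∏ j, A s (Sum.inl j) (zc j)) * ∏ x, A s (Sum.inr x) (z x) =
          ∏ y, A s y (Sum.elim zc z y) from
        (Fintype.prod_sum_type (fun y => A s y (Sum.elim zc z y))).symm]
      have h1 : ∀ y, A s y (Sum.elim zc z y) =
          ∏ ib ∈ Finset.univ.filter (fun ib => endp ib = y),
            spin (s ib.1 (Sum.elim zc z (endp ib))) := fun y =>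
        Finset.prod_congr rfl fun ib hib => by rw [(Finset.mem_filter.1 hib).2]
      simp only [h1]
      rw [Finset.prod_fiberwise, Fintype.prod_prod_type]
      refine Finset.prod_congr rfl fun i _ => ?_
      simp only [Fintype.prod_bool, endp, cond_true, cond_false, bond, ends]
      ring
    have hSg : S g = ∑ s, wt s * ∑ zc : Fin h → Fin n, (∏ j, A s (Sum.inl j) (zc j)) *
        ∑ z : Fin P × Bool → Fin n, (∏ x, A s (Sum.inr x) (z x)) * f z g := by
      simp only [hS, G, hrepr, hprod, Finset.sum_mul, Finset.mul_sum]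
      rw [Finset.sum_comm (s := (Finset.univ : Finset (Fin r → Fin n → Bool)))]
      refine Finset.sum_congr rfl fun zc _ => ?_
      rw [Finset.sum_comm (s := (Finset.univ : Finset (Fin r → Fin n → Bool)))]
      exact Finset.sum_congr rfl fun z _ => Finset.sum_congr rfl fun s _ => by ring
    rw [hSg]
    refine le_trans (Finset.abs_sum_le_sum_abs _ _) ?_
    have hC0 : 0 ≤ C := le_trans (abs_nonneg _) (hC (fun _ _ => 1) (by simp))
    calc ∑ s, |wt s * _| ≤ ∑ s, |wt s| * ((n : ℝ) ^ h * C) := by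
          refine Finset.sum_le_sum fun s _ => ?_
          rw [abs_mul]
          refine mul_le_mul_of_nonneg_left ?_ (abs_nonneg _)
          refine le_trans (Finset.abs_sum_le_sum_abs _ _) ?_
          calc ∑ zc : Fin h → Fin n, |_ * _| ≤ ∑ _zc : Fin h → Fin n, C := by
                refine Finset.sum_le_sum fun zc _ => ?_
                rw [abs_mul, Finset.abs_prod]
                calc (∏ j, |A s (Sum.inl j) (zc j)|) * |_| ≤ 1 * C := by
                      refine mul_le_mul (Finset.prod_le_one (fun _ _ => abs_nonneg _)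
                        fun j _ => hA s _ _) (hC _ fun x a => hA s _ a) (abs_nonneg _) zero_le_one
                  _ = C := one_mul C
            _ = (n : ℝ) ^ h * C := by simp
      _ = (∑ s, |wt s|) * ((n : ℝ) ^ h * C) := (Finset.sum_mul _ _ _).symm
      _ ≤ _ := mul_le_mul_of_nonneg_right hwt (by positivity)
  have hb := mean_le_of_good hB hSt (q := N)
    (A := (2 * β * r) ^ r * ((n : ℝ) ^ h * ((n * (2 * (K : ℝ) + 2)) ^ P * 2)))
    (B := (2 * β * r) ^ r * ((n : ℝ) ^ h * ((n : ℝ) ^ P * (2 * Real.sqrt n ^ N))))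
    (by omega) (by positivity) (by positivity)
    (fun g hg => key g _ fun φ hφ => (rep_bound hn hcard (by omega) hrepU φ hφ g).1 hg)
    (fun g => by
      refine le_trans (key g _ fun φ hφ => (rep_bound hn hcard (by omega) hrepU φ hφ g).2)
        (le_of_eq ?_)
      ring)
  rw [hT, abs_mul, abs_of_nonneg (by positivity)]
  have hX : 0 ≤ (2 * β * r) ^ r * ((n : ℝ) ^ h * (n : ℝ) ^ P) := by positivity
  have hsmall : 2 * Real.sqrt n ^ N * ((n : ℝ) ^ (2 * K))⁻¹ ≤ (2 * (K : ℝ) + 2) ^ P := by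
    have hnpos : (0 : ℝ) < n := Nat.cast_pos.2 (Nat.pos_of_ne_zero hn)
    have h1 := sqrt_pow_le (N := N) hn (by omega : N ≤ K)
    have h2 : (2 : ℝ) ≤ (n : ℝ) ^ K := by
      have hn2 : (2 : ℝ) ≤ n := by
        obtain ⟨-, -, h3⟩ := hB
        refine le_trans ?_ h3
        have : (2 : ℝ) ≤ 100000 * (1 + β) * (K : ℝ) := by
          have : (2 : ℝ) ≤ K := by exact_mod_cast hK2
          nlinarith
        exact le_trans this (le_self_pow₀ (by linarith) (by norm_num))
      exact le_trans hn2 (le_self_pow₀ (by linarith) (by omega))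
    calc 2 * Real.sqrt n ^ N * ((n : ℝ) ^ (2 * K))⁻¹
        ≤ (n : ℝ) ^ K * (n : ℝ) ^ K * ((n : ℝ) ^ (2 * K))⁻¹ := by gcongr
      _ = 1 := by rw [← pow_add, ← two_mul, mul_inv_cancel₀ (pow_ne_zero _ hnpos.ne')]
      _ ≤ _ := one_le_pow₀ (by linarith [Nat.cast_nonneg (α := ℝ) K])
  calc (n : ℝ) ^ N * |mean S| ≤ (n : ℝ) ^ N * _ := mul_le_mul_of_nonneg_left hb (by positivity)
    _ ≤ (n : ℝ) ^ N * ((2 * β * r) ^ r * ((n : ℝ) ^ h * (n : ℝ) ^ P) *
        (3 * (2 * (K : ℝ) + 2) ^ P)) := by
      refine mul_le_mul_of_nonneg_left ?_ (by positivity)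
      have := mul_le_mul_of_nonneg_left hsmall hX
      rw [mul_pow (n : ℝ) (2 * (K : ℝ) + 2) P]
      nlinarith
    _ = _ := by rw [pow_add, pow_add]; ring

/-- The value of two slots. -/
def pairFun (a b : Fin n) : Bool → Fin n := fun s => bif s then b else a

theorem pairFun_eta (z : Bool → Fin n) : pairFun (z false) (z true) = z := by
  funext s; cases s <;> rfl

theorem sum_pairFun (F : (Bool → Fin n) → ℝ) :
    ∑ z : Bool → Fin n, F z = ∑ a, ∑ b, F (pairFun a b) := by
  rw [← sum_bool_fun fun a b => F (pairFun a b)]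
  exact Finset.sum_congr rfl fun z _ => by rw [pairFun_eta]

theorem bool_slots : ([false, true] : List Bool).Perm (Finset.univ : Finset Bool).toList :=
  (List.perm_ext_iff_of_nodup (by simp) (Finset.nodup_toList _)).2 fun b => by simp

/-- The identity matrix as a function of two slots. -/
noncomputable def startMat (z : Bool → Fin n) (g : Cfg n) : ℝ := uEnt 0 (z false) (z true) g

theorem Tame.startMat (z : Bool → Fin n) : Tame (P146.startMat z) := Tame.uEnt _ _ _

/-- The reversed walk differs from the Chebyshev matrix by a small combination. -/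
theorem walk_err {K : ℕ} (hn : n ≠ 0) (hK : 1 ≤ K) :
    ∀ l ≤ K, Rep (1 / Real.sqrt n) [false, true] l ((1 + stepEps n K) ^ l - 1)
      (fun (z : Bool → Fin n) g =>
        (stepOp false)^[l] startMat z g - uEnt l (z false) (z true) g) := by
  intro l hl
  induction l with
  | zero => exact (Rep.zero (by simp)).congr fun z g => by simp [startMat]
  | succ l ih =>
    have h1 := Rep.step (K := K) hn (by simp : ([false, true] : List Bool).Nodup)
      (by simp only [List.length_cons, List.length_nil]; omega) (by omega) (ih (by omega))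
      (x := false) (by simp)
    have hτ : 0 < 1 / Real.sqrt n := by
      have : (0 : ℝ) < n := Nat.cast_pos.2 (Nat.pos_of_ne_zero hn)
      positivity
    have h2 := stepOp_mon (K := K) (n := n) hn hτ false true l [] [] (by simp) (by simp) (by simp)
      (by simp only [List.map_nil, List.sum_nil, add_zero]; omega) (by simp)
    refine (((h2.mono (sl' := [false, true]) (N' := l + 1) (W' := stepEps n K)
      (by simp) (by simp) (le_of_eq (by simp [stepEps]))).add h1).mono (List.Perm.refl _) le_rfl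
        (le_of_eq (by rw [pow_succ]; ring))).congr fun z g => ?_
    have hU : ∀ k, (Mon.val ⟨[(false, true, k)], []⟩ : (Bool → Fin n) → Cfg n → ℝ) =
        fun z g => uEnt k (z false) (z true) g := fun k => by
      funext z g; simp [Mon.val, pairVal, trVal]
    simp only [hU, Function.iterate_succ_apply']
    rw [stepOp_sub (fun z => Tame.iterOp l Tame.startMat z) fun z => Tame.uEnt _ _ _]
    ring

/-- A combination on two slots, seen as a matrix, has small entries and small Frobenius norm. -/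
theorem rep_pair_bound {K N : ℕ} (hn : n ≠ 0) (hN : N ≤ K) {W : ℝ}
    {f : (Bool → Fin n) → Cfg n → ℝ} (hf : Rep (1 / Real.sqrt n) [false, true] N W f) (g : Cfg n) :
    (∀ a b, |f (pairFun a b) g| ≤ msize g ^ N * (W * Real.sqrt n ^ N)) ∧
      (Good K g → ∀ R : Fin n → Fin n → ℝ, ∀ S : ℝ, ∑ a, ∑ b, R a b ^ 2 ≤ S ^ 2 → 0 ≤ S →
        |∑ a, ∑ b, R a b * f (pairFun a b) g| ≤ W * (S * (Real.sqrt n * (2 * (K : ℝ) + 2)))) := by
  obtain ⟨L, hok, hw, rfl⟩ := hf
  have hs : (1 : ℝ) ≤ Real.sqrt n :=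
    Real.one_le_sqrt.2 (by exact_mod_cast Nat.one_le_iff_ne_zero.2 hn)
  have hform : ∀ cm ∈ L, ∃ m, m ≤ N ∧ cm.2.ts.sum + m ≤ N ∧ ∀ a b,
      cm.2.val (pairFun a b) g = uEnt m a b g * trVal cm.2.ts g := by
    intro cm hcm
    obtain ⟨hperm, htot, -⟩ := hok cm hcm
    have h1 := pairs_length (P := 1) (σ := Bool) (by simp) (N := N) (M := cm.2)
      ⟨hperm.trans bool_slots, htot, (hok cm hcm).2.2⟩
    obtain ⟨⟨x, y, m⟩, hp⟩ := List.length_eq_one_iff.1 h1
    simp only [Mon.tot, hp, List.map_cons, List.map_nil, List.sum_cons, List.sum_nil] at htot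
    refine ⟨m, by omega, by omega, fun a b => ?_⟩
    simp only [Mon.slots, hp, List.flatMap_cons, List.flatMap_nil, List.append_nil] at hperm
    have hnd := hperm.nodup_iff.2 (by simp)
    simp only [Mon.val, hp, pairVal, List.map_cons, List.map_nil, List.prod_cons, List.prod_nil,
      mul_one]
    cases x <;> cases y <;> simp_all [pairFun, uEnt_symm m b a g]
  have habs : ∀ (B : Mon Bool → ℝ) (C : ℝ),
      (∀ cm ∈ L, |B cm.2| ≤ C * (1 / Real.sqrt n) ^ cm.2.ts.length) → 0 ≤ C →
      |(L.map fun cm => cm.1 * B cm.2).sum| ≤ C * W := by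
    intro B C hC hC0
    refine le_trans ?_ (mul_le_mul_of_nonneg_left hw hC0)
    clear hw hok hform
    induction L with
    | nil => simp [combWgt]
    | cons cm t ih =>
      simp only [List.map_cons, List.sum_cons, combWgt, mul_add] at ih ⊢
      refine le_trans (abs_add_le _ _)
        (add_le_add ?_ (ih fun d hd => hC d (List.mem_cons_of_mem _ hd)))
      rw [abs_mul]
      refine le_trans (mul_le_mul_of_nonneg_left (hC cm List.mem_cons_self) (abs_nonneg _)) ?_
      exact le_of_eq (by ring)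
  have hm1 := one_le_msize g
  have hts : ∀ cm ∈ L, |trVal cm.2.ts g| ≤ msize g ^ cm.2.ts.sum := by
    intro cm _
    generalize cm.2.ts = ts
    induction ts with
    | nil => simp [trVal]
    | cons i t ih =>
      simp only [trVal, List.map_cons, List.prod_cons, abs_mul, List.sum_cons, pow_add] at ih ⊢
      exact mul_le_mul (trU_crude i g) ih (abs_nonneg _) (by positivity)
  constructor
  · intro a b
    refine le_trans (habs (fun M => M.val (pairFun a b) g) (msize g ^ N * Real.sqrt n ^ N)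
      (fun cm hcm => ?_) (by positivity)) (le_of_eq (by ring))
    obtain ⟨m, -, hmt, hv⟩ := hform cm hcm
    rw [hv, abs_mul]
    refine le_trans (mul_le_mul (uEnt_crude m a b g) (hts cm hcm) (abs_nonneg _)
      (by positivity)) ?_
    rw [← pow_add, mul_assoc]
    refine le_trans (pow_le_pow_right₀ hm1 (show m + cm.2.ts.sum ≤ N by omega)) ?_
    refine le_mul_of_one_le_right (by positivity) ?_
    have hlt : cm.2.ts.length ≤ N :=
      le_trans (List.length_le_sum_of_one_le _ (hok cm hcm).2.2) (by omega)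
    rw [div_pow, one_pow, mul_one_div, one_le_div (by positivity)]
    exact pow_le_pow_right₀ hs hlt
  · intro hg R S hR hS
    have hrw : ∑ a, ∑ b, R a b * combVal L (pairFun a b) g =
        (L.map fun cm => cm.1 * ∑ a, ∑ b, R a b * cm.2.val (pairFun a b) g).sum := by
      clear hw hok hform habs hts
      induction L with
      | nil => simp [combVal]
      | cons cm t ih =>
        simp only [combVal, List.map_cons, List.sum_cons, mul_add, Finset.sum_add_distrib] at ih ⊢
        rw [← ih, Finset.mul_sum]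
        congr 1
        exact Finset.sum_congr rfl fun a _ => by
          rw [Finset.mul_sum]; exact Finset.sum_congr rfl fun b _ => by ring
    rw [hrw]
    refine le_trans (habs (fun M => ∑ a, ∑ b, R a b * M.val (pairFun a b) g) _ (fun cm hcm => ?_)
      (by positivity)) (le_of_eq (mul_comm _ _))
    obtain ⟨m, hm, hmt, hv⟩ := hform cm hcm
    simp only [hv, ← mul_assoc, ← Finset.sum_mul, abs_mul]
    refine mul_le_mul ?_ ?_ (abs_nonneg _) (by positivity)
    · have hcs := Finset.sum_mul_sq_le_sq_mul_sq (Finset.univ : Finset (Fin n × Fin n))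
        (fun ab => R ab.1 ab.2) (fun ab => uEnt m ab.1 ab.2 g)
      simp only [Fintype.sum_prod_type] at hcs
      refine abs_le_of_sq_le_sq (le_trans hcs ?_) (by positivity)
      have hmK : (m : ℝ) + 1 ≤ (K : ℝ) + 1 := by
        have : (m : ℝ) ≤ K := by exact_mod_cast (show m ≤ K by omega)
        linarith
      calc (∑ a, ∑ b, R a b ^ 2) * (∑ a, ∑ b, uEnt m a b g ^ 2)
          ≤ S ^ 2 * ((n : ℝ) * (2 * ((K : ℝ) + 1)) ^ 2) := by
            refine mul_le_mul hR (le_trans (frob_uEnt_le hg (by omega)) (by gcongr))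
              (by positivity) (by positivity)
        _ = _ := by
            rw [show (S * Real.sqrt n * (2 * (K : ℝ) + 2)) ^ 2 =
              S ^ 2 * (Real.sqrt n ^ 2 * (2 * (K : ℝ) + 2) ^ 2) by ring,
              Real.sq_sqrt (Nat.cast_nonneg n)]; ring
    · rw [trVal, listAbsProd]
      refine le_trans (List.prod_map_le_prod_map₀ _ (fun _ => 1 / Real.sqrt n)
        (fun p _ => abs_nonneg _) fun i hi => ?_) (le_of_eq (by rw [List.map_const', List.prod_replicate]))
      refine hg.2 i ((hok cm hcm).2.2 i hi) ?_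
      have : i ≤ cm.2.ts.sum := List.le_sum_of_mem hi
      omega

theorem sum_sq_cheb_le {K L : ℕ} (hn : n ≠ 0) (hL : L ≤ K) {g : Cfg n} (hg : Good K g) :
    ∑ a, ∑ b, uEnt L a b g ^ 2 ≤ n + n * (L / Real.sqrt n) := by
  have hn' : (n : ℝ) ≠ 0 := Nat.cast_ne_zero.2 hn
  have hsum : ∑ a, ∑ b, uEnt L a b g ^ 2 =
      n * ∑ l ∈ Finset.range (L + 1), trU (L + L - 2 * l) g := by
    simp only [trU, Finset.mul_sum, mul_div_cancel₀ _ hn']
    rw [Finset.sum_comm (s := Finset.range (L + 1))]
    refine Finset.sum_congr rfl fun a _ => ?_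
    have h := uEnt_mul L L a a g
    rw [min_self] at h
    rw [← h]
    exact Finset.sum_congr rfl fun b _ => by rw [uEnt_symm L b a g, sq]
  rw [hsum, Finset.sum_range_succ, show L + L - 2 * L = 0 by omega, trU_zero hn, mul_add, mul_one,
    add_comm]
  gcongr
  calc ∑ l ∈ Finset.range L, trU (L + L - 2 * l) g
      ≤ ∑ _l ∈ Finset.range L, 1 / Real.sqrt n := Finset.sum_le_sum fun l hl => by
        rw [Finset.mem_range] at hl
        exact le_trans (le_abs_self _) (hg.2 _ (by omega) (by omega))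
    _ = _ := by simp; ring

/-- Size of the growth factor on the `√n` scale. -/
theorem growth_sqrt_le {K L : ℕ} {W : ℝ} (hn : n ≠ 0) (hL : L ≤ K) (hW0 : 0 ≤ W)
    (h : W ≤ 2 * ((L : ℝ) * stepEps n K)) : W * Real.sqrt n ≤ 128 * ((K : ℝ) + 1) ^ 5 := by
  have hs : 0 < Real.sqrt n := Real.sqrt_pos.2 (Nat.cast_pos.2 (Nat.pos_of_ne_zero hn))
  have h1 := stepEps_le hn K
  rw [le_div_iff₀ hs] at h1
  have hLK : (L : ℝ) ≤ (K : ℝ) + 1 := by
    have : (L : ℝ) ≤ K := by exact_mod_cast hL
    linarith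
  have h2 : (L : ℝ) * (stepEps n K * Real.sqrt n) ≤ ((K : ℝ) + 1) * (64 * ((K : ℝ) + 1) ^ 4) :=
    mul_le_mul hLK h1 (mul_nonneg (stepEps_nonneg n K) hs.le) (by positivity)
  calc W * Real.sqrt n ≤ 2 * ((L : ℝ) * stepEps n K) * Real.sqrt n :=
        mul_le_mul_of_nonneg_right h hs.le
    _ = 2 * ((L : ℝ) * (stepEps n K * Real.sqrt n)) := by ring
    _ ≤ 2 * (((K : ℝ) + 1) * (64 * ((K : ℝ) + 1) ^ 4)) := by linarith
    _ = _ := by ring

/-- Final arithmetic for the Frobenius bound on the good event. -/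
theorem walk_frob_arith {K L : ℕ} {s W : ℝ} (hK : 2 ≤ K) (hL : L ≤ K) (hs : 0 ≤ s) (hW0 : 0 ≤ W)
    (hW1 : W ≤ 1) (hWs : W * s ≤ 128 * ((K : ℝ) + 1) ^ 5) :
    2 * (W * (s * (2 * (K : ℝ) + 2) * (s * (2 * (K : ℝ) + 2)))) +
      (W * (s * (2 * (K : ℝ) + 2))) ^ 2 + (L : ℝ) * s ≤ 99999 * (K : ℝ) ^ 12 * s := by
  have hK2 : (2 : ℝ) ≤ K := by exact_mod_cast hK
  have hk : (K : ℝ) + 1 ≤ 2 * K := by linarith
  have h1 : (2 + W) * (W * s) ≤ 3 * (128 * ((K : ℝ) + 1) ^ 5) :=
    mul_le_mul (by linarith) hWs (by positivity) (by norm_num)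
  have h2 : 4 * ((K : ℝ) + 1) ^ 2 * ((2 + W) * (W * s)) * s ≤
      4 * ((K : ℝ) + 1) ^ 2 * (3 * (128 * ((K : ℝ) + 1) ^ 5)) * s :=
    mul_le_mul_of_nonneg_right (mul_le_mul_of_nonneg_left h1 (by positivity)) hs
  have h5 : (32 : ℝ) ≤ (K : ℝ) ^ 5 :=
    le_trans (by norm_num : (32 : ℝ) ≤ 2 ^ 5) (pow_le_pow_left₀ (by norm_num) hK2 5)
  have h7 : ((K : ℝ) + 1) ^ 7 ≤ (2 * (K : ℝ)) ^ 7 := pow_le_pow_left₀ (by positivity) hk 7
  have hK7 : (K : ℝ) ≤ (K : ℝ) ^ 7 := le_self_pow₀ (by linarith) (by norm_num)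
  have hK12 : 32 * (K : ℝ) ^ 7 ≤ (K : ℝ) ^ 12 :=
    calc 32 * (K : ℝ) ^ 7 ≤ (K : ℝ) ^ 5 * (K : ℝ) ^ 7 :=
          mul_le_mul_of_nonneg_right h5 (by positivity)
      _ = _ := (pow_add _ 5 7).symm
  have hLK : (L : ℝ) ≤ K := by exact_mod_cast hL
  have h0 : (0 : ℝ) ≤ (K : ℝ) ^ 7 := by positivity
  rw [mul_pow (2 : ℝ)] at h7
  norm_num at h7
  have h9 : 1536 * ((K : ℝ) + 1) ^ 7 + (L : ℝ) ≤ 99999 * (K : ℝ) ^ 12 := by linarith
  calc 2 * (W * (s * (2 * (K : ℝ) + 2) * (s * (2 * (K : ℝ) + 2)))) +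
      (W * (s * (2 * (K : ℝ) + 2))) ^ 2 + (L : ℝ) * s
      = 4 * ((K : ℝ) + 1) ^ 2 * ((2 + W) * (W * s)) * s + (L : ℝ) * s := by ring
    _ ≤ 4 * ((K : ℝ) + 1) ^ 2 * (3 * (128 * ((K : ℝ) + 1) ^ 5)) * s + (L : ℝ) * s := by linarith
    _ = (1536 * ((K : ℝ) + 1) ^ 7 + (L : ℝ)) * s := by ring
    _ ≤ _ := mul_le_mul_of_nonneg_right h9 hs

/-- Frobenius norm of the walk matrix on the good event. -/
theorem walk_frob_good {K L : ℕ} (hn : n ≠ 0) (hK : 2 ≤ K) (hL : L ≤ K) {g : Cfg n} (hg : Good K g)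
    {W : ℝ} {E : (Bool → Fin n) → Cfg n → ℝ} (hErr : Rep (1 / Real.sqrt n) [false, true] L W E)
    (hW0 : 0 ≤ W) (hW1 : W ≤ 1) (hWs : W * Real.sqrt n ≤ 128 * ((K : ℝ) + 1) ^ 5) :
    ∑ a, ∑ b, (uEnt L a b g + E (pairFun a b) g) ^ 2 ≤
      n + 99999 * (K : ℝ) ^ 12 * Real.sqrt n := by
  have hnpos : (0 : ℝ) < n := Nat.cast_pos.2 (Nat.pos_of_ne_zero hn)
  have hp := (rep_pair_bound hn hL hErr g).2 hg
  have hU := sum_sq_cheb_le hn hL hg
  have hUc : ∑ a, ∑ b, uEnt L a b g ^ 2 ≤ (Real.sqrt n * (2 * (K : ℝ) + 2)) ^ 2 := by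
    refine le_trans (frob_uEnt_le hg (by omega : L ≤ 2 * K)) ?_
    rw [mul_pow (Real.sqrt n), Real.sq_sqrt hnpos.le]
    gcongr
    have : (L : ℝ) ≤ K := by exact_mod_cast hL
    linarith
  have hS0 : 0 ≤ Real.sqrt n * (2 * (K : ℝ) + 2) := by positivity
  have hcross := hp (fun a b => uEnt L a b g) _ hUc hS0
  have hR0 : 0 ≤ ∑ a, ∑ b, E (pairFun a b) g ^ 2 :=
    Finset.sum_nonneg fun a _ => Finset.sum_nonneg fun b _ => sq_nonneg _
  have h := hp (fun a b => E (pairFun a b) g) (Real.sqrt (∑ a, ∑ b, E (pairFun a b) g ^ 2))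
    (le_of_eq (Real.sq_sqrt hR0).symm) (Real.sqrt_nonneg _)
  simp only [← sq] at h
  rw [abs_of_nonneg hR0] at h
  have hexp : ∑ a, ∑ b, (uEnt L a b g + E (pairFun a b) g) ^ 2 = (∑ a, ∑ b, uEnt L a b g ^ 2) +
      2 * (∑ a, ∑ b, uEnt L a b g * E (pairFun a b) g) + ∑ a, ∑ b, E (pairFun a b) g ^ 2 := by
    simp only [Finset.mul_sum, ← Finset.sum_add_distrib]
    exact Finset.sum_congr rfl fun a _ => Finset.sum_congr rfl fun b _ => by ring
  rw [hexp]
  generalize ∑ a, ∑ b, E (pairFun a b) g ^ 2 = R at h hR0 ⊢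
  have habs := le_abs_self (∑ a, ∑ b, uEnt L a b g * E (pairFun a b) g)
  have hR : R ≤ (W * (Real.sqrt n * (2 * (K : ℝ) + 2))) ^ 2 := by
    have h1 : Real.sqrt R ≤ W * (Real.sqrt n * (2 * (K : ℝ) + 2)) := by
      by_contra hlt
      rw [not_le] at hlt
      have hpos : 0 < Real.sqrt R := lt_of_le_of_lt (by positivity) hlt
      have := mul_lt_mul_of_pos_left hlt hpos
      rw [Real.mul_self_sqrt hR0] at this
      linarith
    exact le_trans (le_of_eq (Real.sq_sqrt hR0).symm) (pow_le_pow_left₀ (Real.sqrt_nonneg _) h1 2)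
  have harith := walk_frob_arith hK hL (Real.sqrt_nonneg (n : ℝ)) hW0 hW1 hWs
  have hU' : ∑ a, ∑ b, uEnt L a b g ^ 2 ≤ n + (L : ℝ) * Real.sqrt n := by
    refine le_trans hU (le_of_eq ?_)
    rw [mul_comm (n : ℝ) ((L : ℝ) / _), div_mul_eq_mul_div, mul_div_assoc, Real.div_sqrt]
  linarith

/-- A matrix representing the walks of length `L`, with norm and Frobenius bounds. -/
theorem walk_matrix {β : ℝ} {K : ℕ} (hB : Big β n K) {L : ℕ} (hL : L ≤ K) :
    ∃ (Q : Fin n → Fin n → Cfg n → ℝ) (Φ : Cfg n → ℝ),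
      (∀ a b, Tame (Q a b)) ∧
      (∀ G : Cfg n → ℝ, Tame G → ∀ a b,
        mean (fun g => G g * Q a b g) =
          ((n : ℝ) ^ L)⁻¹ * walkSum L a b fun W => mean (DL W G)) ∧
      (∀ (u : Fin n → Bool) g,
        |∑ a, ∑ b, spin (u a) * Q a b g * spin (u b)| ≤ n * Φ g) ∧
      Integrable (fun g => Φ g ^ 2) (gauss (Edge n)) ∧
      mean (fun g => Φ g ^ 2) ≤ 100 * ((K : ℝ) + 1) ^ 2 ∧
      mean (fun g => ∑ a, ∑ b, Q a b g ^ 2) ≤ n + 100000 * (K : ℝ) ^ 12 * Real.sqrt n := by
  obtain ⟨hn, -⟩ := big_facts hB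
  obtain ⟨hK2, hβ, hbig⟩ := id hB
  set f : (Bool → Fin n) → Cfg n → ℝ := (stepOp false)^[L] startMat with hf
  have hft : ∀ z, Tame (f z) := fun z => Tame.iterOp L Tame.startMat z
  set E : (Bool → Fin n) → Cfg n → ℝ := fun z g => f z g - uEnt L (z false) (z true) g with hE
  have hErr : Rep (1 / Real.sqrt n) [false, true] L ((1 + stepEps n K) ^ L - 1) E :=
    walk_err hn (by omega) L hL
  set W := (1 + stepEps n K) ^ L - 1 with hW
  obtain ⟨hW1, hW2⟩ := growth_le hB (by omega : L ≤ 2 * K)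
  have hW0 : 0 ≤ W := by
    have := one_le_pow₀ (n := L) (show (1 : ℝ) ≤ 1 + stepEps n K by linarith [stepEps_nonneg n K])
    linarith
  have hWle : W ≤ 1 := by linarith
  have hnpos : (0 : ℝ) < n := Nat.cast_pos.2 (Nat.pos_of_ne_zero hn)
  have hn1 : (1 : ℝ) ≤ n := by exact_mod_cast Nat.one_le_iff_ne_zero.2 hn
  have hs1 : (1 : ℝ) ≤ Real.sqrt n := Real.one_le_sqrt.2 hn1
  have hsK : Real.sqrt n ^ L ≤ (n : ℝ) ^ K := sqrt_pow_le hn hL
  have hsplit : ∀ a b g, f (pairFun a b) g = uEnt L a b g + E (pairFun a b) g := fun a b g => by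
    simp [hE, pairFun]
  set T : (Fin n → Bool) → Cfg n → ℝ := fun u g =>
    |∑ a, ∑ b, spin (u a) * f (pairFun a b) g * spin (u b)| / n with hT
  refine ⟨fun a b => f (pairFun a b), fun g => (Finset.univ : Finset (Fin n → Bool)).sup'
    Finset.univ_nonempty (fun u => T u g), fun a b => hft _, ?_, ?_, ?_⟩
  · intro G hG a b
    have key := reverse_walk (x := false) hn Tame.startMat (pairFun a b) L G hG a
    have hup : Function.update (pairFun a b) false a = pairFun a b := Function.update_eq_self false _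
    have hc : ∀ c L', (mean fun g => DL L' G g *
        startMat (Function.update (pairFun a b) false c) g) = if c = b then mean (DL L' G) else 0 := by
      intro c L'
      simp only [startMat, Function.update_self, Function.update_of_ne (by simp : true ≠ false),
        pairFun, cond_true, uEnt_zero]
      split_ifs <;> simp [mean]
    rw [hup] at key
    simp only [hc, walkSum_ite, Finset.sum_ite_eq', Finset.mem_univ, if_true] at key
    rw [key, ← mul_assoc, inv_mul_cancel₀ (pow_ne_zero _ hnpos.ne'), one_mul]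
  · intro u g
    have h := Finset.le_sup' (fun u => T u g) (Finset.mem_univ u)
    simp only [hT, div_le_iff₀ hnpos] at h
    linarith
  have hmeas : Measurable fun g => (Finset.univ : Finset (Fin n → Bool)).sup'
      Finset.univ_nonempty fun u => T u g := by
    have h : ∀ u ∈ (Finset.univ : Finset (Fin n → Bool)), Measurable (T u) := fun u _ =>
      ((Finset.measurable_sum _ fun a _ => Finset.measurable_sum _ fun b _ =>
        ((hft (pairFun a b)).contDiff.continuous.measurable.const_mul _).mul_const _).abs).div_const _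
    have h' := Finset.measurable_sup' Finset.univ_nonempty h
    have he : (fun g => (Finset.univ : Finset (Fin n → Bool)).sup' Finset.univ_nonempty
        fun u => T u g) = (Finset.univ : Finset (Fin n → Bool)).sup' Finset.univ_nonempty T := by
      funext g; exact (Finset.sup'_apply Finset.univ_nonempty T g).symm
    rw [he]; exact h'
  have hbil : ∀ (u : Fin n → Bool) g,
      (Good K g → |∑ a, ∑ b, spin (u a) * f (pairFun a b) g * spin (u b)| ≤
        n * (6 * ((K : ℝ) + 1))) ∧
      |∑ a, ∑ b, spin (u a) * f (pairFun a b) g * spin (u b)| ≤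
        n * (2 * Real.sqrt n ^ L * msize g ^ L) := by
    intro u g
    have hu : ∀ (x : Bool) a, |spin (u a)| ≤ 1 := fun x a => (abs_spin _).le
    have hb := rep_bound (K := K) (P := 1) hn (by simp) hL (hErr.mono bool_slots le_rfl le_rfl)
      (fun _ a => spin (u a)) hu g
    have hEsum : ∑ z : Bool → Fin n, (∏ x : Bool, spin (u (z x))) * E z g =
        ∑ a, ∑ b, spin (u a) * E (pairFun a b) g * spin (u b) := by
      rw [sum_pairFun]
      refine Finset.sum_congr rfl fun a _ => Finset.sum_congr rfl fun b _ => ?_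
      simp [Fintype.prod_bool, pairFun]; ring
    rw [hEsum, pow_one, pow_one] at hb
    have hdec : ∑ a, ∑ b, spin (u a) * f (pairFun a b) g * spin (u b) =
        (∑ a, ∑ b, spin (u a) * uEnt L a b g * spin (u b)) +
          ∑ a, ∑ b, spin (u a) * E (pairFun a b) g * spin (u b) := by
      simp only [hsplit, ← Finset.sum_add_distrib]
      exact Finset.sum_congr rfl fun a _ => Finset.sum_congr rfl fun b _ => by ring
    have hv : Real.sqrt (∑ a, spin (u a) ^ 2) ≤ Real.sqrt n :=
      sqrt_sum_sq_le fun a => (abs_spin _).le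
    have hnn : Real.sqrt n * Real.sqrt n = (n : ℝ) := Real.mul_self_sqrt hnpos.le
    have hLK : (L : ℝ) ≤ K := by exact_mod_cast hL
    rw [hdec]
    constructor
    · intro hg
      have h1 := bilin_uEnt_le hg (m := L) (by omega) (fun a => spin (u a)) (fun a => spin (u a))
      have h1' : 2 * ((L : ℝ) + 1) * Real.sqrt (∑ a, spin (u a) ^ 2) *
          Real.sqrt (∑ a, spin (u a) ^ 2) ≤ 2 * ((K : ℝ) + 1) * Real.sqrt n * Real.sqrt n := by
        gcongr
      rw [mul_assoc _ (Real.sqrt n), hnn] at h1'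
      have h2 : (n : ℝ) * (2 * (K : ℝ) + 2) * W ≤ (n : ℝ) * (2 * (K : ℝ) + 2) * 1 :=
        mul_le_mul_of_nonneg_left hWle (by positivity)
      refine le_trans (abs_add_le _ _) ?_
      have := hb.1 hg
      have : (0 : ℝ) ≤ n * ((K : ℝ) + 1) := by positivity
      linarith
    · have h1 := bilin_uEnt_crude L g (fun a => spin (u a)) (fun a => spin (u a))
      have hm := one_le_msize g
      have h1' : msize g ^ L * Real.sqrt (∑ a, spin (u a) ^ 2) *
          Real.sqrt (∑ a, spin (u a) ^ 2) ≤ msize g ^ L * Real.sqrt n * Real.sqrt n := by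
        gcongr
      rw [mul_assoc _ (Real.sqrt n), hnn] at h1'
      have h3 : msize g ^ L * n ≤ n * (Real.sqrt n ^ L * msize g ^ L) := by
        have : msize g ^ L * 1 ≤ msize g ^ L * Real.sqrt n ^ L :=
          mul_le_mul_of_nonneg_left (one_le_pow₀ hs1) (by positivity)
        nlinarith
      have h4 : (n : ℝ) * msize g ^ L * (W * Real.sqrt n ^ L) ≤
          n * (Real.sqrt n ^ L * msize g ^ L) := by
        calc _ ≤ (n : ℝ) * msize g ^ L * (1 * Real.sqrt n ^ L) := by gcongr
          _ = _ := by ring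
      refine le_trans (abs_add_le _ _) ?_
      linarith [hb.2]
  have hsq := mean_sq_le_of_good hB hmeas (A := 6 * ((K : ℝ) + 1))
    (B := 2 * Real.sqrt n ^ L) (q := L) hL (by positivity) (by positivity) ?_ ?_
  rotate_left
  · intro g hg
    have h0 : 0 ≤ T (fun _ => true) g := by simp only [hT]; positivity
    rw [abs_of_nonneg (le_trans h0 (Finset.le_sup' (fun u => T u g) (Finset.mem_univ _)))]
    refine Finset.sup'_le _ _ fun u _ => ?_
    simp only [hT, div_le_iff₀ hnpos]
    linarith [(hbil u g).1 hg]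
  · intro g
    have h0 : 0 ≤ T (fun _ => true) g := by simp only [hT]; positivity
    rw [abs_of_nonneg (le_trans h0 (Finset.le_sup' (fun u => T u g) (Finset.mem_univ _)))]
    refine Finset.sup'_le _ _ fun u _ => ?_
    simp only [hT, div_le_iff₀ hnpos]
    linarith [(hbil u g).2]
  refine ⟨hsq.1, le_trans hsq.2 ?_, ?_⟩
  · have h1 : (2 * Real.sqrt n ^ L) ^ 2 * ((n : ℝ) ^ (2 * K))⁻¹ ≤ 4 := by
      rw [mul_pow, mul_assoc]
      refine le_trans (mul_le_of_le_one_right (by positivity) ?_) (by norm_num)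
      rw [mul_inv_le_iff₀ (by positivity), one_mul, mul_comm 2 K, pow_mul (n : ℝ)]
      exact pow_le_pow_left₀ (by positivity) hsK 2
    nlinarith [Nat.cast_nonneg (α := ℝ) K]
  set F : Cfg n → ℝ := fun g => ∑ a, ∑ b, f (pairFun a b) g ^ 2 with hF
  have hFt : Tame F := Tame.sum _ fun a _ => Tame.sum _ fun b _ => (hft _).pow 2
  have hb := mean_le_of_good hB hFt
    (A := (n : ℝ) + 99999 * (K : ℝ) ^ 12 * Real.sqrt n)
    (B := 9 * (n : ℝ) ^ 2 * (Real.sqrt n ^ L) ^ 2) (q := 2 * L) (by omega) (by positivity)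
    (by positivity) ?_ ?_
  · refine le_trans (le_abs_self _) (le_trans hb ?_)
    have h1 : 9 * (n : ℝ) ^ 2 * (Real.sqrt n ^ L) ^ 2 * ((n : ℝ) ^ (2 * K))⁻¹ ≤
        (K : ℝ) ^ 12 * Real.sqrt n := by
      have h2 : (Real.sqrt n ^ L) ^ 2 = (n : ℝ) ^ L := by
        rw [← pow_mul, mul_comm, pow_mul, Real.sq_sqrt hnpos.le]
      rw [h2]
      calc 9 * (n : ℝ) ^ 2 * (n : ℝ) ^ L * ((n : ℝ) ^ (2 * K))⁻¹
          = 9 * ((n : ℝ) ^ (2 + L) * ((n : ℝ) ^ (2 * K))⁻¹) := by rw [pow_add]; ring
        _ ≤ 9 * 1 := by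
            gcongr
            rw [mul_inv_le_iff₀ (by positivity), one_mul]
            exact pow_le_pow_right₀ hn1 (by omega)
        _ ≤ _ := by
            have h3 : (2 : ℝ) ^ 12 ≤ (K : ℝ) ^ 12 :=
              pow_le_pow_left₀ (by norm_num) (by exact_mod_cast hK2) 12
            nlinarith
    linarith
  · intro g hg
    rw [abs_of_nonneg (show 0 ≤ F g by positivity)]
    have hWs : W * Real.sqrt n ≤ 128 * ((K : ℝ) + 1) ^ 5 :=
      growth_sqrt_le hn hL hW0 (by linarith)
    refine le_trans (le_of_eq ?_) (walk_frob_good hn hK2 hL hg hErr hW0 hWle hWs)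
    simp only [hF, hsplit]
  · intro g
    have hp := (rep_pair_bound (K := K) hn hL hErr g).1
    rw [abs_of_nonneg (show 0 ≤ F g by positivity)]
    have hm := one_le_msize g
    have hent : ∀ a b, f (pairFun a b) g ^ 2 ≤
        9 * (Real.sqrt n ^ L) ^ 2 * msize g ^ (2 * L) := by
      intro a b
      have h1 : |f (pairFun a b) g| ≤ 3 * Real.sqrt n ^ L * msize g ^ L := by
        rw [hsplit]
        refine le_trans (abs_add_le _ _) ?_
        refine le_trans (add_le_add (uEnt_crude L a b g) (hp a b)) ?_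
        have h5 : msize g ^ L * (W * Real.sqrt n ^ L) ≤ msize g ^ L * (1 * Real.sqrt n ^ L) := by
          gcongr
        have h6 : msize g ^ L * 1 ≤ msize g ^ L * Real.sqrt n ^ L :=
          mul_le_mul_of_nonneg_left (one_le_pow₀ hs1) (by positivity)
        have h7 : 0 ≤ msize g ^ L * Real.sqrt n ^ L := by positivity
        linarith
      calc f (pairFun a b) g ^ 2 = |f (pairFun a b) g| ^ 2 := (sq_abs _).symm
        _ ≤ (3 * Real.sqrt n ^ L * msize g ^ L) ^ 2 := pow_le_pow_left₀ (abs_nonneg _) h1 2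
        _ = _ := by rw [mul_comm 2 L, pow_mul (msize g)]; ring
    calc F g ≤ ∑ _a : Fin n, ∑ _b : Fin n, 9 * (Real.sqrt n ^ L) ^ 2 * msize g ^ (2 * L) :=
          Finset.sum_le_sum fun a _ => Finset.sum_le_sum fun b _ => hent a b
      _ = _ := by simp; ring

end Vale.Agent.P146
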