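import Vale.Agent.P146.CycleMain
import Vale.Agent.P146.Wick

/-!
The second moment of the path functional.
-/

namespace Vale.Agent.P146

open MeasureTheory

namespace Cycle

attribute [local instance] Interp.isProb

variable {n l : ℕ}

section Monomial

variable {ι : Type*} [Fintype ι] [DecidableEq ι]

theorem tame_monomial (P : Finset ι) : Tame fun g : ι → ℝ => ∏ x ∈ P, g x :=
  Tame.prod P fun _ _ => Tame.coord _

theorem coef_monomial (P : Finset ι) (γ : ι → ℕ) :
    coefOf (fun g : ι → ℝ => ∏ x ∈ P, g x) γ =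
      ∑ S ∈ P.powerset, mult γ S * (if shift γ P S = 0 then 1 else 0) := by
  have h := coef_prod (Tame.const (1 : ℝ)) P γ
  simp only [one_mul, coef_one] at h
  exact h

theorem coef_monomial_nonneg (P : Finset ι) (γ : ι → ℕ) :
    0 ≤ coefOf (fun g : ι → ℝ => ∏ x ∈ P, g x) γ := by
  rw [coef_monomial]
  refine Finset.sum_nonneg fun S _ => mul_nonneg (Finset.prod_nonneg fun x _ => by positivity) ?_
  split_ifs <;> norm_num

theorem coef_monomial_ind (P P' : Finset ι) :
    coefOf (fun g : ι → ℝ => ∏ x ∈ P', g x) (fun x => if x ∈ P then 1 else 0) =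
      if P = P' then 1 else 0 := by
  rw [coef_monomial]
  split_ifs with h
  · subst h
    rw [Finset.sum_eq_single P]
    · rw [if_pos]
      · rw [mul_one, mult]
        exact Finset.prod_eq_one fun x hx => by simp [hx]
      · funext x; by_cases hx : x ∈ P <;> simp [shift, hx]
    · intro S hS hne
      rw [if_neg, mul_zero]
      intro h0
      refine hne (Finset.Subset.antisymm (Finset.mem_powerset.1 hS) fun x hx => ?_)
      by_contra hxS
      have := congrFun h0 x
      simp [shift, hx, hxS] at this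
    · simp
  · refine Finset.sum_eq_zero fun S hS => ?_
    by_contra hne
    obtain ⟨hm, h0⟩ := mul_ne_zero_iff.1 hne
    simp only [ne_eq, ite_eq_right_iff, one_ne_zero, imp_false, not_not] at h0
    refine h ?_
    ext x
    have h1 := congrFun h0 x
    constructor
    · intro hx
      by_contra hx'
      have hxS : x ∉ S := fun e => hx' (Finset.mem_powerset.1 hS e)
      simp [shift, hx, hx', hxS] at h1
    · intro hx
      by_contra hx'
      by_cases hxS : x ∈ S
      · exact hm (Finset.prod_eq_zero hxS (by simp [hx']))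
      · simp [shift, hx, hx', hxS] at h1

theorem integral_monomial_mul (P P' : Finset ι) :
    ∫ g : ι → ℝ, (∏ x ∈ P', g x) * ∏ x ∈ P, g x ∂gauss ι = if P = P' then 1 else 0 := by
  rw [← coef_zero, coef_prod (tame_monomial P'), Finset.sum_eq_single ∅]
  · rw [← coef_monomial_ind P P', mult, Finset.prod_empty, one_mul]
    congr 1
    funext x
    simp [shift]
  · intro S _ hne
    obtain ⟨x, hx⟩ := Finset.nonempty_iff_ne_empty.2 hne
    rw [mult, Finset.prod_eq_zero hx (by simp), zero_mul]
  · simp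

end Monomial

/-- A tuple is determined by its start and its set of edges. -/
theorem eq_of_pathSet {π π' : Fin (l + 2) → Fin n} (hπ : Function.Injective π)
    (hπ' : Function.Injective π') (h0 : π 0 = π' 0) (hP : pathSet π = pathSet π') : π = π' := by
  suffices ∀ (k : ℕ) (hk : k < l + 2), π ⟨k, hk⟩ = π' ⟨k, hk⟩ from funext fun i => this i.1 i.2
  intro k
  induction k using Nat.strong_induction_on with
  | _ k ih =>
    intro hk
    rcases k with - | k
    · exact h0
    have hk' : k < l + 1 := by omega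
    have hprev : π ⟨k, by omega⟩ = π' ⟨k, by omega⟩ := ih k (by omega) _
    obtain ⟨j, -, hj⟩ := Finset.mem_image.1 (hP ▸ pathEdge_mem π' ⟨k, hk'⟩)
    rcases Sym2.eq_iff.1 hj with ⟨h1, h2⟩ | ⟨h1, h2⟩
    · have e : j = ⟨k, hk'⟩ := Fin.castSucc_injective _ (hπ (h1.trans hprev.symm))
      rw [e] at h2
      exact h2
    · have e := congrArg Fin.val (hπ (h2.trans hprev.symm))
      simp only [Fin.val_succ] at e
      have hback : π ⟨j.1, by omega⟩ = π' ⟨j.1, by omega⟩ := ih j.1 (by omega) _
      have h3 := congrArg Fin.val (hπ' (hback.symm.trans h1))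
      simp at h3
      omega

theorem le_walkSum : ∀ {L : ℕ} {Φ : List (Fin n × Fin n) → ℝ}, (∀ W, 0 ≤ Φ W) →
    ∀ π : Fin (L + 1) → Fin n,
      Φ (List.ofFn fun i : Fin L => (π i.castSucc, π i.succ)) ≤
        walkSum L (π 0) (π (Fin.last L)) Φ := by
  intro L
  induction L with
  | zero => intro Φ _ π; simp [walkSum]
  | succ L ih =>
    intro Φ hΦ π
    have hnn : ∀ (m : ℕ) (a b : Fin n) (Ψ : List (Fin n × Fin n) → ℝ), (∀ W, 0 ≤ Ψ W) →
        0 ≤ walkSum m a b Ψ := by
      intro m
      induction m with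
      | zero => intro a b Ψ hΨ; simp only [walkSum]; split_ifs; exacts [hΨ _, le_rfl]
      | succ m ihm => intro a b Ψ hΨ; exact Finset.sum_nonneg fun c _ => ihm c b _ fun W => hΨ _
    refine le_trans ?_ (Finset.single_le_sum (fun c _ => hnn L c _ _ fun W => hΦ _)
      (Finset.mem_univ (π (Fin.succ 0))))
    have h := ih (Φ := fun W => Φ ((π 0, π (Fin.succ 0)) :: W)) (fun W => hΦ _) (fun i => π i.succ)
    rw [List.ofFn_succ]
    simpa [Fin.castSucc_succ, Fin.succ_last] using h

/-- Normalised monomial of a tuple. -/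
noncomputable def mono (π : Fin (l + 2) → Fin n) (g : Cfg n) : ℝ :=
  (Real.sqrt n ^ (l + 1))⁻¹ * ∏ x ∈ pathSet π, g x

theorem tame_mono (π : Fin (l + 2) → Fin n) : Tame (mono π) := (tame_monomial _).const_mul _

theorem sqrt_sq_pow (n m : ℕ) : Real.sqrt n ^ m * Real.sqrt n ^ m = (n : ℝ) ^ m := by
  rw [← mul_pow, Real.mul_self_sqrt (Nat.cast_nonneg n)]

theorem mean_mono_mul (π π' : Fin (l + 2) → Fin n) :
    mean (fun g => mono π g * mono π' g) =
      ((n : ℝ) ^ (l + 1))⁻¹ * if pathSet π = pathSet π' then 1 else 0 := by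
  rw [← integral_monomial_mul (pathSet π) (pathSet π'), ← integral_const_mul, mean,
    ← sqrt_sq_pow n (l + 1)]
  congr 1
  funext g
  simp only [mono, mul_inv]
  ring

theorem mean_mono_Q (hn : n ≠ 0) {Q : Fin n → Fin n → Cfg n → ℝ}
    (hQ : ∀ G : Cfg n → ℝ, Tame G → ∀ a b, mean (fun g => G g * Q a b g) =
      ((n : ℝ) ^ (l + 1))⁻¹ * walkSum (l + 1) a b fun W => mean (DL W G))
    {π : Fin (l + 2) → Fin n} (hπ : Function.Injective π) :
    ((n : ℝ) ^ (l + 1))⁻¹ ≤ mean (fun g => mono π g * Q (π 0) (π (Fin.last (l + 1))) g) := by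
  rw [hQ _ (tame_mono π)]
  refine le_mul_of_one_le_right (by positivity) ?_
  have hDL : ∀ W, mean (DL W (mono π)) = dlScale W * ((Real.sqrt n ^ (l + 1))⁻¹ *
      coefOf (fun g : Cfg n => ∏ x ∈ pathSet π, g x)
        (fun x => (W.map fun p => s(p.1, p.2)).count x)) := by
    intro W
    simp only [DL_eq W (tame_mono π), mean, integral_const_mul]
    congr 1
    unfold mono
    rw [pdL_const_mul _ _ (tame_monomial _), integral_const_mul, pdL_count (tame_monomial _)]
  refine le_trans ?_ (le_walkSum (L := l + 1) (fun W => ?_) π)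
  · rw [hDL]
    have hc : (fun x => ((List.ofFn fun i : Fin (l + 1) => (π i.castSucc, π i.succ)).map
        fun p => s(p.1, p.2)).count x) = fun x => if x ∈ pathSet π then 1 else 0 := by
      funext x
      rw [List.map_ofFn]
      show List.count x (List.ofFn (pathEdge π)) = _
      rw [List.Nodup.count (List.nodup_ofFn.2 fun i j h => pathEdge_inj hπ h)]
      exact if_congr (by rw [List.mem_ofFn, pathSet, Finset.mem_image]; simp [pathEdge]) rfl rfl
    rw [hc, coef_monomial_ind, if_pos rfl, mul_one]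
    have hd : dlScale (List.ofFn fun i : Fin (l + 1) => (π i.castSucc, π i.succ)) =
        Real.sqrt n ^ (l + 1) := by
      rw [dlScale, List.map_ofFn, List.prod_ofFn]
      simp [dfac, fun i : Fin (l + 1) => (hπ.ne (Fin.castSucc_lt_succ (i := i)).ne)]
    rw [hd, mul_inv_cancel₀ (by positivity)]
  · rw [hDL]
    refine mul_nonneg ?_ (mul_nonneg (by positivity) (coef_monomial_nonneg _ _))
    refine List.prod_nonneg fun x hx => ?_
    obtain ⟨p, -, rfl⟩ := List.mem_map.1 hx
    unfold dfac
    split_ifs <;> positivity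

open Classical in
/-- Tuples with given ends. -/
noncomputable def fib (l : ℕ) (a b : Fin n) : Finset (Fin (l + 2) → Fin n) :=
  (tuples n l).filter fun π => π 0 = a ∧ π (Fin.last (l + 1)) = b

/-- The self-avoiding path matrix. -/
noncomputable def pathMat (l : ℕ) (a b : Fin n) (g : Cfg n) : ℝ := ∑ π ∈ fib l a b, mono π g

theorem tame_pathMat (a b : Fin n) : Tame (pathMat l a b) :=
  Tame.sum _ fun π _ => tame_mono π

theorem mem_fib {a b : Fin n} {π : Fin (l + 2) → Fin n} :
    π ∈ fib l a b ↔ Function.Injective π ∧ π 0 = a ∧ π (Fin.last (l + 1)) = b := by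
  simp [fib, tuples]

theorem sum_fib (f : Fin n → Fin n → (Fin (l + 2) → Fin n) → ℝ) :
    ∑ a, ∑ b, ∑ π ∈ fib l a b, f a b π =
      ∑ π ∈ tuples n l, f (π 0) (π (Fin.last (l + 1))) π := by
  classical
  simp only [fib, Finset.sum_filter]
  rw [Finset.sum_comm_cycle]
  refine Finset.sum_congr rfl fun π _ => ?_
  simp [ite_and]

theorem frob_le {β : ℝ} {K : ℕ} (hB : Big β n K) (hn : n ≠ 0) (hl : l + 1 ≤ K)
    {Q : Fin n → Fin n → Cfg n → ℝ} (hQt : ∀ a b, Tame (Q a b))
    (hQ : ∀ G : Cfg n → ℝ, Tame G → ∀ a b, mean (fun g => G g * Q a b g) =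
      ((n : ℝ) ^ (l + 1))⁻¹ * walkSum (l + 1) a b fun W => mean (DL W G))
    (hQ2 : mean (fun g => ∑ a, ∑ b, Q a b g ^ 2) ≤ n + 100000 * (K : ℝ) ^ 12 * Real.sqrt n) :
    mean (fun g => ∑ a, ∑ b, (pathMat l a b g - Q a b g) ^ 2) ≤
      100000 * (K : ℝ) ^ 12 * Real.sqrt n + ((K : ℝ) + 1) ^ 2 := by
  classical
  have hnpos : (0 : ℝ) < n := Nat.cast_pos.2 (Nat.pos_of_ne_zero hn)
  have hbound : (K : ℝ) + 1 ≤ n := by
    obtain ⟨h2, hβ, hbig⟩ := hB
    refine le_trans ?_ hbig
    have hK' : (2 : ℝ) ≤ K := by exact_mod_cast h2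
    have h1 : (K : ℝ) + 1 ≤ 100000 * (1 + β) * K := by nlinarith
    exact h1.trans (le_self_pow₀ (by linarith) (by norm_num))
  set c : ℝ := ((n : ℝ) ^ (l + 1))⁻¹ with hc
  have hc0 : 0 ≤ c := by positivity
  set F : ℝ := c * ((tuples n l).card : ℝ) with hF
  have hS : ∀ a b : Fin n, mean (fun g => pathMat l a b g ^ 2) = c * ((fib l a b).card : ℝ) := by
    intro a b
    calc mean (fun g => pathMat l a b g ^ 2)
        = mean (fun g => ∑ π ∈ fib l a b, ∑ π' ∈ fib l a b, mono π g * mono π' g) := by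
          congr 1; funext g; rw [sq, pathMat, Finset.sum_mul_sum]
      _ = ∑ π ∈ fib l a b, ∑ π' ∈ fib l a b, mean (fun g => mono π g * mono π' g) := by
          rw [mean_sum _ fun π _ => Tame.sum _ fun π' _ => (tame_mono π).mul (tame_mono π')]
          exact Finset.sum_congr rfl fun π _ => mean_sum _ fun π' _ => (tame_mono π).mul (tame_mono π')
      _ = ∑ _π ∈ fib l a b, c := by
          refine Finset.sum_congr rfl fun π hπ => ?_
          rw [Finset.sum_eq_single π]
          · rw [mean_mono_mul, if_pos rfl, mul_one]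
          · intro π' hπ' hne
            rw [mean_mono_mul, if_neg, mul_zero]
            intro hP
            exact hne (eq_of_pathSet (mem_fib.1 hπ).1 (mem_fib.1 hπ').1
              ((mem_fib.1 hπ).2.1.trans (mem_fib.1 hπ').2.1.symm) hP).symm
          · intro h; exact absurd hπ h
      _ = _ := by rw [Finset.sum_const, nsmul_eq_mul, mul_comm]
  have hX : ∀ a b : Fin n, c * ((fib l a b).card : ℝ) ≤ mean (fun g => pathMat l a b g * Q a b g) := by
    intro a b
    have e : (fun g => pathMat l a b g * Q a b g) = fun g => ∑ π ∈ fib l a b, mono π g * Q a b g := by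
      funext g; rw [pathMat, Finset.sum_mul]
    rw [e, mean_sum _ fun π _ => (tame_mono π).mul (hQt a b), mul_comm, ← nsmul_eq_mul,
      ← Finset.sum_const]
    refine Finset.sum_le_sum fun π hπ => ?_
    obtain ⟨h1, h2, h3⟩ := mem_fib.1 hπ
    have := mean_mono_Q hn hQ h1
    rwa [h2, h3] at this
  have hcnt : ∑ a : Fin n, ∑ b : Fin n, c * ((fib l a b).card : ℝ) = F := by
    simp only [Finset.card_eq_sum_ones, Nat.cast_sum, Finset.mul_sum]
    rw [sum_fib fun _ _ _ => c * ((1 : ℕ) : ℝ), hF]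
    simp [mul_comm]
  have hFn : (n : ℝ) - ((K : ℝ) + 1) ^ 2 ≤ F := by
    have hcard : (tuples n l).card = n.descFactorial (l + 2) := by
      have := card_injective_avoiding (∅ : Finset (Fin n)) (l + 2)
      simpa [tuples] using this
    have hle : ((l + 2 : ℕ) : ℝ) ≤ (K : ℝ) + 1 := by exact_mod_cast (show l + 2 ≤ K + 1 by omega)
    have h := descFactorial_ge (N := n) (m := l + 2) hnpos (a := (K : ℝ) + 1) (by
      have hln : l + 2 ≤ n := by exact_mod_cast hle.trans hbound
      rw [sub_le_iff_le_add]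
      exact_mod_cast (show n ≤ n + 1 - (l + 2) + (K + 1) by omega)) hbound
    rw [hF, hcard]
    refine le_trans ?_ (mul_le_mul_of_nonneg_left h hc0)
    rw [hc, ← mul_assoc, pow_succ (n : ℝ) (l + 1), inv_mul_cancel_left₀ (by positivity),
      mul_sub, mul_one, mul_div_cancel₀ _ hnpos.ne']
    have := mul_le_mul_of_nonneg_right hle (show (0 : ℝ) ≤ (K : ℝ) + 1 by positivity)
    linarith [sq ((K : ℝ) + 1)]
  have e : (fun g => ∑ a, ∑ b, (pathMat l a b g - Q a b g) ^ 2) = fun g =>
      ∑ a, ∑ b, (pathMat l a b g ^ 2 + (Q a b g ^ 2 + (-2) * (pathMat l a b g * Q a b g))) := by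
    funext g; simp only [sub_sq]
    exact Finset.sum_congr rfl fun a _ => Finset.sum_congr rfl fun b _ => by ring
  have t1 : ∀ a b, Tame fun g : Cfg n => pathMat l a b g ^ 2 := fun a b => (tame_pathMat a b).pow 2
  have t2 : ∀ a b, Tame fun g : Cfg n => Q a b g ^ 2 := fun a b => (hQt a b).pow 2
  have t3 : ∀ a b, Tame fun g : Cfg n => (-2) * (pathMat l a b g * Q a b g) :=
    fun a b => ((tame_pathMat a b).mul (hQt a b)).const_mul _
  have hQsum : mean (fun g => ∑ a, ∑ b, Q a b g ^ 2) = ∑ a, ∑ b, mean (fun g => Q a b g ^ 2) := by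
    rw [mean_sum _ fun a _ => Tame.sum _ fun b _ => t2 a b]
    exact Finset.sum_congr rfl fun a _ => mean_sum _ fun b _ => t2 a b
  rw [e, mean_sum _ fun a _ => Tame.sum _ fun b _ => (t1 a b).add ((t2 a b).add (t3 a b))]
  have : ∀ a : Fin n, mean (fun g => ∑ b,
      (pathMat l a b g ^ 2 + (Q a b g ^ 2 + (-2) * (pathMat l a b g * Q a b g)))) ≤
      ∑ b, (mean (fun g => Q a b g ^ 2) - c * ((fib l a b).card : ℝ)) := by
    intro a
    rw [mean_sum _ fun b _ => (t1 a b).add ((t2 a b).add (t3 a b))]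
    refine Finset.sum_le_sum fun b _ => ?_
    rw [mean_add (t1 a b) ((t2 a b).add (t3 a b)), mean_add (t2 a b) (t3 a b), mean_const_mul, hS]
    linarith [hX a b]
  refine (Finset.sum_le_sum fun a _ => this a).trans ?_
  simp only [Finset.sum_sub_distrib, hcnt, ← hQsum]
  linarith

theorem pathFun_sq_le {β : ℝ} {K : ℕ} (hB : Big β n K) (hl : l + 2 ≤ K) :
    ∫ g, pathFun β n l g ^ 2 ∂gauss (Edge n) ≤
      2 * β ^ 2 * (n : ℝ) ^ (l + 2) *
        (101 * ((K : ℝ) + 1) ^ 2 + 100000 * (K : ℝ) ^ 12 * Real.sqrt n) := by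
  classical
  have hn : n ≠ 0 := by
    rintro rfl
    obtain ⟨h2, hβ, hbig⟩ := hB
    have : (0 : ℝ) < (100000 * (1 + β) * (K : ℝ)) ^ 60 := by
      have : (0 : ℝ) < K := by exact_mod_cast (show 0 < K by omega)
      positivity
    simp at hbig
    linarith
  have hnpos : (0 : ℝ) < n := Nat.cast_pos.2 (Nat.pos_of_ne_zero hn)
  obtain ⟨Q, Φ, hQt, hQ, hform, hΦi, hΦ, hQ2⟩ := walk_matrix hB (show l + 1 ≤ K by omega)
  let D : Cfg n → ℝ := fun g => ∑ a, ∑ b, (pathMat l a b g - Q a b g) ^ 2
  have hDt : Tame D := Tame.sum _ fun a _ => Tame.sum _ fun b _ =>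
    ((tame_pathMat a b).sub (hQt a b)).pow 2
  have hY : ∀ g, pathFun β n l g ^ 2 ≤ 2 * β ^ 2 * (n : ℝ) ^ (l + 2) * (Φ g ^ 2 + D g) := by
    intro g
    let q : (Fin n → Bool) → ℝ := fun u => ∑ a, ∑ b, spin (u a) * pathMat l a b g * spin (u b)
    have hq : ∀ u, |q u| ≤ n * (|Φ g| + Real.sqrt (D g)) := by
      intro u
      have hsplit : q u = (∑ a, ∑ b, spin (u a) * Q a b g * spin (u b)) +
          ∑ p : Fin n × Fin n, (spin (u p.1) * spin (u p.2)) * (pathMat l p.1 p.2 g - Q p.1 p.2 g) := by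
        simp only [q, Fintype.sum_prod_type, ← Finset.sum_add_distrib]
        exact Finset.sum_congr rfl fun a _ => Finset.sum_congr rfl fun b _ => by ring
      have h1 : |∑ a, ∑ b, spin (u a) * Q a b g * spin (u b)| ≤ n * |Φ g| :=
        (hform u g).trans (mul_le_mul_of_nonneg_left (le_abs_self _) hnpos.le)
      have h2 : |∑ p : Fin n × Fin n,
          (spin (u p.1) * spin (u p.2)) * (pathMat l p.1 p.2 g - Q p.1 p.2 g)| ≤
            n * Real.sqrt (D g) := by
        refine abs_le_of_sq_le_sq ?_ (by positivity)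
        refine (Finset.sum_mul_sq_le_sq_mul_sq _ _ _).trans_eq ?_
        rw [mul_pow, Real.sq_sqrt (Finset.sum_nonneg fun a _ => Finset.sum_nonneg fun b _ => sq_nonneg _)]
        have hs : ∀ b : Bool, spin b ^ 2 = 1 := fun b => by cases b <;> simp [spin]
        congr 1
        · simp only [mul_pow, hs]; simp [sq]
        · simp [D, Fintype.sum_prod_type]
      rw [hsplit, mul_add]
      exact (abs_add_le _ _).trans (add_le_add h1 h2)
    have hrep : pathFun β n l g = β * Real.sqrt n ^ l * ∑ u, gibbs β g u * q u := by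
      have hpiece : ∀ π ∈ tuples n l, piece β π g = β * Real.sqrt n ^ l * ∑ u, gibbs β g u *
          (spin (u (π 0)) * mono π g * spin (u (π (Fin.last (l + 1))))) := by
        intro π hπ
        have hne : π 0 ≠ π (Fin.last (l + 1)) := by
          intro h
          have hi : Function.Injective π := by simpa [tuples] using hπ
          have e := congrArg Fin.val (hi h)
          simp at e
        have hs : Real.sqrt n ≠ 0 := (Real.sqrt_pos.2 hnpos).ne'
        have hd : pd (closeEdge π) (Fen β) g =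
            β / Real.sqrt n * ∑ u, gibbs β g u * bond u (π 0, π (Fin.last (l + 1))) := by
          rw [div_mul_eq_mul_div, eq_div_iff hs, ← Dab_Fen β hne g]
          simp only [Dab, dfac, if_neg hne, one_mul, closeEdge]
          ring
        rw [piece, hd]
        simp only [mono, bond, Finset.mul_sum, Finset.sum_mul]
        refine Finset.sum_congr rfl fun u _ => ?_
        rw [pow_succ]
        field_simp
      rw [pathFun, Finset.sum_congr rfl hpiece, ← Finset.mul_sum, Finset.sum_comm]
      congr 1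
      refine Finset.sum_congr rfl fun u _ => ?_
      rw [← Finset.mul_sum]
      congr 1
      simp only [q, pathMat, Finset.mul_sum, Finset.sum_mul]
      rw [sum_fib fun a b π => spin (u a) * mono π g * spin (u b)]
    have hb : |∑ u, gibbs β g u * q u| ≤ n * (|Φ g| + Real.sqrt (D g)) := by
      calc |∑ u, gibbs β g u * q u| ≤ ∑ u, |gibbs β g u * q u| := Finset.abs_sum_le_sum_abs _ _
        _ ≤ ∑ u, gibbs β g u * (n * (|Φ g| + Real.sqrt (D g))) := Finset.sum_le_sum fun u _ => by
            rw [abs_mul, abs_of_nonneg (gibbs_nonneg β g u)]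
            exact mul_le_mul_of_nonneg_left (hq u) (gibbs_nonneg β g u)
        _ = _ := by rw [← Finset.sum_mul, gibbs_sum, one_mul]
    have h4 := pow_le_pow_left₀ (abs_nonneg _) hb 2
    rw [sq_abs] at h4
    have hD0 : 0 ≤ D g := Finset.sum_nonneg fun a _ => Finset.sum_nonneg fun b _ => sq_nonneg _
    have h5 : (|Φ g| + Real.sqrt (D g)) ^ 2 ≤ 2 * (Φ g ^ 2 + D g) := by
      have := add_sq_le (a := |Φ g|) (b := Real.sqrt (D g))
      rwa [sq_abs, Real.sq_sqrt hD0] at this
    rw [hrep, mul_pow, mul_pow, ← pow_mul, mul_comm l 2, pow_mul, Real.sq_sqrt hnpos.le]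
    calc β ^ 2 * (n : ℝ) ^ l * (∑ u, gibbs β g u * q u) ^ 2
        ≤ β ^ 2 * (n : ℝ) ^ l * ((n : ℝ) ^ 2 * (2 * (Φ g ^ 2 + D g))) := by
          refine mul_le_mul_of_nonneg_left (h4.trans ?_) (by positivity)
          rw [mul_pow]
          exact mul_le_mul_of_nonneg_left h5 (by positivity)
      _ = _ := by rw [pow_add]; ring
  refine (integral_mono ((tame_pathFun β n l).pow 2).integrable
    ((hΦi.add hDt.integrable).const_mul _) hY).trans ?_
  simp only [Pi.add_apply]
  rw [integral_const_mul, integral_add hΦi hDt.integrable]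
  refine mul_le_mul_of_nonneg_left ?_ (by positivity)
  have := frob_le hB hn (show l + 1 ≤ K by omega) hQt hQ hQ2
  simp only [mean] at hΦ this
  linarith

end Cycle

end Vale.Agent.P146
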