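import Vale.Agent.P146.Systems

/-!
Counting marked tuples against a sparse graph: a transfer bound.

A tuple is marked by a kind at each site (`wild`: any of the `n` sites, weighted `1/n`;
`forced`: determined by its predecessors inside the graph, weighted `1`; `kept`: one of the few
sites of the graph, weighted `ε`) and by a bit at each edge (does it lie in the graph).
-/

namespace Vale.Agent.P146

namespace Cycle

variable {n l : ℕ}

/-- Transfer bound for a sum over words. -/
theorem transfer {σ : Type*} [Fintype σ] (T : σ → σ → ℝ) (init φ : σ → ℝ)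
    (hT0 : ∀ x y, 0 ≤ T x y) (hi0 : ∀ x, 0 ≤ init x) (hφ : ∀ x, 1 ≤ φ x) {c : ℝ}
    (hc : 0 ≤ c) (hT : ∀ x, ∑ y, T x y * φ y ≤ c * φ x) (m : ℕ) :
    ∑ w : Fin (m + 1) → σ, init (w 0) * ∏ i : Fin m, T (w i.castSucc) (w i.succ) ≤
      c ^ m * ∑ x, init x * φ x := by
  suffices h : ∑ w : Fin (m + 1) → σ, init (w 0) *
      (∏ i : Fin m, T (w i.castSucc) (w i.succ)) * φ (w (Fin.last m)) ≤
      c ^ m * ∑ x, init x * φ x by
    refine le_trans (Finset.sum_le_sum fun w _ => ?_) h
    exact le_mul_of_one_le_right (mul_nonneg (hi0 _) (Finset.prod_nonneg fun i _ => hT0 _ _)) (hφ _)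
  induction m with
  | zero =>
    rw [pow_zero, one_mul, ← (Equiv.funUnique (Fin 1) σ).symm.sum_comp]
    simp
  | succ m ih =>
    rw [← (Fin.snocEquiv fun _ : Fin (m + 2) => σ).sum_comp, Fintype.sum_prod_type, Finset.sum_comm]
    calc _ = ∑ w : Fin (m + 1) → σ, init (w 0) * (∏ i : Fin m, T (w i.castSucc) (w i.succ)) *
          ∑ y, T (w (Fin.last m)) y * φ y := by
          refine Finset.sum_congr rfl fun w _ => ?_
          rw [Finset.mul_sum]
          refine Finset.sum_congr rfl fun y _ => ?_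
          simp only [Fin.snocEquiv_apply]
          rw [Fin.prod_univ_castSucc]
          have h0 : Fin.snoc (α := fun _ => σ) w y 0 = w 0 :=
            Fin.snoc_castSucc (α := fun _ => σ) (x := y) (p := w) (i := 0)
          simp only [h0, Fin.snoc_castSucc, Fin.succ_castSucc, Fin.succ_last, Fin.snoc_last]
          ring
      _ ≤ ∑ w : Fin (m + 1) → σ, init (w 0) * (∏ i : Fin m, T (w i.castSucc) (w i.succ)) *
          (c * φ (w (Fin.last m))) := Finset.sum_le_sum fun w _ =>
          mul_le_mul_of_nonneg_left (hT _)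
            (mul_nonneg (hi0 _) (Finset.prod_nonneg fun i _ => hT0 _ _))
      _ = c * ∑ w : Fin (m + 1) → σ, init (w 0) *
          (∏ i : Fin m, T (w i.castSucc) (w i.succ)) * φ (w (Fin.last m)) := by
          rw [Finset.mul_sum]; exact Finset.sum_congr rfl fun w _ => by ring
      _ ≤ c * (c ^ m * ∑ x, init x * φ x) := mul_le_mul_of_nonneg_left ih hc
      _ = _ := by rw [pow_succ]; ring

/-- The edges along a tuple. -/
def pathEdge (π : Fin (l + 2) → Fin n) (i : Fin (l + 1)) : Edge n := s(π i.castSucc, π i.succ)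

/-- The sites met by a multi-order. -/
noncomputable def verts (G : Edge n → ℕ) : Finset (Fin n) :=
  open Classical in Finset.univ.filter fun a => ∃ e, G e ≠ 0 ∧ a ∈ e

theorem mem_verts {G : Edge n → ℕ} {a : Fin n} : a ∈ verts G ↔ ∃ e, G e ≠ 0 ∧ a ∈ e := by
  simp [verts]

theorem card_support_le {G : Edge n → ℕ} {K : ℕ} (hG : ∑ e, G e ≤ K) :
    (Finset.univ.filter fun e => G e ≠ 0).card ≤ K := by
  refine le_trans ?_ ((Finset.sum_le_sum_of_subset
    (Finset.subset_univ (Finset.univ.filter fun e => G e ≠ 0))).trans hG)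
  rw [Finset.card_eq_sum_ones]
  exact Finset.sum_le_sum fun e he => Nat.one_le_iff_ne_zero.2 (Finset.mem_filter.1 he).2

theorem card_nbrs_le {G : Edge n → ℕ} {K : ℕ} (hG : ∑ e, G e ≤ K) (u : Fin n) :
    (Finset.univ.filter fun v => G s(u, v) ≠ 0).card ≤ K := by
  refine le_trans (Finset.card_le_card_of_injOn (fun v => s(u, v)) ?_ ?_) (card_support_le hG)
  · intro v hv; simpa using hv
  · intro a _ b _ h; exact Sym2.congr_right.1 h

theorem card_verts_le {G : Edge n → ℕ} {K : ℕ} (hG : ∑ e, G e ≤ K) :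
    (verts G).card ≤ 2 * K := by
  classical
  have hsub : verts G ⊆ (Finset.univ.filter fun e => G e ≠ 0).biUnion fun e => e.toFinset := by
    intro a ha
    obtain ⟨e, he, hae⟩ := mem_verts.1 ha
    exact Finset.mem_biUnion.2 ⟨e, by simp [he], Sym2.mem_toFinset.2 hae⟩
  refine (Finset.card_le_card hsub).trans ?_
  refine (Finset.card_biUnion_le_card_mul _ _ 2 fun e _ => ?_).trans
    (by rw [mul_comm 2]; exact Nat.mul_le_mul_right 2 (card_support_le hG))
  induction e using Sym2.ind with
  | _ a b =>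
    refine (Finset.card_le_card (t := {a, b}) fun x hx => ?_).trans Finset.card_le_two
    rw [Sym2.mem_toFinset, Sym2.mem_iff] at hx
    simpa using hx

/-- The three kinds of sites. -/
inductive Kind
  | wild
  | kept
  | forced
  deriving DecidableEq

instance : Fintype Kind where
  elems := {Kind.wild, Kind.kept, Kind.forced}
  complete k := by cases k <;> simp

theorem kind_sum (f : Kind → ℝ) : ∑ k, f k = f .wild + f .kept + f .forced := by
  rw [show (Finset.univ : Finset Kind) = {Kind.wild, Kind.kept, Kind.forced} from rfl]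
  simp [add_assoc]

/-- Weight of a site of each kind. -/
noncomputable def kw (n : ℕ) (ε : ℝ) : Kind → ℝ
  | .wild => (n : ℝ)⁻¹
  | .kept => ε
  | .forced => 1

theorem kw_nonneg (n : ℕ) {ε : ℝ} (hε : 0 ≤ ε) (k : Kind) : 0 ≤ kw n ε k := by
  cases k <;> simp [kw, hε]

/-- Local rules of a marked tuple. -/
structure OK (G : Edge n → ℕ) (π : Fin (l + 2) → Fin n) (κ : Fin (l + 2) → Kind)
    (b : Fin (l + 1) → Bool) : Prop where
  inj : Function.Injective π
  mem : ∀ i, κ i = Kind.kept → π i ∈ verts G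
  first : κ 0 = Kind.forced → π 0 ∈ verts G
  edge : ∀ i, b i = true → G (pathEdge π i) ≠ 0
  forced : ∀ i : Fin (l + 1), κ i.castSucc = Kind.forced ∨ κ i.succ = Kind.forced → b i = true
  wild : ∀ i : Fin (l + 1), κ i.castSucc = Kind.wild ∨ κ i.succ = Kind.wild → b i = false
  uniq : ∀ i : Fin l, κ i.succ.castSucc = Kind.forced → ∀ z, G s(π i.succ.castSucc, z) ≠ 0 →
    z = π i.castSucc.castSucc ∨ z = π i.succ.succ

/-- Letters: predecessor, site, kind, bit of the incoming edge. -/
abbrev Letter (n : ℕ) : Type := Fin n × Fin n × Kind × Bool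

/-- Allowed successions. -/
def Next (G : Edge n → ℕ) (x y : Letter n) : Prop :=
  y.1 = x.2.1 ∧ y.2.1 ≠ x.2.1 ∧ (y.2.2.2 = true → G s(x.2.1, y.2.1) ≠ 0) ∧
    (x.2.2.1 = Kind.forced ∨ y.2.2.1 = Kind.forced → y.2.2.2 = true) ∧
    (x.2.2.1 = Kind.wild ∨ y.2.2.1 = Kind.wild → y.2.2.2 = false) ∧
    (y.2.2.1 = Kind.kept → y.2.1 ∈ verts G) ∧
    (x.2.2.1 = Kind.forced ∧ x.1 ≠ x.2.1 →
      y.2.1 ≠ x.1 ∧ ∀ z, G s(x.2.1, z) ≠ 0 → z = x.1 ∨ z = y.2.1)

/-- Allowed first letters. -/
def First (G : Edge n → ℕ) (x : Letter n) : Prop :=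
  x.1 = x.2.1 ∧ x.2.2.2 = false ∧ (x.2.2.1 ≠ Kind.wild → x.2.1 ∈ verts G)

open Classical in
noncomputable def step (G : Edge n → ℕ) (ε : ℝ) (x y : Letter n) : ℝ :=
  if Next G x y then kw n ε y.2.2.1 else 0

open Classical in
noncomputable def start (G : Edge n → ℕ) (ε : ℝ) (x : Letter n) : ℝ :=
  if First G x then kw n ε x.2.2.1 else 0

/-- Potential of a letter. -/
noncomputable def pot (K : ℕ) (x : Letter n) : ℝ :=
  if x.2.2.1 = Kind.kept ∨ x.1 = x.2.1 then 2 * (K : ℝ) else 1

theorem step_sum_le {G : Edge n → ℕ} {K : ℕ} (hK : 2 ≤ K) (hn : n ≠ 0) (hG : ∑ e, G e ≤ K)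
    (x : Letter n) :
    ∑ y, step G (1 / (16 * (K : ℝ) ^ 3)) x y * pot K y ≤ (1 + 1 / (2 * (K : ℝ))) * pot K x := by
  classical
  obtain ⟨w, u, k, b⟩ := x
  set ε : ℝ := 1 / (16 * (K : ℝ) ^ 3) with hε
  have hK' : (2 : ℝ) ≤ K := by exact_mod_cast hK
  have hε0 : 0 ≤ ε := by positivity
  let S : Kind → Finset (Fin n × Bool) := fun k' =>
    Finset.univ.filter fun vb => Next G (w, u, k, b) (u, vb.1, k', vb.2)
  let ψ : Kind → ℝ := fun k' => if k' = Kind.kept then 2 * (K : ℝ) else 1
  have hsum : ∑ y, step G ε (w, u, k, b) y * pot K y =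
      ∑ k', ((S k').card : ℝ) * (kw n ε k' * ψ k') := by
    rw [Fintype.sum_prod_type, Finset.sum_eq_single u (fun u' _ hu =>
      Finset.sum_eq_zero fun y _ => by
        rw [step, if_neg fun h => hu h.1, zero_mul]) (by simp)]
    calc _ = ∑ v, ∑ k', ∑ b', step G ε (w, u, k, b) (u, v, k', b') * pot K (u, v, k', b') := by
          simp only [Fintype.sum_prod_type]
      _ = ∑ k', ∑ vb : Fin n × Bool,
            step G ε (w, u, k, b) (u, vb.1, k', vb.2) * pot K (u, vb.1, k', vb.2) := by
          rw [Finset.sum_comm]; simp only [Fintype.sum_prod_type]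
      _ = _ := by
          refine Finset.sum_congr rfl fun k' _ => ?_
          rw [← nsmul_eq_mul, ← Finset.sum_const, Finset.sum_filter]
          refine Finset.sum_congr rfl fun vb _ => ?_
          simp only [step]
          split_ifs with h
          · have hne : ¬ u = vb.1 := fun e => h.2.1 e.symm
            simp [pot, ψ, hne]
          · simp
  have hwild : (S .wild).card ≤ n := by
    refine le_trans (Finset.card_le_card (t := Finset.univ ×ˢ {false}) fun vb hvb => ?_) (by simp)
    simp only [S, Finset.mem_filter, Next] at hvb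
    exact Finset.mem_product.2
      ⟨Finset.mem_univ _, Finset.mem_singleton.2 (hvb.2.2.2.2.2.1 (Or.inr trivial))⟩
  have hwild0 : k = Kind.forced → (S .wild).card = 0 := by
    intro hk
    rw [Finset.card_eq_zero, Finset.filter_eq_empty_iff]
    intro vb _ h
    have h1 := h.2.2.2.1 (Or.inl hk)
    have h2 := h.2.2.2.2.1 (Or.inr rfl)
    rw [h1] at h2; exact Bool.noConfusion h2
  have hforced : (S .forced).card ≤ K := by
    refine le_trans (Finset.card_le_card
      (t := (Finset.univ.filter fun v => G s(u, v) ≠ 0) ×ˢ {true}) fun vb hvb => ?_)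
      (by simpa using card_nbrs_le hG u)
    simp only [S, Finset.mem_filter, Next] at hvb
    have hb := hvb.2.2.2.2.1 (Or.inr trivial)
    exact Finset.mem_product.2
      ⟨Finset.mem_filter.2 ⟨Finset.mem_univ _, hvb.2.2.2.1 hb⟩, Finset.mem_singleton.2 hb⟩
  have hforced0 : k = Kind.wild → (S .forced).card = 0 := by
    intro hk
    rw [Finset.card_eq_zero, Finset.filter_eq_empty_iff]
    intro vb _ h
    have h1 := h.2.2.2.1 (Or.inr rfl)
    have h2 := h.2.2.2.2.1 (Or.inl hk)
    rw [h1] at h2; exact Bool.noConfusion h2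
  have hforced1 : k = Kind.forced → w ≠ u → (S .forced).card ≤ 1 := by
    intro hk hwu
    refine Finset.card_le_one.2 ?_
    intro p hp q hq
    have hp := (Finset.mem_filter.1 hp).2
    have hq := (Finset.mem_filter.1 hq).2
    have pb := hp.2.2.2.1 (Or.inl hk)
    have qb := hq.2.2.2.1 (Or.inl hk)
    rcases (hp.2.2.2.2.2.2 ⟨hk, hwu⟩).2 _ (hq.2.2.1 qb) with h | h
    · exact absurd h (hq.2.2.2.2.2.2 ⟨hk, hwu⟩).1
    · exact Prod.ext h.symm (pb.trans qb.symm)
  have hkept : (S .kept).card ≤ 4 * K := by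
    refine le_trans (Finset.card_le_card (t := verts G ×ˢ Finset.univ) fun vb hvb => ?_) ?_
    · simp only [S, Finset.mem_filter, Next] at hvb
      simp [hvb.2.2.2.2.2.2.1 trivial]
    · have := card_verts_le hG
      simp only [Finset.card_product, Finset.card_univ, Fintype.card_bool]; omega
  rw [hsum, kind_sum]
  simp only [ψ, kw, reduceCtorEq, if_false, if_true, mul_one]
  have hnpos : (0 : ℝ) < n := Nat.cast_pos.2 (Nat.pos_of_ne_zero hn)
  have h1 : ((S .wild).card : ℝ) * (n : ℝ)⁻¹ ≤ 1 := by
    rw [← div_eq_mul_inv, div_le_one hnpos]; exact_mod_cast hwild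
  have h2 : ((S .kept).card : ℝ) * (ε * (2 * K)) ≤ 1 / (2 * (K : ℝ)) := by
    calc _ ≤ (4 * K : ℝ) * (ε * (2 * K)) := by
          refine mul_le_mul_of_nonneg_right ?_ (by positivity)
          exact_mod_cast hkept
      _ = _ := by rw [hε]; field_simp; ring
  have h3 : ((S .forced).card : ℝ) ≤ K := by exact_mod_cast hforced
  have hd : (0 : ℝ) ≤ 1 / (2 * (K : ℝ)) := by positivity
  by_cases hbig : k = Kind.kept ∨ w = u
  · simp only [pot, hbig, if_true]
    have := mul_le_mul_of_nonneg_left (by linarith : (1 : ℝ) ≤ 2 * K) hd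
    nlinarith
  · simp only [pot, hbig, if_false]
    obtain ⟨hk1, hwu⟩ := not_or.1 hbig
    cases k with
    | kept => exact absurd rfl hk1
    | wild => rw [hforced0 rfl]; push_cast; linarith
    | forced =>
      rw [hwild0 rfl]
      have h4 : ((S .forced).card : ℝ) ≤ 1 := by exact_mod_cast hforced1 rfl hwu
      push_cast; linarith

theorem start_sum_le {G : Edge n → ℕ} {K : ℕ} (hK : 2 ≤ K) (hn : n ≠ 0) (hG : ∑ e, G e ≤ K) :
    ∑ x, start G (1 / (16 * (K : ℝ) ^ 3)) x * pot K x ≤ 6 * (K : ℝ) ^ 2 := by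
  classical
  set ε : ℝ := 1 / (16 * (K : ℝ) ^ 3) with hε
  have hK' : (2 : ℝ) ≤ K := by exact_mod_cast hK
  have hε0 : 0 ≤ ε := by positivity
  have hnpos : (0 : ℝ) < n := Nat.cast_pos.2 (Nat.pos_of_ne_zero hn)
  have hsum : ∑ x, start G ε x * pot K x = ∑ u, ∑ k,
      if k ≠ Kind.wild → u ∈ verts G then kw n ε k * (2 * K) else 0 := by
    rw [Fintype.sum_prod_type]
    refine Finset.sum_congr rfl fun u _ => ?_
    rw [Fintype.sum_prod_type, Finset.sum_eq_single u (fun v _ hv =>
      Finset.sum_eq_zero fun y _ => by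
        rw [start, if_neg fun h => hv h.1.symm, zero_mul]) (by simp), Fintype.sum_prod_type]
    refine Finset.sum_congr rfl fun k _ => ?_
    simp only [Fintype.sum_bool, start, First, pot]
    simp only [true_and, or_true, if_true, Bool.true_eq_false, false_and, if_false, zero_mul,
      zero_add]
    split_ifs <;> simp
  rw [hsum]
  simp only [kind_sum, ne_eq, not_true_eq_false, false_implies, if_true, reduceCtorEq,
    not_false_eq_true, true_implies, kw, Finset.sum_add_distrib, Finset.sum_ite_mem,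
    Finset.univ_inter, Finset.sum_const, nsmul_eq_mul, Finset.card_univ, Fintype.card_fin]
  have hv : ((verts G).card : ℝ) ≤ 2 * K := by exact_mod_cast card_verts_le hG
  have h1 : ε * (2 * K) ≤ 1 / 2 := by
    rw [hε, div_mul_eq_mul_div, div_le_iff₀ (by positivity)]
    nlinarith [pow_le_pow_left₀ (by norm_num) hK' 2,
      mul_le_mul_of_nonneg_left (pow_le_pow_left₀ (by norm_num) hK' 2)
        (by linarith : (0 : ℝ) ≤ K)]
  have h2 := mul_le_mul hv h1 (by positivity) (by positivity)
  have h3 := mul_le_mul_of_nonneg_right hv (by positivity : (0 : ℝ) ≤ 1 * (2 * (K : ℝ)))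
  rw [← mul_assoc (n : ℝ), mul_inv_cancel₀ hnpos.ne']
  nlinarith

open Classical in
/-- The weighted number of marked tuples in a sparse graph is bounded. -/
theorem count_le {G : Edge n → ℕ} {K : ℕ} (hK : 2 ≤ K) (hn : n ≠ 0) (hG : ∑ e, G e ≤ K)
    (hl : l + 2 ≤ K) :
    ∑ m ∈ (Finset.univ : Finset ((Fin (l + 2) → Fin n) × (Fin (l + 2) → Kind) ×
          (Fin (l + 1) → Bool))).filter (fun m => OK G m.1 m.2.1 m.2.2),
      ∏ i, kw n (1 / (16 * (K : ℝ) ^ 3)) (m.2.1 i) ≤ 12 * (K : ℝ) ^ 2 := by
  set ε : ℝ := 1 / (16 * (K : ℝ) ^ 3) with hε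
  have hK' : (2 : ℝ) ≤ K := by exact_mod_cast hK
  have hε0 : 0 ≤ ε := by positivity
  let word : (Fin (l + 2) → Fin n) × (Fin (l + 2) → Kind) × (Fin (l + 1) → Bool) →
      Fin (l + 2) → Letter n := fun m =>
    Fin.cons (m.1 0, m.1 0, m.2.1 0, false)
      fun i => (m.1 i.castSucc, m.1 i.succ, m.2.1 i.succ, m.2.2 i)
  have hsite : ∀ m i, (word m i).2.1 = m.1 i ∧ (word m i).2.2.1 = m.2.1 i := by
    intro m i; cases i using Fin.cases <;> simp [word]
  have hinj : Function.Injective word := by
    intro a b h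
    refine Prod.ext (funext fun i => ?_) (Prod.ext (funext fun i => ?_) (funext fun i => ?_))
    · rw [← (hsite a i).1, h, (hsite b i).1]
    · rw [← (hsite a i).2, h, (hsite b i).2]
    · simpa [word] using congrArg (fun x : Letter n => x.2.2.2) (congrFun h i.succ)
  let F : (Fin (l + 2) → Letter n) → ℝ := fun w =>
    start G ε (w 0) * ∏ i : Fin (l + 1), step G ε (w i.castSucc) (w i.succ)
  have hF0 : ∀ w, 0 ≤ F w := fun w => mul_nonneg
    (by unfold start; split_ifs; exacts [kw_nonneg n hε0 _, le_rfl])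
    (Finset.prod_nonneg fun i _ => by unfold step; split_ifs; exacts [kw_nonneg n hε0 _, le_rfl])
  calc _ = ∑ m ∈ (Finset.univ : Finset ((Fin (l + 2) → Fin n) × (Fin (l + 2) → Kind) ×
          (Fin (l + 1) → Bool))).filter (fun m => OK G m.1 m.2.1 m.2.2), F (word m) := by
        refine Finset.sum_congr rfl fun m hm => ?_
        obtain ⟨π, κ, b⟩ := m
        have h := (Finset.mem_filter.1 hm).2
        have hfirst : First G (word (π, κ, b) 0) := by
          refine ⟨rfl, rfl, ?_⟩
          simp only [word, Fin.cons_zero]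
          intro hk
          cases hk0 : κ 0 with
          | wild => exact absurd hk0 hk
          | kept => exact h.mem 0 hk0
          | forced => exact h.first hk0
        have hnext : ∀ i : Fin (l + 1),
            Next G (word (π, κ, b) i.castSucc) (word (π, κ, b) i.succ) := by
          intro i
          have hs := hsite (π, κ, b) i.castSucc
          unfold Next
          rw [hs.1, hs.2]
          simp only [word, Fin.cons_succ]
          refine ⟨trivial, fun e => ?_, h.edge i, h.forced i, h.wild i, h.mem _, ?_⟩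
          · exact absurd (h.inj e) (Fin.castSucc_lt_succ (i := i)).ne'
          rintro ⟨hf, hne⟩
          cases i using Fin.cases with
          | zero => exact absurd rfl hne
          | succ j =>
            rw [Fin.castSucc_succ, Fin.cons_succ] at hne ⊢
            refine ⟨fun e => ?_, fun z hz => h.uniq j hf z hz⟩
            have e' := congrArg Fin.val (h.inj e)
            simp only [Fin.val_succ, Fin.val_castSucc] at e'
            omega
        simp only [F, start, step, if_pos hfirst, if_pos (hnext _), (hsite (π, κ, b) _).2]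
        exact Fin.prod_univ_succ _
    _ = ∑ w ∈ ((Finset.univ : Finset ((Fin (l + 2) → Fin n) × (Fin (l + 2) → Kind) ×
          (Fin (l + 1) → Bool))).filter (fun m => OK G m.1 m.2.1 m.2.2)).image word, F w :=
        (Finset.sum_image fun a _ b _ h => hinj h).symm
    _ ≤ ∑ w, F w :=
        Finset.sum_le_sum_of_subset_of_nonneg (Finset.subset_univ _) fun w _ _ => hF0 w
    _ ≤ (1 + 1 / (2 * (K : ℝ))) ^ (l + 1) * ∑ x, start G ε x * pot K x :=
        transfer _ _ _ (fun x y => by unfold step; split_ifs; exacts [kw_nonneg n hε0 _, le_rfl])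
          (fun x => by unfold start; split_ifs; exacts [kw_nonneg n hε0 _, le_rfl])
          (fun x => by unfold pot; split_ifs <;> linarith) (by positivity)
          (step_sum_le hK hn hG) _
    _ ≤ 2 * (6 * (K : ℝ) ^ 2) := by
        refine mul_le_mul ?_ (start_sum_le hK hn hG) (Finset.sum_nonneg fun x _ => ?_) (by norm_num)
        · have h1 : (1 + 1 / (2 * (K : ℝ))) ^ (l + 1) ≤ Real.exp ((l + 1 : ℕ) * (1 / (2 * (K : ℝ)))) := by
            rw [Real.exp_nat_mul]
            exact pow_le_pow_left₀ (by positivity) (by linarith [Real.add_one_le_exp (1 / (2 * (K : ℝ)))]) _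
          refine h1.trans ?_
          have hl' : ((l + 1 : ℕ) : ℝ) ≤ K := by exact_mod_cast (show l + 1 ≤ K by omega)
          have h2 : ((l + 1 : ℕ) : ℝ) * (1 / (2 * (K : ℝ))) ≤ 1 / 2 := by
            rw [mul_one_div, div_le_iff₀ (by positivity)]; linarith
          refine (Real.exp_le_exp.2 h2).trans ?_
          rw [show (1 / 2 : ℝ) = 2⁻¹ from by norm_num]
          have := Real.exp_bound_div_one_sub_of_interval (x := (2 : ℝ)⁻¹) (by norm_num) (by norm_num)
          linarith [this]
        · exact mul_nonneg (by unfold start; split_ifs; exacts [kw_nonneg n hε0 _, le_rfl])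
            (by unfold pot; split_ifs <;> linarith)
    _ = _ := by ring

end Cycle

end Vale.Agent.P146
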