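import Vale.Agent.P146.Gibbs

/-!
Rules for the matrix derivative.
-/

namespace Vale.Agent.P146

variable {n : ℕ}

theorem Dab_const (p : Fin n × Fin n) (c : ℝ) : Dab p (fun _ => c) = fun _ => 0 := by
  funext g; simp [Dab, pd_const]

theorem Dab_add {f h : Cfg n → ℝ} (p : Fin n × Fin n) (hf : Tame f) (hh : Tame h) :
    Dab p (fun g => f g + h g) = fun g => Dab p f g + Dab p h g := by
  funext g; simp [Dab, pd_add _ hf hh]; ring

theorem Dab_sub {f h : Cfg n → ℝ} (p : Fin n × Fin n) (hf : Tame f) (hh : Tame h) :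
    Dab p (fun g => f g - h g) = fun g => Dab p f g - Dab p h g := by
  funext g; simp [Dab, pd_sub _ hf hh]; ring

theorem Dab_mul {f h : Cfg n → ℝ} (p : Fin n × Fin n) (hf : Tame f) (hh : Tame h) :
    Dab p (fun g => f g * h g) = fun g => Dab p f g * h g + f g * Dab p h g := by
  funext g; simp [Dab, pd_mul _ hf hh]; ring

theorem Dab_const_mul {f : Cfg n → ℝ} (p : Fin n × Fin n) (c : ℝ) (hf : Tame f) :
    Dab p (fun g => c * f g) = fun g => c * Dab p f g := by
  funext g; simp [Dab, pd_const_mul _ _ hf]; ring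

end Vale.Agent.P146
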