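import Mathlib

/-!
The majorant of trace moments: moments of a slightly shifted and dilated semicircle.
-/

namespace Vale.Agent.P146

open Finset

/-- The moments `μ (k+1) = ε μ k + (1+ε) ∑_{i+l=k-1} μ i μ l`. -/
noncomputable def semiMom (ε : ℝ) : ℕ → ℝ
  | 0 => 1
  | 1 => ε
  | k + 2 => ε * semiMom ε (k + 1) +
      (1 + ε) * ∑ i : Fin (k + 1), semiMom ε i * semiMom ε (k - i)

variable {ε : ℝ}

theorem semiMom_succ_succ (ε : ℝ) (k : ℕ) :
    semiMom ε (k + 2) = ε * semiMom ε (k + 1) +
      (1 + ε) * ∑ i ∈ range (k + 1), semiMom ε i * semiMom ε (k - i) := by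
  rw [semiMom, Fin.sum_univ_eq_sum_range fun i => semiMom ε i * semiMom ε (k - i)]

theorem semiMom_pos (hε : 0 < ε) : ∀ k, 0 < semiMom ε k := by
  intro k
  induction k using Nat.strong_induction_on with
  | h k ih =>
    match k with
    | 0 => rw [semiMom]; exact one_pos
    | 1 => rw [semiMom]; exact hε
    | j + 2 =>
      rw [semiMom_succ_succ]
      refine add_pos_of_pos_of_nonneg (mul_pos hε (ih _ (by omega))) ?_
      refine mul_nonneg (by linarith) (sum_nonneg fun i hi => ?_)
      rw [mem_range] at hi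
      exact mul_nonneg (ih _ (by omega)).le (ih _ (by omega)).le

theorem eps_mul_semiMom_le (hε : 0 < ε) (k : ℕ) : ε * semiMom ε k ≤ semiMom ε (k + 1) := by
  match k with
  | 0 => rw [semiMom, semiMom, mul_one]
  | j + 1 =>
    rw [semiMom_succ_succ]
    refine le_add_of_nonneg_right (mul_nonneg (by linarith) (sum_nonneg fun i _ => ?_))
    exact mul_nonneg (semiMom_pos hε _).le (semiMom_pos hε _).le

/-- The convolution step, with the slack `ε`. -/
theorem conv_le_semiMom (hε : 0 < ε) (k : ℕ) :
    (1 + ε) * ∑ i ∈ range (k + 1), semiMom ε i * semiMom ε (k - i) ≤ semiMom ε (k + 2) := by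
  rw [semiMom_succ_succ]
  linarith [mul_pos hε (semiMom_pos hε (k + 1))]

theorem semiMom_le_conv (hε : 0 < ε) (k : ℕ) :
    semiMom ε k ≤ ∑ i ∈ range (k + 1), semiMom ε i * semiMom ε (k - i) := by
  refine le_trans ?_ (single_le_sum (fun i _ => mul_nonneg (semiMom_pos hε _).le (semiMom_pos hε _).le)
    (mem_range.2 (Nat.lt_succ_self k)))
  simp [semiMom]

theorem catalan_le_semiMom (hε : 0 < ε) (j : ℕ) : (catalan j : ℝ) ≤ semiMom ε (2 * j) := by
  induction j using Nat.strong_induction_on with
  | h j ih =>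
    match j with
    | 0 => simp [semiMom]
    | i + 1 =>
      refine le_trans ?_ (conv_le_semiMom hε (2 * i))
      rw [catalan_succ]
      push_cast
      have h1 : ∑ l : Fin i.succ, (catalan l : ℝ) * catalan (i - l)
          ≤ ∑ l ∈ range (2 * i + 1), semiMom ε l * semiMom ε (2 * i - l) := by
        rw [Fin.sum_univ_eq_sum_range fun l => (catalan l : ℝ) * catalan (i - l)]
        calc ∑ l ∈ range i.succ, (catalan l : ℝ) * catalan (i - l)
            ≤ ∑ l ∈ range i.succ, semiMom ε (2 * l) * semiMom ε (2 * i - 2 * l) := by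
              refine sum_le_sum fun l hl => ?_
              rw [mem_range] at hl
              rw [← Nat.mul_sub]
              exact mul_le_mul (ih l (by omega)) (ih (i - l) (by omega)) (Nat.cast_nonneg _)
                (semiMom_pos hε _).le
          _ = ∑ l ∈ (range i.succ).image (fun l => 2 * l),
                semiMom ε l * semiMom ε (2 * i - l) := by
              rw [sum_image fun a _ b _ h => by simpa using h]
          _ ≤ _ := by
              refine sum_le_sum_of_subset_of_nonneg ?_ fun l _ _ =>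
                mul_nonneg (semiMom_pos hε _).le (semiMom_pos hε _).le
              intro l hl
              simp only [mem_image, mem_range] at hl ⊢
              omega
      have h2 : (0 : ℝ) ≤ ε * ∑ l ∈ range (2 * i + 1), semiMom ε l * semiMom ε (2 * i - l) :=
        mul_nonneg hε.le (sum_nonneg fun l _ => mul_nonneg (semiMom_pos hε _).le (semiMom_pos hε _).le)
      linarith

theorem four_pow_le_catalan (j : ℕ) : (4 : ℝ) ^ j ≤ 2 * ((j : ℝ) + 1) ^ 2 * catalan j := by
  rcases Nat.eq_zero_or_pos j with rfl | hj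
  · norm_num
  have h1 := Nat.four_pow_le_two_mul_self_mul_centralBinom j hj
  rw [← succ_mul_catalan_eq_centralBinom] at h1
  have h2 : (4 : ℝ) ^ j ≤ 2 * (j : ℝ) * (((j : ℝ) + 1) * catalan j) := by exact_mod_cast h1
  refine h2.trans ?_
  have : (0 : ℝ) ≤ ((j : ℝ) + 1) * catalan j := by positivity
  linarith

theorem two_pow_le_semiMom (hε : 0 < ε) (hε1 : ε ≤ 1) (k : ℕ) :
    ε * 2 ^ k ≤ 4 * ((k : ℝ) + 1) ^ 2 * semiMom ε k := by
  obtain ⟨j, hj | hj⟩ := Nat.even_or_odd' k
  · subst hj
    have h1 := mul_le_mul_of_nonneg_left (catalan_le_semiMom hε j)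
      (show (0 : ℝ) ≤ 2 * ((j : ℝ) + 1) ^ 2 by positivity)
    have h2 : ε * (4 : ℝ) ^ j ≤ 1 * 4 ^ j := mul_le_mul_of_nonneg_right hε1 (by positivity)
    have h3 : 2 * ((j : ℝ) + 1) ^ 2 * semiMom ε (2 * j)
        ≤ 4 * (((2 * j : ℕ) : ℝ) + 1) ^ 2 * semiMom ε (2 * j) := by
      refine mul_le_mul_of_nonneg_right ?_ (semiMom_pos hε _).le
      push_cast; nlinarith [Nat.cast_nonneg (α := ℝ) j]
    rw [pow_mul, show (2 : ℝ) ^ 2 = 4 by norm_num]
    linarith [four_pow_le_catalan j]
  · subst hj
    have h1 : ε * (4 : ℝ) ^ j ≤ 2 * ((j : ℝ) + 1) ^ 2 * semiMom ε (2 * j + 1) := by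
      calc ε * (4 : ℝ) ^ j ≤ ε * (2 * ((j : ℝ) + 1) ^ 2 * semiMom ε (2 * j)) :=
            mul_le_mul_of_nonneg_left ((four_pow_le_catalan j).trans
              (mul_le_mul_of_nonneg_left (catalan_le_semiMom hε j) (by positivity))) hε.le
        _ = 2 * ((j : ℝ) + 1) ^ 2 * (ε * semiMom ε (2 * j)) := by ring
        _ ≤ _ := mul_le_mul_of_nonneg_left (eps_mul_semiMom_le hε _) (by positivity)
    have h3 : 2 * (2 * ((j : ℝ) + 1) ^ 2) * semiMom ε (2 * j + 1)
        ≤ 4 * (((2 * j + 1 : ℕ) : ℝ) + 1) ^ 2 * semiMom ε (2 * j + 1) := by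
      refine mul_le_mul_of_nonneg_right ?_ (semiMom_pos hε _).le
      push_cast; nlinarith [Nat.cast_nonneg (α := ℝ) j]
    rw [pow_succ, pow_mul, show (2 : ℝ) ^ 2 = 4 by norm_num]
    linarith

theorem semiMom_le (hε : 0 < ε) (k : ℕ) :
    semiMom ε k ≤ (2 + ε / √(1 + ε)) * (ε + 2 * √(1 + ε)) ^ k := by
  set r := √(1 + ε) with hr
  have hr0 : 0 < r := Real.sqrt_pos.2 (by linarith)
  have hr2 : r ^ 2 = 1 + ε := Real.sq_sqrt (by linarith)
  set ρ := ε + 2 * r with hρ
  have hρ0 : 0 < ρ := by positivity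
  set M := 2 + ε / r with hM
  have hMr : M * r = ρ := by rw [hM, hρ]; field_simp; ring
  have hM0 : 0 ≤ M := by positivity
  set w : ℕ → ℝ := fun i => semiMom ε i / ρ ^ i with hw
  have hw0 : ∀ i, 0 ≤ w i := fun i => div_nonneg (semiMom_pos hε _).le (by positivity)
  have hS : ∀ N, ∑ i ∈ range N, w i ≤ M := by
    intro N
    induction N with
    | zero => simpa using hM0
    | succ N ih =>
      rw [sum_range_succ']
      have h0 : w 0 = 1 := by simp [hw, semiMom]
      match N with
      | 0 =>
        simp [h0]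
        linarith [div_pos hε hr0]
      | N + 1 =>
        have hstep : ∀ i ∈ range (N + 1), w (i + 1) ≤ ε / ρ * w i +
            (1 + ε) / ρ ^ 2 * (if i = 0 then 0 else ∑ l ∈ range i, w l * w (i - 1 - l)) := by
          intro i _
          match i with
          | 0 => simp [hw, semiMom]
          | l + 1 =>
            refine le_of_eq ?_
            have hsum : ∑ x ∈ range (l + 1), w x * w (l - x)
                = (∑ x ∈ range (l + 1), semiMom ε x * semiMom ε (l - x)) / ρ ^ l := by
              rw [sum_div]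
              refine sum_congr rfl fun x hx => ?_
              rw [mem_range] at hx
              simp only [hw]
              rw [div_mul_div_comm, ← pow_add, show x + (l - x) = l by omega]
            rw [if_neg (by omega), show l + 1 - 1 = l by omega, hsum]
            simp only [hw, semiMom_succ_succ]
            field_simp
            ring
        have h1 := sum_le_sum hstep
        rw [sum_add_distrib, ← mul_sum, ← mul_sum] at h1
        have h2 : ∑ i ∈ range (N + 1), (if i = 0 then 0 else ∑ l ∈ range i, w l * w (i - 1 - l))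
            ≤ (∑ i ∈ range (N + 1), w i) ^ 2 := by
          rw [sum_range_succ']
          simp only [Nat.succ_ne_zero, if_false, if_true, add_zero, Nat.add_sub_cancel]
          rw [sq, sum_mul_sum, ← sum_product']
          rw [sum_sigma' (range N) (fun k => range (k + 1)) fun k l => w l * w (k - l)]
          rw [← sum_image (f := fun p : ℕ × ℕ => w p.1 * w p.2)
            (g := fun x : (_ : ℕ) × ℕ => (x.2, x.1 - x.2))]
          · refine sum_le_sum_of_subset_of_nonneg ?_ fun p _ _ => mul_nonneg (hw0 _) (hw0 _)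
            intro p hp
            simp only [mem_image, mem_sigma, mem_range] at hp
            obtain ⟨x, hx, rfl⟩ := hp
            simp only [mem_product, mem_range]
            omega
          · rintro ⟨a, b⟩ hab ⟨c, d⟩ hcd h
            simp only [coe_sigma, Set.mem_sigma_iff, coe_range, Set.mem_Iio, Prod.mk.injEq] at hab hcd h
            obtain ⟨rfl, h⟩ := h
            simp; omega
        have hsq : (∑ i ∈ range (N + 1), w i) ^ 2 ≤ M ^ 2 :=
          pow_le_pow_left₀ (sum_nonneg fun i _ => hw0 i) ih 2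
        have hc1 : 0 ≤ ε / ρ := by positivity
        have hc2 : 0 ≤ (1 + ε) / ρ ^ 2 := by positivity
        have h4 := mul_le_mul_of_nonneg_left (h2.trans hsq) hc2
        have h5 := mul_le_mul_of_nonneg_left ih hc1
        have hfix : ε / ρ * M + (1 + ε) / ρ ^ 2 * M ^ 2 + 1 = M := by
          rw [← hr2, show M = ρ / r by field_simp; linarith [hMr]]
          field_simp
          rw [hρ]; ring
        linarith
  have h := (single_le_sum (fun i _ => hw0 i) (self_mem_range_succ k)).trans (hS (k + 1))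
  simp only [hw] at h
  rw [div_le_iff₀ (by positivity)] at h
  exact h

/-- With `ε D ≤ 1`, all moments up to `D` are at most `3 e² 2^k`. -/
theorem semiMom_le_two_pow {D : ℕ} (hε : 0 < ε) (hεD : ε * D ≤ 1) (hε1 : ε ≤ 1) {k : ℕ}
    (hk : k ≤ D) : semiMom ε k ≤ 3 * Real.exp 1 * 2 ^ k := by
  refine (semiMom_le hε k).trans (mul_le_mul ?_ ?_ (by positivity) (by positivity) |>.trans_eq
    (mul_assoc (3 : ℝ) (Real.exp 1) (2 ^ k)).symm)
  · have : ε / √(1 + ε) ≤ 1 := by
      rw [div_le_one (by positivity)]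
      exact hε1.trans (Real.one_le_sqrt.2 (by linarith))
    linarith
  · have h1 : ε + 2 * √(1 + ε) ≤ 2 * (1 + ε) := by
      have : √(1 + ε) ≤ 1 + ε / 2 := by
        rw [Real.sqrt_le_left (by linarith)]; nlinarith [sq_nonneg ε]
      linarith
    calc (ε + 2 * √(1 + ε)) ^ k ≤ (2 * (1 + ε)) ^ k := pow_le_pow_left₀ (by positivity) h1 k
      _ = (1 + ε) ^ k * 2 ^ k := by rw [mul_pow, mul_comm]
      _ ≤ Real.exp 1 * 2 ^ k := by
        refine mul_le_mul_of_nonneg_right ?_ (by positivity)
        calc (1 + ε) ^ k ≤ Real.exp ε ^ k :=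
              pow_le_pow_left₀ (by linarith) (by linarith [Real.add_one_le_exp ε]) k
          _ = Real.exp (k * ε) := (Real.exp_nat_mul ε k).symm
          _ ≤ Real.exp 1 := by
              refine Real.exp_le_exp.2 (le_trans ?_ hεD)
              rw [mul_comm]
              exact mul_le_mul_of_nonneg_left (by exact_mod_cast hk) hε.le

/-- Comparison of a moment with a product, at cost `1500 D⁶`. -/
theorem semiMom_ratio {D : ℕ} (hD : 1 ≤ D) {k l : ℕ} (hk : k + l ≤ D) :
    semiMom (1 / D : ℝ) (k + l) ≤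
      2400 * (D : ℝ) ^ 6 * (semiMom (1 / D : ℝ) k * semiMom (1 / D : ℝ) l) := by
  set e : ℝ := 1 / D with he
  have hD1 : (1 : ℝ) ≤ D := by exact_mod_cast hD
  have hε : 0 < e := by positivity
  have hε1 : e ≤ 1 := by rw [he, div_le_one (by positivity)]; exact hD1
  have hεD : e * D = 1 := by rw [he]; field_simp
  have hup := semiMom_le_two_pow hε hεD.le hε1 hk
  have lower : ∀ i, i ≤ D → (2 : ℝ) ^ i ≤ 16 * (D : ℝ) ^ 3 * semiMom e i := by
    intro i hi
    have h1 := two_pow_le_semiMom hε hε1 i
    have h2 : ((i : ℝ) + 1) ^ 2 ≤ (2 * (D : ℝ)) ^ 2 := by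
      refine pow_le_pow_left₀ (by positivity) ?_ 2
      have : (i : ℝ) ≤ D := by exact_mod_cast hi
      linarith
    have h3 := mul_le_mul_of_nonneg_right h2 (semiMom_pos hε i).le
    have h4 : (D : ℝ) * (e * 2 ^ i) ≤ D * (4 * ((i : ℝ) + 1) ^ 2 * semiMom e i) :=
      mul_le_mul_of_nonneg_left h1 (by positivity)
    rw [← mul_assoc, mul_comm (D : ℝ) e, hεD, one_mul] at h4
    have h5 := mul_le_mul_of_nonneg_left h3 (show (0:ℝ) ≤ 4 * D by positivity)
    linarith
  have h3e : 3 * Real.exp 1 ≤ 9 := by linarith [Real.exp_one_lt_d9]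
  have hl := mul_le_mul (lower k (by omega)) (lower l (by omega)) (by positivity)
    (mul_nonneg (by positivity) (semiMom_pos hε k).le)
  refine hup.trans ?_
  rw [pow_add]
  have := mul_le_mul h3e hl (by positivity) (by norm_num)
  have h6 : 0 ≤ (D : ℝ) ^ 6 * (semiMom e k * semiMom e l) :=
    mul_nonneg (by positivity) (mul_nonneg (semiMom_pos hε k).le (semiMom_pos hε l).le)
  linarith

end Vale.Agent.P146
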