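import Vale.Agent.P146.Cheb
import Vale.Agent.P146.EventSemi

/-!
Trace moments of the Gaussian matrix from the loop equations.
-/

namespace Vale.Agent.P146

open MeasureTheory ProbabilityTheory Finset

variable {n : ℕ}

/-- The entries of the powers of the matrix. -/
noncomputable def pw : ℕ → Fin n → Fin n → Cfg n → ℝ
  | 0, a, b => fun _ => if a = b then 1 else 0
  | k + 1, a, b => fun g => ∑ c, mat g a c * pw k c b g

/-- The normalised trace of a power. -/
noncomputable def mk' (k : ℕ) (g : Cfg n) : ℝ := (n : ℝ)⁻¹ * ∑ a, pw k a a g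

theorem pw_eq_pow : ∀ (k : ℕ) (a b : Fin n) (g : Cfg n), pw k a b g = (mat g ^ k) a b
  | 0, a, b, g => by simp [pw, Matrix.one_apply]
  | k + 1, a, b, g => by simp [pw, pow_succ', Matrix.mul_apply, pw_eq_pow k]

theorem pw_symm (k : ℕ) (a b : Fin n) (g : Cfg n) : pw k a b g = pw k b a g := by
  rw [pw_eq_pow, pw_eq_pow]
  have h : (mat g).IsSymm := Matrix.IsSymm.ext fun i j => mat_symm g j i
  exact ((h.pow k).apply a b).symm

theorem pw_mul (i l : ℕ) (a b : Fin n) (g : Cfg n) :
    ∑ c, pw i a c g * pw l c b g = pw (i + l) a b g := by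
  simp only [pw_eq_pow, pow_add, Matrix.mul_apply]

theorem Tame.pw : ∀ (k : ℕ) (a b : Fin n), Tame (P146.pw k a b)
  | 0, _, _ => Tame.const _
  | k + 1, a, b => Tame.sum univ fun c _ => Tame.mul (Tame.matEntry a c) (Tame.pw k c b)

theorem Tame.mk' (k : ℕ) : Tame (P146.mk' (n := n) k) :=
  Tame.const_mul _ (Tame.sum univ fun a _ => Tame.pw k a a)

theorem mk'_zero (hn : n ≠ 0) (g : Cfg n) : mk' 0 g = 1 := by
  simp [mk', pw, hn]

theorem Dab_mul_at {f h : Cfg n → ℝ} (p : Fin n × Fin n) (hf : Tame f) (hh : Tame h) (g : Cfg n) :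
    Dab p (fun g => f g * h g) g = Dab p f g * h g + f g * Dab p h g := by
  simp only [Dab, pd_mul _ hf hh]; ring

theorem Dab_sum {α : Type*} (s : Finset α) {f : α → Cfg n → ℝ} (p : Fin n × Fin n)
    (hf : ∀ a ∈ s, Tame (f a)) (g : Cfg n) :
    Dab p (fun g => ∑ a ∈ s, f a g) g = ∑ a ∈ s, Dab p (f a) g := by
  simp only [Dab, pd_sum s _ hf, mul_sum]

theorem Dab_const_mul_at {f : Cfg n → ℝ} (p : Fin n × Fin n) (c : ℝ) (hf : Tame f) (g : Cfg n) :
    Dab p (fun g => c * f g) g = c * Dab p f g := by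
  simp only [Dab, pd_const_mul _ c hf]; ring

theorem Dab_const_at (p : Fin n × Fin n) (c : ℝ) (g : Cfg n) :
    Dab p (fun _ => c) g = 0 := by simp [Dab, pd_const]

theorem Dab_matEnt_at (hn : n ≠ 0) (c d a b : Fin n) (g : Cfg n) :
    Dab (c, d) (fun g => mat g a b) g =
      (if a = c ∧ b = d then 1 else 0) + (if a = d ∧ b = c then 1 else 0) := by
  have h : (fun g : Cfg n => mat g a b) = fun g => dfac a b / Real.sqrt n * g s(a, b) := by
    funext g; simp [mat]; ring
  have hs : Real.sqrt n ≠ 0 := Real.sqrt_ne_zero'.2 (by exact_mod_cast Nat.pos_of_ne_zero hn)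
  have h2 : Real.sqrt 2 * Real.sqrt 2 = 2 := Real.mul_self_sqrt (by norm_num)
  rw [h, Dab_const_mul_at _ _ (Tame.coord _)]
  simp only [Dab, pd_coord, Sym2.eq_iff]
  by_cases h1 : a = c ∧ b = d
  · obtain ⟨rfl, rfl⟩ := h1
    rcases eq_or_ne a b with rfl | hab
    · simp [dfac]
      field_simp
      linarith
    · simp [dfac, hab, Ne.symm hab]
      field_simp
  · by_cases h3 : a = d ∧ b = c
    · obtain ⟨rfl, rfl⟩ := h3
      have hab : a ≠ b := fun e => h1 ⟨e, e.symm⟩
      simp [dfac, hab, Ne.symm hab]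
      field_simp
    · simp [h1, h3]

theorem Dab_pw (hn : n ≠ 0) (c d : Fin n) : ∀ (k : ℕ) (a b : Fin n) (g : Cfg n),
    Dab (c, d) (pw k a b) g = ∑ i ∈ range k,
      (pw i a c g * pw (k - 1 - i) d b g + pw i a d g * pw (k - 1 - i) c b g)
  | 0, a, b, g => by simp [pw, Dab_const_at]
  | k + 1, a, b, g => by
    rw [show pw (k + 1) a b = fun g => ∑ e, mat g a e * pw k e b g from rfl,
      Dab_sum univ _ (fun e _ => Tame.mul (Tame.matEntry a e) (Tame.pw k e b))]
    simp only [Dab_mul_at _ (Tame.matEntry a _) (Tame.pw k _ b), Dab_matEnt_at hn, Dab_pw hn c d k _ b,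
      sum_add_distrib, add_mul, mul_sum, sum_range_succ']
    rw [show (∑ e, (if a = c ∧ e = d then (1 : ℝ) else 0) * pw k e b g)
        = (if a = c then 1 else 0) * pw k d b g by
      by_cases h : a = c <;> simp [h]]
    rw [show (∑ e, (if a = d ∧ e = c then (1 : ℝ) else 0) * pw k e b g)
        = (if a = d then 1 else 0) * pw k c b g by
      by_cases h : a = d <;> simp [h]]
    have e1 : ∀ x y : Fin n, (∑ e, mat g a e * ∑ i ∈ range k, pw i e x g * pw (k - 1 - i) y b g)
        = ∑ i ∈ range k, pw (i + 1) a x g * pw (k - 1 - i) y b g := by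
      intro x y
      simp only [mul_sum]
      rw [sum_comm]
      simp only [pw, sum_mul, mul_assoc]
    simp only [mul_add, sum_add_distrib, e1,
      Nat.sub_zero, Nat.add_sub_cancel]
    simp only [pw, Nat.sub_sub]
    ring_nf

theorem Dab_mk' (hn : n ≠ 0) (c d : Fin n) (k : ℕ) (g : Cfg n) :
    Dab (c, d) (mk' k) g = 2 * k / (n : ℝ) * pw (k - 1) c d g := by
  rw [show mk' k = fun g : Cfg n => (n : ℝ)⁻¹ * ∑ a, pw k a a g from rfl,
    Dab_const_mul_at _ _ (Tame.sum univ fun a _ => Tame.pw k a a),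
    Dab_sum univ _ (fun a _ => Tame.pw k a a)]
  simp only [Dab_pw hn, sum_add_distrib]
  rw [sum_comm, sum_comm (γ := Fin n)]
  have e : ∀ i ∈ range k, (∑ a, pw i a c g * pw (k - 1 - i) d a g) = pw (k - 1) c d g := by
    intro i hi
    rw [mem_range] at hi
    refine (Eq.trans (sum_congr rfl fun a _ => ?_) (pw_mul i (k - 1 - i) c d g)).trans
      (by rw [show i + (k - 1 - i) = k - 1 by omega])
    rw [pw_symm i a c, pw_symm (k - 1 - i) d a]
  have e' : ∀ i ∈ range k, (∑ a, pw i a d g * pw (k - 1 - i) c a g) = pw (k - 1) c d g := by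
    intro i hi
    rw [mem_range] at hi
    refine (Eq.trans (sum_congr rfl fun a _ => ?_) (pw_mul i (k - 1 - i) d c g)).trans
      (by rw [show i + (k - 1 - i) = k - 1 by omega, pw_symm])
    rw [pw_symm i a d, pw_symm (k - 1 - i) c a]
  rw [sum_congr rfl e, sum_congr rfl e']
  simp; ring

/-- A product of traces. -/
noncomputable def prodTr (L : List ℕ) (g : Cfg n) : ℝ := (L.map fun k => mk' k g).prod

theorem Tame.prodTr (L : List ℕ) : Tame (P146.prodTr (n := n) L) :=
  Tame.listProd L fun k _ => Tame.mk' k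

theorem prodTr_cons (k : ℕ) (L : List ℕ) (g : Cfg n) :
    prodTr (k :: L) g = mk' k g * prodTr L g := by simp [prodTr]

/-- Each entry with the list of the others. -/
def drops : List ℕ → List (ℕ × List ℕ)
  | [] => []
  | k :: L => (k, L) :: (drops L).map fun q => (q.1, k :: q.2)

theorem drops_spec {L : List ℕ} {q : ℕ × List ℕ} (hq : q ∈ drops L) :
    q.1 + q.2.sum = L.sum ∧
      ∀ f : ℕ → ℝ, f q.1 * (q.2.map f).prod = (L.map f).prod := by
  induction L generalizing q with
  | nil => simp [drops] at hq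
  | cons k L ih =>
    simp only [drops, List.mem_cons, List.mem_map] at hq
    rcases hq with rfl | ⟨p, hp, rfl⟩
    · simp
    · obtain ⟨h1, h2⟩ := ih hp
      refine ⟨by simp only [List.sum_cons]; omega, fun f => ?_⟩
      simp only [List.map_cons, List.prod_cons, ← h2 f]; ring

theorem drops_sum : ∀ L : List ℕ, ((drops L).map fun q => (q.1 : ℝ)).sum = (L.sum : ℕ)
  | [] => by simp [drops]
  | k :: L => by simp [drops, List.map_map, Function.comp_def, drops_sum L]

theorem Dab_prodTr (hn : n ≠ 0) (c d : Fin n) : ∀ (L : List ℕ) (g : Cfg n),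
    Dab (c, d) (prodTr L) g =
      ((drops L).map fun q => 2 * (q.1 : ℝ) / n * pw (q.1 - 1) c d g * prodTr q.2 g).sum
  | [], g => by
    rw [show prodTr ([] : List ℕ) = fun _ : Cfg n => (1 : ℝ) from funext fun g => by simp [prodTr]]
    simp [drops, Dab_const_at]
  | k :: L, g => by
    rw [show prodTr (k :: L) = fun g : Cfg n => mk' k g * prodTr L g from
      funext fun g => prodTr_cons k L g, Dab_mul_at _ (Tame.mk' k) (Tame.prodTr L), Dab_mk' hn,
      Dab_prodTr hn c d L, ← List.sum_map_mul_left]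
    simp only [drops, List.map_cons, List.sum_cons, List.map_map, Function.comp_def, prodTr_cons]
    congr 2
    refine List.map_congr_left fun q _ => ?_
    ring

theorem mat_ibp (hn : n ≠ 0) {G : Cfg n → ℝ} (hG : Tame G) (a c : Fin n) :
    mean (fun g => mat g a c * G g) = (n : ℝ)⁻¹ * mean (Dab (a, c) G) := by
  have h : (fun g : Cfg n => mat g a c * G g)
      = fun g => dfac a c / Real.sqrt n * (g s(a, c) * G g) := by
    funext g; simp [mat]; ring
  have hs : Real.sqrt n ≠ 0 := Real.sqrt_ne_zero'.2 (by exact_mod_cast Nat.pos_of_ne_zero hn)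
  simp only [mean, Dab, h, integral_const_mul, gauss_ibp hG]
  rw [← mul_assoc]
  congr 1
  field_simp
  rw [Real.sq_sqrt (Nat.cast_nonneg n)]

theorem mean_list_sum {α : Type*} : ∀ (L : List α) (f : α → Cfg n → ℝ), (∀ a, Tame (f a)) →
    mean (fun g => (L.map fun a => f a g).sum) = (L.map fun a => mean (f a)).sum
  | [], f, _ => by simp [mean]
  | a :: L, f, hf => by
    simp only [List.map_cons, List.sum_cons]
    have ht : Tame (fun g => (L.map fun a => f a g).sum) := by
      induction L with
      | nil => simpa using! Tame.const (0 : ℝ)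
      | cons b L ih => simpa using! Tame.add (hf b) ih
    rw [← mean_list_sum L f hf]
    exact integral_add (hf a).integrable ht.integrable

theorem Tame.Dab {f : Cfg n → ℝ} (p : Fin n × Fin n) (hf : Tame f) : Tame (P146.Dab p f) :=
  Tame.const_mul _ (Tame.pd _ hf)

theorem mean_finset_sum {α : Type*} (s : Finset α) {f : α → Cfg n → ℝ} (hf : ∀ a ∈ s, Tame (f a)) :
    mean (fun g => ∑ a ∈ s, f a g) = ∑ a ∈ s, mean (f a) :=
  integral_finsetSum s fun a ha => (hf a ha).integrable

theorem sum_pw_mul_pw (i l : ℕ) (g : Cfg n) :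
    ∑ a, ∑ c, pw i c a g * pw l a c g = (n : ℝ) * mk' (i + l) g := by
  rcases Nat.eq_zero_or_pos n with rfl | hn
  · simp
  have : (n : ℝ) ≠ 0 := by exact_mod_cast hn.ne'
  rw [sum_comm, mk', ← mul_assoc, mul_inv_cancel₀ this, one_mul]
  exact sum_congr rfl fun c _ => pw_mul i l c c g

theorem loop_two (hn : n ≠ 0) (k : ℕ) (L : List ℕ) :
    mean (prodTr (n := n) ((k + 2) :: L)) =
      (∑ i ∈ range (k + 1), mean (prodTr (n := n) (i :: (k - i) :: L))) +
        ((k : ℝ) + 1) / n * mean (prodTr (n := n) (k :: L)) +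
        2 / (n : ℝ) ^ 2 *
          ((drops L).map fun q => (q.1 : ℝ) * mean (prodTr (n := n) ((k + q.1) :: q.2))).sum := by
  have hn' : (n : ℝ) ≠ 0 := by exact_mod_cast hn
  have hG : ∀ a c : Fin n, Tame (fun g => pw (k + 1) c a g * prodTr L g) := fun a c =>
    Tame.mul (Tame.pw _ c a) (Tame.prodTr L)
  have hexp : prodTr (n := n) ((k + 2) :: L)
      = fun g => (n : ℝ)⁻¹ * ∑ a, ∑ c, mat g a c * (pw (k + 1) c a g * prodTr L g) := by
    funext g
    simp only [prodTr_cons, mk', ← mul_assoc, ← sum_mul]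
    rfl
  have hpt : ∀ g : Cfg n, (∑ a, ∑ c, Dab (a, c) (fun g => pw (k + 1) c a g * prodTr L g) g)
      = (n : ℝ) ^ 2 * ((∑ i ∈ range (k + 1), prodTr (i :: (k - i) :: L) g) +
        ((k : ℝ) + 1) / n * prodTr (k :: L) g +
        2 / (n : ℝ) ^ 2 * ((drops L).map fun q => (q.1 : ℝ) * prodTr ((k + q.1) :: q.2) g).sum) := by
    intro g
    simp only [Dab_mul_at _ (Tame.pw _ _ _) (Tame.prodTr L), Dab_pw hn, Nat.add_sub_cancel,
      sum_add_distrib, Dab_prodTr hn]
    have p1 : (∑ a, ∑ c, (∑ i ∈ range (k + 1), pw i c a g * pw (k - i) c a g) * prodTr L g)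
        = (n : ℝ) * ((k : ℝ) + 1) * prodTr (k :: L) g := by
      simp only [← sum_mul, prodTr_cons]
      rw [sum_comm_cycle]
      have e : ∀ i ∈ range (k + 1),
          (∑ a, ∑ c, pw i c a g * pw (k - i) c a g) = (n : ℝ) * mk' k g := by
        intro i hi
        rw [mem_range] at hi
        rw [show mk' k g = mk' (i + (k - i)) g by rw [show i + (k - i) = k by omega],
          ← sum_pw_mul_pw]
        exact sum_congr rfl fun a _ => sum_congr rfl fun c _ => by rw [pw_symm (k - i) c a]
      rw [sum_congr rfl e, sum_const, card_range, nsmul_eq_mul]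
      push_cast; ring
    have p2 : (∑ a, ∑ c, (∑ i ∈ range (k + 1), pw i c c g * pw (k - i) a a g) * prodTr L g)
        = (n : ℝ) ^ 2 * ∑ i ∈ range (k + 1), prodTr (i :: (k - i) :: L) g := by
      simp only [← sum_mul, prodTr_cons]
      rw [sum_comm_cycle, mul_sum, sum_mul]
      refine sum_congr rfl fun i _ => ?_
      rw [sum_comm, ← sum_mul_sum]
      simp only [mk']
      field_simp
    have p3 : (∑ a, ∑ c, pw (k + 1) c a g *
          ((drops L).map fun q => 2 * (q.1 : ℝ) / n * pw (q.1 - 1) a c g * prodTr q.2 g).sum)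
        = 2 * ((drops L).map fun q => (q.1 : ℝ) * prodTr ((k + q.1) :: q.2) g).sum := by
      induction drops L with
      | nil => simp
      | cons q T ih =>
        simp only [List.map_cons, List.sum_cons, mul_add, sum_add_distrib, ih]
        congr 1
        rcases Nat.eq_zero_or_pos q.1 with hq | hq
        · simp [hq]
        · have h1 := sum_pw_mul_pw (k + 1) (q.1 - 1) g
          rw [show k + 1 + (q.1 - 1) = k + q.1 by omega] at h1
          calc ∑ a, ∑ c, pw (k + 1) c a g * (2 * (q.1 : ℝ) / n * pw (q.1 - 1) a c g * prodTr q.2 g)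
              = 2 * (q.1 : ℝ) / n * prodTr q.2 g *
                  ∑ a, ∑ c, pw (k + 1) c a g * pw (q.1 - 1) a c g := by
                simp only [mul_sum]
                exact sum_congr rfl fun a _ => sum_congr rfl fun c _ => by ring
            _ = _ := by rw [h1, prodTr_cons]; field_simp
    simp only [add_mul, sum_add_distrib]
    rw [p1, p2, p3]
    field_simp
    ring
  have hD : ∀ a c : Fin n, Tame (Dab (a, c) fun g => pw (k + 1) c a g * prodTr L g) := fun a c =>
    Tame.Dab _ (hG a c)
  rw [hexp]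
  have hA : mean (fun g : Cfg n => (n : ℝ)⁻¹ * ∑ a, ∑ c, mat g a c * (pw (k + 1) c a g * prodTr L g))
      = (n : ℝ)⁻¹ * (n : ℝ)⁻¹ * mean (fun g : Cfg n => ∑ a, ∑ c,
          Dab (a, c) (fun g => pw (k + 1) c a g * prodTr L g) g) := by
    rw [show mean (fun g : Cfg n => (n : ℝ)⁻¹ * ∑ a, ∑ c, mat g a c * (pw (k + 1) c a g * prodTr L g))
      = (n : ℝ)⁻¹ * mean (fun g : Cfg n => ∑ a, ∑ c, mat g a c * (pw (k + 1) c a g * prodTr L g))
      from integral_const_mul _ _]
    rw [mean_finset_sum univ fun a _ => Tame.sum univ fun c _ => Tame.mul (Tame.matEntry a c) (hG a c),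
      mean_finset_sum univ fun a _ => Tame.sum univ fun c _ => hD a c]
    simp only [mean_finset_sum univ fun c _ => Tame.mul (Tame.matEntry _ c) (hG _ c),
      mean_finset_sum univ fun c _ => hD _ c, mat_ibp hn (hG _ _), mul_sum, mul_assoc]
  rw [hA, show mean (fun g : Cfg n => ∑ a, ∑ c, Dab (a, c) (fun g => pw (k + 1) c a g * prodTr L g) g) = _
    from congrArg mean (funext hpt)]
  have t1 : Tame (fun g => ∑ i ∈ range (k + 1), prodTr (n := n) (i :: (k - i) :: L) g) :=
    Tame.sum _ fun i _ => Tame.prodTr _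
  have t3 : ∀ T : List (ℕ × List ℕ),
      Tame (fun g => (T.map fun q => (q.1 : ℝ) * prodTr (n := n) ((k + q.1) :: q.2) g).sum) := by
    intro T
    induction T with
    | nil => simpa using! Tame.const (0 : ℝ)
    | cons q T ih => simpa using! Tame.add (Tame.const_mul _ (Tame.prodTr _)) ih
  simp only [mean] at *
  rw [integral_const_mul, integral_add (Tame.add t1 (Tame.const_mul _ (Tame.prodTr _))).integrable
      (Tame.const_mul _ (t3 _)).integrable,
    integral_add t1.integrable (Tame.const_mul _ (Tame.prodTr _)).integrable, integral_const_mul,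
    integral_const_mul, integral_finsetSum _ fun i _ => (Tame.prodTr _).integrable]
  have hl := mean_list_sum (n := n) (drops L) (fun q g => (q.1 : ℝ) * prodTr ((k + q.1) :: q.2) g)
    fun q => Tame.const_mul _ (Tame.prodTr _)
  simp only [mean, integral_const_mul] at hl
  rw [hl]
  field_simp

theorem loop_one (hn : n ≠ 0) (L : List ℕ) :
    mean (prodTr (n := n) (1 :: L)) =
      2 / (n : ℝ) ^ 2 *
        ((drops L).map fun q => (q.1 : ℝ) * mean (prodTr (n := n) ((q.1 - 1) :: q.2))).sum := by
  have hn' : (n : ℝ) ≠ 0 := by exact_mod_cast hn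
  have hexp : prodTr (n := n) (1 :: L) = fun g => (n : ℝ)⁻¹ * ∑ a, mat g a a * prodTr L g := by
    funext g
    simp [prodTr_cons, mk', pw, sum_mul, mul_assoc]
  have hpt : ∀ g : Cfg n, ∑ a, Dab (a, a) (prodTr L) g
      = ((drops L).map fun q => 2 * (q.1 : ℝ) * prodTr ((q.1 - 1) :: q.2) g).sum := by
    intro g
    simp only [Dab_prodTr hn]
    induction drops L with
    | nil => simp
    | cons q T ih =>
      simp only [List.map_cons, List.sum_cons, sum_add_distrib, ih, prodTr_cons, mk']
      rw [← sum_mul, ← mul_sum]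
      field_simp
  rw [hexp]
  simp only [mean, integral_const_mul]
  rw [integral_finsetSum univ fun a _ => (Tame.mul (Tame.matEntry a a) (Tame.prodTr L)).integrable]
  have hi : ∀ a : Fin n, (∫ g, mat g a a * prodTr L g ∂gauss (Edge n))
      = (n : ℝ)⁻¹ * ∫ g, Dab (a, a) (prodTr L) g ∂gauss (Edge n) :=
    fun a => mat_ibp hn (Tame.prodTr L) a a
  simp only [hi, ← mul_sum]
  rw [← integral_finsetSum univ fun a _ => (Tame.Dab _ (Tame.prodTr L)).integrable,
    integral_congr_ae (Filter.Eventually.of_forall hpt)]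
  have hl := mean_list_sum (n := n) (drops L) (fun q g => 2 * (q.1 : ℝ) * prodTr ((q.1 - 1) :: q.2) g)
    fun q => Tame.const_mul _ (Tame.prodTr _)
  simp only [mean, integral_const_mul] at hl
  rw [hl, ← List.sum_map_mul_left, ← List.sum_map_mul_left, ← List.sum_map_mul_left]
  congr 1
  refine List.map_congr_left fun q _ => ?_
  field_simp

/-- All products of trace moments are dominated by the majorant. -/
theorem mean_prodTr_le (hn : n ≠ 0) {D : ℕ} (hD : 1 ≤ D) (hDn : 10000 * (D : ℝ) ^ 8 ≤ n) :
    ∀ L : List ℕ, L.sum ≤ D →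
      mean (prodTr (n := n) L) ≤ (L.map (semiMom (1 / D : ℝ))).prod := by
  set e : ℝ := 1 / D with he
  have hD1 : (1 : ℝ) ≤ D := by exact_mod_cast hD
  have hε : 0 < e := by positivity
  have hn' : (0 : ℝ) < n := by exact_mod_cast Nat.pos_of_ne_zero hn
  have hn1 : (1 : ℝ) ≤ n := by exact_mod_cast Nat.pos_of_ne_zero hn
  have hμ : ∀ L : List ℕ, 0 ≤ (L.map (semiMom e)).prod := fun L =>
    List.prod_nonneg fun x hx => by
      obtain ⟨k, _, rfl⟩ := List.mem_map.1 hx
      exact (semiMom_pos hε k).le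
  intro L
  induction hs : L.sum using Nat.strong_induction_on generalizing L with
  | h S ih =>
    intro hSD
    induction L generalizing S with
    | nil =>
      have h1 : prodTr (n := n) [] = fun _ => 1 := funext fun g => by simp [prodTr]
      rw [h1]; simp [mean, gauss]
    | cons k L ihL =>
      simp only [List.sum_cons] at hs
      match k with
      | 0 =>
        rw [show prodTr (n := n) (0 :: L) = prodTr L from funext fun g => by
          rw [prodTr_cons, mk'_zero hn, one_mul]]
        simp only [List.map_cons, List.prod_cons, semiMom, one_mul]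
        exact ihL S ih (by omega) hSD
      | 1 =>
        rw [loop_one hn]
        simp only [List.map_cons, List.prod_cons]
        have hterm : ∀ q ∈ drops L, (q.1 : ℝ) * mean (prodTr (n := n) ((q.1 - 1) :: q.2))
            ≤ (q.1 : ℝ) * ((D : ℝ) * (L.map (semiMom e)).prod) := by
          intro q hq
          obtain ⟨h1, h2⟩ := drops_spec hq
          rcases Nat.eq_zero_or_pos q.1 with h0 | h0
          · simp [h0]
          refine mul_le_mul_of_nonneg_left ?_ (Nat.cast_nonneg _)
          refine (ih (q.1 - 1 + q.2.sum) (by omega) ((q.1 - 1) :: q.2) (by simp) (by omega)).trans ?_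
          simp only [List.map_cons, List.prod_cons, ← h2 (semiMom e), ← mul_assoc]
          refine mul_le_mul_of_nonneg_right ?_ (hμ _)
          have h5 := eps_mul_semiMom_le hε (q.1 - 1)
          rw [Nat.sub_add_cancel h0, he, div_mul_eq_mul_div, one_mul, div_le_iff₀ (by positivity)] at h5
          linarith
        refine (mul_le_mul_of_nonneg_left (List.sum_le_sum hterm) (by positivity)).trans ?_
        rw [List.sum_map_mul_right, drops_sum]
        have hLD : ((L.sum : ℕ) : ℝ) ≤ D := by exact_mod_cast (by omega : L.sum ≤ D)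
        have hsm : semiMom e 1 = e := by rw [semiMom]
        rw [hsm, ← mul_assoc, ← mul_assoc]
        refine mul_le_mul_of_nonneg_right ?_ (hμ _)
        rw [he, le_div_iff₀ (by positivity), div_mul_eq_mul_div, div_mul_eq_mul_div,
          div_mul_eq_mul_div, div_le_one (by positivity)]
        have h6 : (D : ℝ) ^ 3 ≤ (D : ℝ) ^ 8 := pow_le_pow_right₀ hD1 (by norm_num)
        have h7 : (n : ℝ) ≤ (n : ℝ) ^ 2 := by nlinarith
        have h8 : 2 * ((L.sum : ℕ) : ℝ) * D * D ≤ 2 * (D : ℝ) ^ 3 :=
          le_of_le_of_eq (by gcongr : 2 * ((L.sum : ℕ) : ℝ) * D * D ≤ 2 * (D : ℝ) * D * D) (by ring)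
        nlinarith
      | j + 2 =>
        rw [loop_two hn]
        simp only [List.map_cons, List.prod_cons]
        set P := (L.map (semiMom e)).prod with hP
        set C := ∑ i ∈ range (j + 1), semiMom e i * semiMom e (j - i) with hC
        have a1 : ∑ i ∈ range (j + 1), mean (prodTr (n := n) (i :: (j - i) :: L)) ≤ C * P := by
          rw [hC, sum_mul]
          refine sum_le_sum fun i hi => ?_
          rw [mem_range] at hi
          refine (ih (i + (j - i + L.sum)) (by omega) (i :: (j - i) :: L) (by simp) (by omega)).trans ?_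
          simp only [List.map_cons, List.prod_cons, hP, mul_assoc, le_refl]
        have hjμ : semiMom e j ≤ C := semiMom_le_conv hε j
        have a2 : mean (prodTr (n := n) (j :: L)) ≤ C * P := by
          refine (ih (j + L.sum) (by omega) (j :: L) (by simp) (by omega)).trans ?_
          simp only [List.map_cons, List.prod_cons]
          exact mul_le_mul_of_nonneg_right hjμ (hμ L)
        have a3 : ((drops L).map fun q => (q.1 : ℝ) * mean (prodTr (n := n) ((j + q.1) :: q.2))).sum
            ≤ (L.sum : ℕ) * (2400 * (D : ℝ) ^ 6 * (C * P)) := by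
          rw [← drops_sum L, ← List.sum_map_mul_right]
          refine List.sum_le_sum fun q hq => ?_
          obtain ⟨h1, h2⟩ := drops_spec hq
          refine mul_le_mul_of_nonneg_left ?_ (Nat.cast_nonneg _)
          refine (ih (j + q.1 + q.2.sum) (by omega) ((j + q.1) :: q.2) (by simp) (by omega)).trans ?_
          simp only [List.map_cons, List.prod_cons]
          refine (mul_le_mul_of_nonneg_right (semiMom_ratio hD (by omega)) (hμ _)).trans ?_
          rw [hP, ← h2 (semiMom e), mul_assoc (2400 * (D : ℝ) ^ 6)]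
          refine mul_le_mul_of_nonneg_left ?_ (by positivity)
          rw [mul_assoc]
          exact mul_le_mul_of_nonneg_right hjμ (mul_nonneg (semiMom_pos hε _).le (hμ _))
        have hCP : 0 ≤ C * P := mul_nonneg ((semiMom_pos hε j).le.trans hjμ) (hμ L)
        have hjD : (j : ℝ) + 1 ≤ D := by exact_mod_cast (by omega : j + 1 ≤ D)
        have hLD : ((L.sum : ℕ) : ℝ) ≤ D := by exact_mod_cast (by omega : L.sum ≤ D)
        have b2 := mul_le_mul_of_nonneg_left a2 (show 0 ≤ ((j : ℝ) + 1) / n by positivity)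
        have b3 := mul_le_mul_of_nonneg_left a3 (show 0 ≤ 2 / (n : ℝ) ^ 2 by positivity)
        have hc : ((j : ℝ) + 1) / n + 2 / (n : ℝ) ^ 2 * ((L.sum : ℕ) * (2400 * (D : ℝ) ^ 6)) ≤ e := by
          have h6 : (D : ℝ) ^ 2 ≤ (D : ℝ) ^ 8 := pow_le_pow_right₀ hD1 (by norm_num)
          have h7 : ((j : ℝ) + 1) / n ≤ (D : ℝ) / n := by gcongr
          have h8 : 2 / (n : ℝ) ^ 2 * ((L.sum : ℕ) * (2400 * (D : ℝ) ^ 6))
              ≤ 4800 * (D : ℝ) ^ 7 / n := by
            rw [div_mul_eq_mul_div, div_le_div_iff₀ (by positivity) hn']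
            have : 2 * (((L.sum : ℕ) : ℝ) * (2400 * (D : ℝ) ^ 6)) ≤ 4800 * (D : ℝ) ^ 7 :=
              le_of_le_of_eq (by gcongr : _ ≤ 2 * ((D : ℝ) * (2400 * (D : ℝ) ^ 6))) (by ring)
            exact mul_le_mul this (by nlinarith) hn'.le (by positivity)
          refine (add_le_add h7 h8).trans ?_
          rw [← add_div, he, div_le_div_iff₀ hn' (by positivity)]
          linarith
        have b4 := mul_le_mul_of_nonneg_right hc hCP
        have b5 := mul_le_mul_of_nonneg_right (conv_le_semiMom hε j) (hμ L)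
        rw [← hC] at b5
        linarith

end Vale.Agent.P146
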