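import Vale.Agent.P146.EventLoop

/-!
The norm half of the good event fails with tiny probability.
-/

namespace Vale.Agent.P146

open MeasureTheory ProbabilityTheory Finset

variable {n : ℕ}

/-- The norm half of `Good`. -/
def NormBd (K : ℕ) (g : Cfg n) : Prop :=
  ∀ v : Fin n → ℝ, |quad g v| ≤ (2 + 1 / (2 * (2 * (K : ℝ) + 2) ^ 2)) * ∑ a, v a ^ 2

theorem measurableSet_normBd (K : ℕ) : MeasurableSet {g : Cfg n | NormBd K g} := by
  refine IsClosed.measurableSet ?_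
  simp only [NormBd, Set.setOf_forall]
  refine isClosed_iInter fun v => isClosed_le (continuous_abs.comp ?_) continuous_const
  exact continuous_finsetSum _ fun a _ => continuous_finsetSum _ fun b _ =>
    (continuous_const.mul (Tame.matEntry a b).continuous).mul continuous_const

/-- The quadratic form of a power. -/
noncomputable def qpw (j : ℕ) (v : Fin n → ℝ) (g : Cfg n) : ℝ :=
  ∑ a, v a * ∑ b, pw j a b g * v b

theorem qpw_one (v : Fin n → ℝ) (g : Cfg n) : qpw 1 v g = quad g v := by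
  simp [qpw, quad, pw, mul_sum, mul_assoc]

theorem sum_sq_pw_apply (j : ℕ) (v : Fin n → ℝ) (g : Cfg n) :
    ∑ a, (∑ b, pw j a b g * v b) ^ 2 = qpw (j + j) v g := by
  simp only [qpw, sq, sum_mul_sum, mul_sum, ← pw_mul j j, sum_mul]
  rw [sum_comm]
  refine sum_congr rfl fun b _ => ?_
  rw [sum_comm]
  refine sum_congr rfl fun d _ => sum_congr rfl fun a _ => ?_
  rw [pw_symm j a b]; ring

theorem qpw_sq_le (j : ℕ) (v : Fin n → ℝ) (g : Cfg n) :
    qpw j v g ^ 2 ≤ (∑ a, v a ^ 2) * qpw (j + j) v g := by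
  rw [← sum_sq_pw_apply]
  exact sum_mul_sq_le_sq_mul_sq _ _ _

theorem qpw_le_trace (j : ℕ) (v : Fin n → ℝ) (g : Cfg n) :
    qpw (j + j) v g ≤ (∑ a, v a ^ 2) * ((n : ℝ) * mk' (j + j) g) := by
  rw [← sum_sq_pw_apply, ← sum_pw_mul_pw j j g, mul_sum]
  refine sum_le_sum fun a _ => (sum_mul_sq_le_sq_mul_sq _ _ _).trans ?_
  rw [mul_comm]
  refine le_of_eq ?_
  congr 1
  exact sum_congr rfl fun b _ => by rw [pw_symm j b a, sq]

theorem mk'_even_nonneg (j : ℕ) (g : Cfg n) : 0 ≤ mk' (j + j) g := by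
  refine mul_nonneg (inv_nonneg.2 (Nat.cast_nonneg n)) (sum_nonneg fun a _ => ?_)
  rw [← pw_mul]
  exact sum_nonneg fun b _ => by rw [pw_symm j b a]; exact mul_self_nonneg _

theorem quad_pow_le_qpw (v : Fin n → ℝ) (g : Cfg n) : ∀ r : ℕ,
    quad g v ^ 2 ^ (r + 1) ≤ (∑ a, v a ^ 2) ^ (2 ^ (r + 1) - 1) * qpw (2 ^ (r + 1)) v g
  | 0 => by simpa [qpw_one] using qpw_sq_le 1 v g
  | r + 1 => by
    have hS : 0 ≤ ∑ a, v a ^ 2 := sum_nonneg fun a _ => sq_nonneg _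
    have he : 0 ≤ quad g v ^ 2 ^ (r + 1) := Even.pow_nonneg (by simp [parity_simps]) _
    have h2 : 2 ^ (r + 1 + 1) = 2 ^ (r + 1) + 2 ^ (r + 1) := by ring
    have hp : 0 < 2 ^ (r + 1) := Nat.two_pow_pos _
    calc quad g v ^ 2 ^ (r + 1 + 1) = (quad g v ^ 2 ^ (r + 1)) ^ 2 := by rw [h2, ← pow_mul]; congr 1; ring
      _ ≤ ((∑ a, v a ^ 2) ^ (2 ^ (r + 1) - 1) * qpw (2 ^ (r + 1)) v g) ^ 2 :=
          pow_le_pow_left₀ he (quad_pow_le_qpw v g r) 2
      _ = ((∑ a, v a ^ 2) ^ (2 ^ (r + 1) - 1)) ^ 2 * qpw (2 ^ (r + 1)) v g ^ 2 := mul_pow _ _ _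
      _ ≤ ((∑ a, v a ^ 2) ^ (2 ^ (r + 1) - 1)) ^ 2 *
          ((∑ a, v a ^ 2) * qpw (2 ^ (r + 1) + 2 ^ (r + 1)) v g) :=
          mul_le_mul_of_nonneg_left (qpw_sq_le _ v g) (sq_nonneg _)
      _ = _ := by
          rw [h2, ← mul_assoc, ← pow_mul, ← pow_succ]; congr 2; omega

theorem quad_pow_le_trace (v : Fin n → ℝ) (g : Cfg n) (r : ℕ) :
    quad g v ^ 2 ^ (r + 1) ≤ (∑ a, v a ^ 2) ^ 2 ^ (r + 1) * ((n : ℝ) * mk' (2 ^ (r + 1)) g) := by
  have hS : 0 ≤ ∑ a, v a ^ 2 := sum_nonneg fun a _ => sq_nonneg _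
  have h2 : 2 ^ (r + 1) = 2 ^ r + 2 ^ r := by ring
  have h3 : qpw (2 ^ (r + 1)) v g ≤ (∑ a, v a ^ 2) * ((n : ℝ) * mk' (2 ^ (r + 1)) g) := by
    rw [h2]; exact qpw_le_trace _ v g
  refine (quad_pow_le_qpw v g r).trans
    ((mul_le_mul_of_nonneg_left h3 (pow_nonneg hS _)).trans_eq ?_)
  rw [← mul_assoc, ← pow_succ]
  congr 2
  have := Nat.two_pow_pos (r + 1)
  omega

theorem big_base {β : ℝ} {K : ℕ} (hB : Big β n K) : (100000 * (K : ℝ)) ^ 60 ≤ n := by
  obtain ⟨hK, hβ, hn⟩ := hB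
  refine le_trans (pow_le_pow_left₀ (by positivity) ?_ 60) hn
  have : 0 ≤ (K : ℝ) := Nat.cast_nonneg K
  nlinarith

/-- Monomial consequences of `Big`. -/
theorem big_mono {β : ℝ} {K : ℕ} (hB : Big β n K) {c : ℝ} {j : ℕ} (hj : j ≤ 60) (_hc : 0 ≤ c)
    (hc' : c ≤ 100000 ^ j) : c * (K : ℝ) ^ j ≤ n := by
  have hk : (2 : ℝ) ≤ K := by exact_mod_cast hB.1
  refine le_trans ?_ ((pow_le_pow_right₀ (by linarith) hj).trans (big_base hB))
  rw [mul_pow]
  exact mul_le_mul_of_nonneg_right hc' (by positivity)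

theorem big_pos {β : ℝ} {K : ℕ} (hB : Big β n K) : n ≠ 0 ∧ (10000 : ℝ) ≤ n := by
  have h := big_mono hB (c := 10000) (j := 1) (by norm_num) (by norm_num) (by norm_num)
  have hk : (2 : ℝ) ≤ K := by exact_mod_cast hB.1
  rw [pow_one] at h
  refine ⟨fun h0 => ?_, by linarith⟩
  subst h0
  push_cast at h
  linarith

theorem exp_half_le {u : ℝ} (h0 : 0 ≤ u) (h1 : u ≤ 1) : Real.exp (u / 2) ≤ 1 + u := by
  have h := Real.add_one_le_exp (-(u / 2))
  have hp := Real.exp_pos (u / 2)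
  rw [Real.exp_neg, le_inv_comm₀ (by linarith) hp] at h
  refine h.trans ?_
  rw [inv_le_iff_one_le_mul₀ (by linarith)]
  nlinarith

/-- The norm half of `Good` fails with probability at most `n ^ (-600 K^2)`. -/
theorem prob_not_normBd {β : ℝ} {K : ℕ} (hB : Big β n K) :
    (gauss (Edge n)).real {g : Cfg n | ¬ NormBd K g} ≤ ((n : ℝ) ^ (600 * K ^ 2))⁻¹ := by
  obtain ⟨hn0, hn4⟩ := big_pos hB
  have hn : (0 : ℝ) < n := by linarith
  have hk : (2 : ℝ) ≤ K := by exact_mod_cast hB.1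
  set x : ℝ := (n : ℝ) ^ ((1 : ℝ) / 120) with hx
  have hx120 : x ^ 120 = n := by
    rw [hx, ← Real.rpow_natCast, ← Real.rpow_mul hn.le]; norm_num
  have hx0 : 0 ≤ x := Real.rpow_nonneg hn.le _
  have hx2 : 100000 * (K : ℝ) ≤ x ^ 2 := by
    refine le_of_pow_le_pow_left₀ (n := 60) (by norm_num) (by positivity) ?_
    rw [← pow_mul, show 2 * 60 = 120 from rfl, hx120]
    exact big_base hB
  have hx1 : 1 ≤ x := by nlinarith
  have hlog : Real.log n ≤ 120 * x := by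
    refine (Real.log_le_rpow_div hn.le (ε := (1 : ℝ) / 120) (by norm_num)).trans_eq ?_
    rw [hx]; ring
  have hlog1 : 1 ≤ Real.log n := by
    rw [Real.le_log_iff_exp_le hn]
    have := Real.exp_one_lt_d9
    linarith
  set w : ℝ := 2 * (2 * (K : ℝ) + 2) ^ 2 with hw
  set δ : ℝ := 1 / w with hδ
  set Q : ℕ := 600 * K ^ 2 with hQ
  have hQr : ((Q : ℕ) : ℝ) = 600 * (K : ℝ) ^ 2 := by rw [hQ]; push_cast; ring
  set L : ℝ := 4 * ((Q : ℝ) + 2) * w * Real.log n with hL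
  have hw1 : 1 ≤ w := by nlinarith
  have hL1 : 1 < L := by
    have h1 : (1 : ℝ) ≤ w * Real.log n := one_le_mul_of_one_le_of_one_le hw1 hlog1
    have h2 : (0 : ℝ) ≤ (Q : ℝ) := Nat.cast_nonneg Q
    rw [hL]; nlinarith
  set m := ⌈L⌉₊ with hm
  have hm2 : 1 < m := Nat.lt_ceil.2 (by exact_mod_cast hL1)
  set r := Nat.clog 2 m with hr
  have hr1 : 0 < r := Nat.clog_pos one_lt_two hm2
  set e := 2 ^ (r + 1) with he
  have heL : L ≤ e := by
    refine (Nat.le_ceil L).trans ?_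
    exact_mod_cast (Nat.le_pow_clog one_lt_two m).trans (Nat.pow_le_pow_right two_pos (Nat.le_succ r))
  have he4 : (e : ℝ) ≤ 4 * (L + 1) := by
    have h1 : 2 ^ r.pred < m := Nat.pow_pred_clog_lt_self one_lt_two hm2
    have h2 : e = 4 * 2 ^ r.pred := by
      rw [he, show r + 1 = r.pred + 2 by rw [Nat.pred_eq_sub_one]; omega, pow_add]; ring
    have h3 : (e : ℝ) ≤ 4 * (m : ℝ) := by exact_mod_cast (by omega : e ≤ 4 * m)
    have h4 := Nat.ceil_lt_add_one (a := L) (by linarith)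
    rw [← hm] at h4
    linarith
  have hex : (e : ℝ) ≤ x ^ 9 := by
    have h1 : L ≤ 4 * (602 * (K : ℝ) ^ 2) * (18 * (K : ℝ) ^ 2) * (120 * x) := by
      rw [hL]
      have a1 : ((Q : ℕ) : ℝ) + 2 ≤ 602 * (K : ℝ) ^ 2 := by rw [hQr]; nlinarith
      have a2 : w ≤ 18 * (K : ℝ) ^ 2 := by rw [hw]; nlinarith
      gcongr
    have h2 : (100000 * (K : ℝ)) ^ 4 ≤ x ^ 8 :=
      (pow_le_pow_left₀ (by positivity) hx2 4).trans_eq (by ring)
    have h3 := mul_le_mul_of_nonneg_right h2 hx0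
    calc (e : ℝ) ≤ 8 * L := by linarith
      _ ≤ 8 * (4 * (602 * (K : ℝ) ^ 2) * (18 * (K : ℝ) ^ 2) * (120 * x)) := by linarith
      _ ≤ (100000 * (K : ℝ)) ^ 4 * x := by
          have : (0 : ℝ) ≤ (K : ℝ) ^ 4 * x := by positivity
          nlinarith
      _ ≤ x ^ 8 * x := h3
      _ = x ^ 9 := by ring
  have he1 : 1 ≤ e := Nat.one_le_two_pow
  have heD : 10000 * (e : ℝ) ^ 8 ≤ n := by
    calc (10000 : ℝ) * (e : ℝ) ^ 8 ≤ x ^ 48 * (x ^ 9) ^ 8 := by
          refine mul_le_mul ?_ (by gcongr) (by positivity) (by positivity)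
          have h1 : x ^ 2 ≤ x ^ 48 := pow_le_pow_right₀ hx1 (by norm_num)
          nlinarith
      _ = (n : ℝ) := by rw [← hx120]; ring
  have hmom : mean (mk' (n := n) e) ≤ 9 * 2 ^ e := by
    have h := mean_prodTr_le hn0 he1 heD [e] (by simp)
    rw [show prodTr (n := n) [e] = mk' e from funext fun g => by simp [prodTr]] at h
    refine h.trans ?_
    simp only [List.map_cons, List.map_nil, List.prod_cons, List.prod_nil, mul_one]
    have hep : (0 : ℝ) < e := by exact_mod_cast he1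
    refine (semiMom_le_two_pow (D := e) (by positivity) (by field_simp; rfl) ?_ le_rfl).trans ?_
    · rw [div_le_one hep]; exact_mod_cast he1
    · have := Real.exp_one_lt_d9
      gcongr
      linarith
  have hsub : {g : Cfg n | ¬ NormBd K g} ⊆ {g | (2 + δ) ^ e ≤ (n : ℝ) * mk' e g} := by
    intro g hg
    simp only [NormBd, Set.mem_ofPred_eq, not_forall, not_le, ← hw, ← hδ] at hg ⊢
    obtain ⟨v, hv⟩ := hg
    have hS : 0 ≤ ∑ a, v a ^ 2 := sum_nonneg fun a _ => sq_nonneg _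
    have hev : Even e := by rw [he]; simp [parity_simps]
    have h1 := (pow_le_pow_left₀ (mul_nonneg (by positivity) hS) hv.le e).trans
      ((hev.pow_abs (quad g v)).le.trans (quad_pow_le_trace v g r))
    rw [mul_pow, mul_comm] at h1
    rcases hS.eq_or_lt with h0 | h0
    · exfalso
      rw [← h0, mul_zero] at hv
      have h9 := quad_pow_le_trace v g r
      rw [← h0, ← he, zero_pow (by omega), zero_mul, ← hev.pow_abs] at h9
      have : 0 < |quad g v| ^ e := pow_pos hv e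
      linarith
    · exact le_of_mul_le_mul_left h1 (pow_pos h0 e)
  have hnn : ∀ g : Cfg n, 0 ≤ (n : ℝ) * mk' e g := fun g =>
    mul_nonneg hn.le (by rw [he, show 2 ^ (r + 1) = 2 ^ r + 2 ^ r by ring]; exact mk'_even_nonneg _ g)
  have hmk := mul_meas_ge_le_integral_of_nonneg (μ := gauss (Edge n))
    (Filter.Eventually.of_forall hnn) (Tame.const_mul _ (Tame.mk' e)).integrable ((2 + δ) ^ e)
  have hM : (gauss (Edge n)).real {g : Cfg n | (2 + δ) ^ e ≤ (n : ℝ) * mk' e g}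
      ≤ (n : ℝ) * (9 * 2 ^ e) / (2 + δ) ^ e := by
    rw [le_div_iff₀ (by positivity), mul_comm]
    refine hmk.trans ?_
    rw [integral_const_mul]
    exact mul_le_mul_of_nonneg_left hmom hn.le
  refine (measureReal_mono hsub).trans (hM.trans ?_)
  have hu : (n : ℝ) ^ (Q + 2) ≤ (1 + δ / 2) ^ e := by
    have hδ1 : δ ≤ 1 := by rw [hδ, div_le_one (by linarith)]; exact hw1
    refine le_trans ?_ (pow_le_pow_left₀ (Real.exp_pos _).le
      (exp_half_le (u := δ / 2) (by positivity) (by linarith)) e)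
    rw [← Real.exp_nat_mul, ← Real.exp_log hn, ← Real.exp_nat_mul]
    refine Real.exp_le_exp.2 ?_
    have := mul_le_mul_of_nonneg_right heL (show 0 ≤ δ / 2 / 2 by positivity)
    refine le_of_eq_of_le ?_ this
    rw [hL, hδ]
    push_cast
    field_simp
    ring_nf
  rw [show (2 + δ) = 2 * (1 + δ / 2) by ring, mul_pow,
    div_le_iff₀ (by positivity), ← div_eq_inv_mul, le_div_iff₀ (by positivity)]
  calc (n : ℝ) * (9 * 2 ^ e) * (n : ℝ) ^ Q ≤ 2 ^ e * (n : ℝ) ^ (Q + 2) := by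
        rw [pow_add]
        have : 0 ≤ (2 : ℝ) ^ e * (n : ℝ) ^ Q * n := by positivity
        nlinarith
    _ ≤ 2 ^ e * (1 + δ / 2) ^ e := by gcongr

end Vale.Agent.P146
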