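import Vale.Agent.P146.Systems
import Vale.Agent.P146.Gibbs

/-!
Combinatorics of even multigraphs.
-/

namespace Vale.Agent.P146

variable {n : ℕ}

namespace Comb

/-- The multiplicities of a list of pairs. -/
def ordOf (L : List (Fin n × Fin n)) (e : Edge n) : ℕ :=
  (L.map fun p => s(p.1, p.2)).count e

theorem ordOf_append (L M : List (Fin n × Fin n)) (e : Edge n) :
    ordOf (L ++ M) e = ordOf L e + ordOf M e := by
  simp [ordOf]

theorem sum_ordOf (L : List (Fin n × Fin n)) : ∑ e, ordOf L e = L.length := by
  induction L with
  | nil => simp [ordOf]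
  | cons p L ih =>
    simp only [ordOf, List.map_cons, List.count_cons, Finset.sum_add_distrib, List.length_cons]
    simp only [ordOf] at ih
    rw [ih]
    simp [beq_iff_eq]

theorem degree_add (α γ : Edge n → ℕ) (a : Fin n) :
    degree (α + γ) a = degree α a + degree γ a := by
  simp only [degree, ← Finset.sum_add_distrib]
  refine Finset.sum_congr rfl fun b _ => ?_
  split_ifs <;> simp only [Pi.add_apply] <;> ring

theorem degree_pair (x y a : Fin n) :
    degree (fun e => if s(x, y) = e then 1 else 0) a =
      (if x = a then 1 else 0) + (if y = a then 1 else 0) := by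
  simp only [degree]
  by_cases hx : x = a
  · subst hx
    rw [Finset.sum_eq_single y]
    · by_cases hy : y = x <;> simp [hy]
    · intro b _ hb
      have : s(x, y) ≠ s(x, b) := fun h => hb (Sym2.congr_right.1 h).symm
      simp [this]
    · simp
  by_cases hy : y = a
  · subst hy
    rw [Finset.sum_eq_single x]
    · simp [hx, Sym2.eq_swap]
    · intro b _ hb
      simp [hx, Ne.symm hb]
    · simp
  rw [if_neg hx, if_neg hy]
  refine Finset.sum_eq_zero fun b _ => ?_
  simp [hx, hy]

/-- The number of times `a` is an endpoint in a list of pairs. -/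
def ends (L : List (Fin n × Fin n)) (a : Fin n) : ℕ :=
  (L.map Prod.fst).count a + (L.map Prod.snd).count a

theorem degree_ordOf (L : List (Fin n × Fin n)) (a : Fin n) :
    degree (ordOf L) a = ends L a := by
  induction L with
  | nil => simp [degree, ordOf, ends]
  | cons p L ih =>
    obtain ⟨x, y⟩ := p
    have h : ordOf ((x, y) :: L) = (fun e => if s(x, y) = e then 1 else 0) + ordOf L := by
      funext e
      simp only [ordOf, List.map_cons, List.count_cons, Pi.add_apply, beq_iff_eq]
      omega
    rw [h, degree_add, degree_pair, ih]
    simp only [ends, List.map_cons, List.count_cons, beq_iff_eq]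
    omega

theorem walkEdges_fst {V : Type*} : ∀ w : List V, (walkEdges w).map Prod.fst = w.dropLast
  | [] => rfl
  | [_] => rfl
  | a :: b :: t => by simp [walkEdges, walkEdges_fst (b :: t)]

theorem walkEdges_snd {V : Type*} : ∀ w : List V, (walkEdges w).map Prod.snd = w.tail
  | [] => rfl
  | [_] => rfl
  | a :: b :: t => by simp [walkEdges, walkEdges_snd (b :: t)]

theorem walkEdges_length {V : Type*} (w : List V) : (walkEdges w).length = w.length - 1 := by
  have h := congrArg List.length (walkEdges_snd w)
  simpa using h

theorem walkEdges_subset {V : Type*} {w : List V} {p : V × V} (h : p ∈ walkEdges w) :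
    p.1 ∈ w ∧ p.2 ∈ w := by
  constructor
  · exact List.dropLast_subset w
      ((walkEdges_fst w).symm ▸ List.mem_map_of_mem h)
  · exact List.tail_subset w
      ((walkEdges_snd w).symm ▸ List.mem_map_of_mem h)

/-- The closed walk through a list. -/
def close {V : Type*} : List V → List V
  | [] => []
  | x :: t => (x :: t) ++ [x]

/-- The edges of the cycle through a list. -/
def cycE {V : Type*} (c : List V) : List (V × V) := walkEdges (close c)

theorem ends_cycE (c : List (Fin n)) (a : Fin n) : ends (cycE c) a = 2 * c.count a := by
  cases c with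
  | nil => simp [ends, cycE, close, walkEdges]
  | cons x t =>
    simp only [ends, cycE, walkEdges_fst, walkEdges_snd, close, List.dropLast_concat]
    simp only [List.cons_append, List.tail_cons, List.count_append, List.count_cons,
      List.count_nil, beq_iff_eq]
    omega

theorem length_cycE {V : Type*} (c : List V) : (cycE c).length = c.length := by
  cases c with
  | nil => rfl
  | cons x t => simp [cycE, close, walkEdges_length]

theorem close_length {V : Type*} {c : List V} (h : c ≠ []) :
    (close c).length = c.length + 1 := by
  cases c with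
  | nil => simp at h
  | cons x t => simp [close]

theorem close_toFinset (c : List (Fin n)) : (close c).toFinset = c.toFinset := by
  cases c with
  | nil => rfl
  | cons x t => ext; simp [close]

/-- The edges of a walk through distinct sites are distinct. -/
theorem nodup_path_edges : ∀ {p : List (Fin n)}, p.Nodup →
    ((walkEdges p).map fun q => s(q.1, q.2)).Nodup
  | [], _ => by simp [walkEdges]
  | [_], _ => by simp [walkEdges]
  | a :: b :: t, h => by
    simp only [walkEdges, List.map_cons, List.nodup_cons]
    refine ⟨?_, nodup_path_edges (List.nodup_cons.1 h).2⟩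
    intro hm
    obtain ⟨q, hq, hqe⟩ := List.mem_map.1 hm
    obtain ⟨h1, h2⟩ := walkEdges_subset hq
    rcases Sym2.eq_iff.1 hqe with ⟨h3, _⟩ | ⟨_, h3⟩
    · exact (List.nodup_cons.1 h).1 (h3 ▸ h1)
    · exact (List.nodup_cons.1 h).1 (h3 ▸ h2)

theorem walkEdges_take {V : Type*} : ∀ (p : List V) (i : ℕ) {q : V × V},
    q ∈ walkEdges (p.take i) → q ∈ walkEdges p
  | [], i, q, h => by simp [walkEdges] at h
  | [_], 0, q, h => by simp [walkEdges] at h
  | [_], i + 1, q, h => by simp [walkEdges] at h
  | a :: b :: t, 0, q, h => by simp [walkEdges] at h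
  | a :: b :: t, 1, q, h => by simp [walkEdges] at h
  | a :: b :: t, i + 2, q, h => by
    simp only [List.take_succ_cons, walkEdges, List.mem_cons] at h ⊢
    rcases h with rfl | h
    · exact Or.inl rfl
    · exact Or.inr (walkEdges_take (b :: t) (i + 1) (by simpa using h))

theorem walkEdges_concat {V : Type*} : ∀ (t : List V) (a x : V),
    walkEdges ((a :: t) ++ [x]) = walkEdges (a :: t) ++ [((a :: t).getLast (by simp), x)]
  | [], a, x => rfl
  | b :: t, a, x => by
    have := walkEdges_concat t b x
    simp only [List.cons_append] at this ⊢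
    simp [walkEdges, this]

/-- A path that can be prolonged at its head produces a cycle. -/
theorem exists_cycle_aux (α : Edge n → ℕ) (hloop : ∀ a, α s(a, a) = 0)
    (heven : ∀ a, Even (degree α a)) : ∀ (fuel : ℕ) (v w : Fin n) (p : List (Fin n)),
    (v :: w :: p).Nodup → (∀ q ∈ walkEdges (v :: w :: p), 1 ≤ α s(q.1, q.2)) →
    n < fuel + (v :: w :: p).length →
    ∃ c : List (Fin n), c.Nodup ∧ 2 ≤ c.length ∧ ∀ e, ordOf (cycE c) e ≤ α e
  | 0, v, w, p, hnd, _, hlen => by
    have h := List.Nodup.length_le_card hnd
    simp only [Fintype.card_fin] at h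
    omega
  | fuel + 1, v, w, p, hnd, hed, hlen => by
    have hvw : v ≠ w := fun h => (List.nodup_cons.1 hnd).1 (by simp [h])
    have h1 : 1 ≤ α s(v, w) := hed (v, w) (by simp [walkEdges])
    obtain ⟨u, huv, hu1, hu2⟩ : ∃ u, u ≠ v ∧ 1 ≤ α s(v, u) ∧ (u = w → 2 ≤ α s(v, w)) := by
      by_contra hno
      push Not at hno
      have h2 : α s(v, w) < 2 := (hno w hvw.symm h1).2
      have hd : degree α v = α s(v, w) := by
        rw [degree, Finset.sum_eq_single w]
        · simp [hvw.symm]
        · intro b _ hb
          by_cases hbv : b = v
          · simp [hbv, hloop]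
          · rw [if_neg hbv]
            by_contra h0
            exact hb (hno b hbv (Nat.pos_of_ne_zero h0)).1
        · simp
      have := heven v
      rw [hd, Nat.even_iff] at this
      omega
    by_cases hmem : u ∈ v :: w :: p
    · obtain ⟨i, hi, hiu⟩ := List.mem_iff_getElem.1 hmem
      have hi0 : i ≠ 0 := by
        rintro rfl
        exact huv (by simpa using hiu.symm)
      refine ⟨(v :: w :: p).take (i + 1), hnd.sublist (List.take_sublist _ _), ?_, fun e => ?_⟩
      · simp only [List.length_take]
        omega
      have hne : (v :: w :: p).take (i + 1) ≠ [] := by simp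
      have hlast : ((v :: w :: p).take (i + 1)).getLast hne = u := by
        rw [List.getLast_take]
        simp only [Nat.add_sub_cancel, List.getElem?_eq_getElem hi, Option.getD_some, hiu]
      obtain ⟨j, rfl⟩ := Nat.exists_eq_succ_of_ne_zero hi0
      have hc : cycE ((v :: w :: p).take (j + 1 + 1)) =
          walkEdges ((v :: w :: p).take (j + 1 + 1)) ++ [(u, v)] := by
        have := walkEdges_concat ((w :: p).take (j + 1)) v v
        simp only [List.take_succ_cons, cycE, close] at this hlast ⊢
        rw [this, hlast]
      rw [hc, ordOf_append]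
      have hle : ordOf (walkEdges ((v :: w :: p).take (j + 1 + 1))) e ≤ 1 :=
        List.nodup_iff_count_le_one.1
          (nodup_path_edges (hnd.sublist (List.take_sublist _ _))) e
      have hin : ordOf (walkEdges ((v :: w :: p).take (j + 1 + 1))) e ≠ 0 → 1 ≤ α e := by
        intro h0
        obtain ⟨q, hq, rfl⟩ := List.mem_map.1 (List.count_pos_iff.1 (Nat.pos_of_ne_zero h0))
        exact hed q (walkEdges_take _ _ hq)
      by_cases he : s(u, v) = e
      · subst he
        have h3 : ordOf [(u, v)] s(u, v) = 1 := by simp [ordOf]
        rw [h3, Sym2.eq_swap (a := u) (b := v)] at *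
        rcases Nat.eq_zero_or_pos (ordOf (walkEdges ((v :: w :: p).take (j + 1 + 1))) s(v, u))
          with h0 | h0
        · omega
        · obtain ⟨q, hq, hqe⟩ :=
            List.mem_map.1 (List.count_pos_iff.1 (show 0 < ordOf _ _ from h0))
          simp only [List.take_succ_cons] at hq
          have hwu : u = w := by
            rw [walkEdges] at hq
            rcases List.mem_cons.1 hq with rfl | hq
            · exact (Sym2.congr_right.1 hqe).symm
            · have hv : v ∉ w :: p := (List.nodup_cons.1 hnd).1
              obtain ⟨q1, q2⟩ := walkEdges_subset hq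
              have hsub : (w :: p.take j) ⊆ w :: p :=
                (List.Sublist.cons_cons w (List.take_sublist _ _)).subset
              rcases Sym2.eq_iff.1 hqe with ⟨h4, _⟩ | ⟨_, h4⟩
              · exact absurd (hsub (h4 ▸ q1)) hv
              · exact absurd (hsub (h4 ▸ q2)) hv
          have := hu2 hwu
          subst hwu
          omega
      · have h3 : ordOf [(u, v)] e = 0 := by simp [ordOf, he]
        rw [h3]
        rcases Nat.eq_zero_or_pos (ordOf (walkEdges ((v :: w :: p).take (j + 1 + 1))) e)
          with h0 | h0
        · omega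
        · have := hin (by omega)
          omega
    · refine exists_cycle_aux α hloop heven fuel u v (w :: p) (List.nodup_cons.2 ⟨hmem, hnd⟩)
        (fun q hq => ?_) (by simp only [List.length_cons] at hlen ⊢; omega)
      rw [walkEdges] at hq
      rcases List.mem_cons.1 hq with rfl | hq
      · rw [Sym2.eq_swap]; exact hu1
      · exact hed q hq

theorem exists_cycle {α : Edge n → ℕ} (hne : ∃ e, α e ≠ 0) (hloop : ∀ a, α s(a, a) = 0)
    (heven : ∀ a, Even (degree α a)) :
    ∃ c : List (Fin n), c.Nodup ∧ 2 ≤ c.length ∧ ∀ e, ordOf (cycE c) e ≤ α e := by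
  obtain ⟨e, he⟩ := hne
  induction e using Sym2.ind with
  | _ v w =>
    have hvw : v ≠ w := fun h => he (h ▸ hloop v)
    exact exists_cycle_aux α hloop heven n v w [] (by simp [hvw])
      (by simp [walkEdges]; exact Nat.pos_of_ne_zero he) (by simp)

/-- Decomposition into simple cycles. -/
theorem exists_decomp : ∀ (m : ℕ) (α : Edge n → ℕ), ∑ e, α e = m → (∀ a, α s(a, a) = 0) →
    (∀ a, Even (degree α a)) →
    ∃ C : List (List (Fin n)), (∀ c ∈ C, c.Nodup ∧ 2 ≤ c.length) ∧
      ∀ e, ordOf (C.flatMap cycE) e = α e := by
  intro m
  induction m using Nat.strong_induction_on with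
  | _ m ih =>
    intro α hm hloop heven
    by_cases hne : ∃ e, α e ≠ 0
    · obtain ⟨c, hnd, hlen, hle⟩ := exists_cycle hne hloop heven
      obtain ⟨γ, hγ⟩ : ∃ γ : Edge n → ℕ, α = ordOf (cycE c) + γ :=
        ⟨fun e => α e - ordOf (cycE c) e, funext fun e => by
          simp only [Pi.add_apply]; have := hle e; omega⟩
      have hsum : (∑ e, γ e) + c.length = m := by
        rw [← hm, hγ]
        simp only [Pi.add_apply, Finset.sum_add_distrib, sum_ordOf, length_cycE]
        ring
      have hγloop : ∀ a, γ s(a, a) = 0 := fun a => by
        have := hloop a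
        rw [hγ, Pi.add_apply] at this
        omega
      have hγeven : ∀ a, Even (degree γ a) := fun a => by
        have := heven a
        rw [hγ, degree_add, degree_ordOf, ends_cycE, Nat.even_add] at this
        exact this.1 (even_two_mul _)
      obtain ⟨C, hC, hCe⟩ := ih (∑ e, γ e) (by omega) γ rfl hγloop hγeven
      refine ⟨c :: C, ?_, fun e => ?_⟩
      · simpa using ⟨⟨hnd, hlen⟩, hC⟩
      · rw [List.flatMap_cons, ordOf_append, hCe, hγ, Pi.add_apply]
    · push Not at hne
      exact ⟨[], by simp, fun e => by simp [ordOf, hne e]⟩

theorem sys_close (C : List (List (Fin n))) :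
    sysEdges (C.map close) = C.flatMap cycE := by
  simp [sysEdges, List.flatMap_map]
  rfl

theorem sysVerts_close (C : List (List (Fin n))) :
    sysVerts (C.map close) = C.flatten.toFinset := by
  ext a
  simp only [sysVerts, List.mem_toFinset, List.mem_flatten, List.mem_map]
  constructor
  · rintro ⟨_, ⟨c, hc, rfl⟩, ha⟩
    refine ⟨c, hc, ?_⟩
    simpa [close_toFinset] using List.mem_toFinset.2 ha
  · rintro ⟨c, hc, ha⟩
    refine ⟨close c, ⟨c, hc, rfl⟩, ?_⟩
    rw [← List.mem_toFinset, close_toFinset, List.mem_toFinset]
    exact ha

theorem length_flatMap_cycE (C : List (List (Fin n))) :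
    (C.flatMap cycE).length = C.flatten.length := by
  induction C with
  | nil => rfl
  | cons c C ih => simp [ih, length_cycE]

theorem length_le_filter {α : Type*} (p : α → Bool) :
    ∀ C : List (List α), (∀ c ∈ C, ∃ a ∈ c, p a) → C.length ≤ (C.flatten.filter p).length
  | [], _ => by simp
  | c :: C, h => by
    have h1 := length_le_filter p C fun d hd => h d (by simp [hd])
    obtain ⟨a, ha, hpa⟩ := h c (by simp)
    have : 1 ≤ (c.filter p).length :=
      List.length_pos_of_mem (List.mem_filter.2 ⟨ha, hpa⟩)
    simp only [List.flatten_cons, List.filter_append, List.length_append, List.length_cons]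
    omega

theorem crowded_le {α : Type*} [DecidableEq α] (l : List α) :
    (l.filter fun a => decide (2 ≤ l.count a)).length ≤ 2 * (l.length - l.toFinset.card) := by
  have h1 : (l.filter fun a => decide (2 ≤ l.count a)).length =
      ∑ a ∈ l.toFinset, if 2 ≤ l.count a then l.count a else 0 := by
    rw [← List.sum_toFinset_count_eq_length (l.filter fun a => decide (2 ≤ l.count a))]
    rw [Finset.sum_subset (s₂ := l.toFinset)]
    · refine Finset.sum_congr rfl fun a _ => ?_
      split_ifs with h
      · exact List.count_filter (by simpa using h)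
      · exact List.count_eq_zero.2 fun hm => h (by simpa using (List.mem_filter.1 hm).2)
    · intro a ha
      simp only [List.mem_toFinset] at ha ⊢
      exact (List.mem_filter.1 ha).1
    · intro a _ ha
      exact List.count_eq_zero.2 fun hm => ha (List.mem_toFinset.2 hm)
  have h2 : ∀ a ∈ l.toFinset,
      (if 2 ≤ l.count a then l.count a else 0) + 2 ≤ 2 * l.count a := fun a ha => by
    have := List.count_pos_iff.2 (List.mem_toFinset.1 ha)
    split_ifs <;> omega
  have h3 := Finset.sum_le_sum h2
  rw [Finset.sum_add_distrib, Finset.sum_const, smul_eq_mul, ← Finset.mul_sum,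
    List.sum_toFinset_count_eq_length, ← h1] at h3
  omega

theorem length_multiList (α : Edge n → ℕ) : (multiList α).length = ∑ e, α e := by
  simp only [multiList, List.length_flatMap, List.length_replicate]
  rw [← Finset.sum_map_toList]

theorem count_multi (α : Edge n → ℕ) (x : Edge n) : (multiList α).count x = α x := by
  simp only [multiList, List.count_flatMap, Function.comp_def, List.count_replicate]
  rw [Finset.sum_map_toList Finset.univ]
  simp

theorem perm_multiList {α : Edge n → ℕ} {L : List (Fin n × Fin n)}
    (h : ∀ e, ordOf L e = α e) : (L.map fun p => s(p.1, p.2)).Perm (multiList α) :=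
  List.perm_iff_count.2 fun e => by rw [count_multi]; exact h e

end Comb

open Comb

/-- Every even multigraph has a free cycle or is entangled. -/
theorem even_cover {k : ℕ} (hk : 1 ≤ k) {α : Edge n → ℕ} (hα : α ∈ orders (Edge n) k)
    (hloop : ∀ a, α s(a, a) = 0) (heven : ∀ a, Even (degree α a)) :
    Entangled α ∨ HasFreeCycle α := by
  have _ := hk
  have hsum : ∑ e, α e = k := (Finset.mem_piAntidiag.1 hα).1
  obtain ⟨C, hC, hCe⟩ := exists_decomp k α hsum hloop heven
  by_cases hfree : ∃ cy ∈ C, ∀ a ∈ cy, C.flatten.count a < 2
  · right
    obtain ⟨cy, hc, hone⟩ := hfree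
    obtain ⟨C1, C2, rfl⟩ := List.mem_iff_append.1 hc
    obtain ⟨l, hl⟩ := Nat.exists_eq_add_of_le' (hC cy hc).2
    have hcv : (List.ofFn fun i : Fin (l + 2) => cy[i.1]'(by omega)) = cy :=
      List.ext_getElem (by simp [hl]) fun i h1 h2 => by simp only [List.getElem_ofFn]
    refine ⟨l, fun i => cy[i.1]'(by omega), ordOf ((C1 ++ C2).flatMap cycE), fun i j hij => ?_,
      fun e => ?_, fun e he i => ?_⟩
    · exact Fin.ext ((hC cy hc).1.getElem_inj_iff.1 hij)
    · have hcyc : cycOrd (fun i : Fin (l + 2) => cy[i.1]'(by omega)) e = ordOf (cycE cy) e := by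
        simp only [cycOrd, ordOf, cycE]
        have : close cy = cy ++ [cy[0]'(by omega)] := by
          cases cy with
          | nil => simp at hl
          | cons x t => rfl
        rw [this, hcv]
        rfl
      rw [hcyc, ← hCe e]
      simp only [List.flatMap_append, List.flatMap_cons, ordOf_append]
      omega
    · intro hmem
      obtain ⟨q, hq, rfl⟩ := List.mem_map.1 (List.count_pos_iff.1 (Nat.pos_of_ne_zero he))
      obtain ⟨d, hd, hqd⟩ := List.mem_flatMap.1 hq
      obtain ⟨h1, h2⟩ := walkEdges_subset hqd
      have hin : cy[i.1]'(by omega) ∈ d := by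
        rw [← List.mem_toFinset, ← close_toFinset, List.mem_toFinset]
        rcases Sym2.mem_iff.1 hmem with h | h
        · exact (show cy[i.1]'(by omega) = q.1 from h).symm ▸ h1
        · exact (show cy[i.1]'(by omega) = q.2 from h).symm ▸ h2
      have hcount := hone (cy[i.1]'(by omega)) (List.getElem_mem _)
      have hc1 : 1 ≤ cy.count (cy[i.1]'(by omega)) := List.count_pos_iff.2 (List.getElem_mem _)
      have hd1 : 1 ≤ (C1 ++ C2).flatten.count (cy[i.1]'(by omega)) :=
        List.count_pos_iff.2 (List.mem_flatten.2 ⟨d, hd, hin⟩)
      simp only [List.flatten_append, List.flatten_cons, List.count_append] at hcount hd1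
      omega
  · left
    push Not at hfree
    refine ⟨C.map close, ⟨?_, ?_⟩, ?_⟩
    · intro w hw
      obtain ⟨cy, hc, rfl⟩ := List.mem_map.1 hw
      have := (hC cy hc).2
      rw [close_length (by intro h; simp [h] at this)]
      omega
    · exact perm_multiList fun e => by rw [sys_close]; exact hCe e
    · rw [List.length_map, excess, sys_close, sysVerts_close, length_flatMap_cycE]
      refine le_trans ?_ (crowded_le C.flatten)
      exact length_le_filter _ C fun cy hc => by simpa using hfree cy hc

theorem excess_pos {ws : List (List (Fin n))} (hne : ws ≠ [])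
    (hR : ws.length ≤ 2 * excess ws) : 1 ≤ excess ws := by
  have := List.length_pos_of_ne_nil hne
  omega

namespace Comb

/-- Cut a list into pieces of given lengths. -/
def cut {α : Type*} : List ℕ → List α → List (List α)
  | [], _ => []
  | m :: ms, w => w.take m :: cut ms (w.drop m)

theorem cut_flatten {α : Type*} : ∀ (ws : List (List α)) (rest : List α),
    cut (ws.map List.length) (ws.flatten ++ rest) = ws
  | [], _ => rfl
  | w :: ws, rest => by
    simp [cut, List.append_assoc, cut_flatten ws rest]

theorem sysEdges_length (ws : List (List (Fin n))) (h : ∀ w ∈ ws, 1 ≤ w.length) :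
    (sysEdges ws).length + ws.length = ws.flatten.length := by
  induction ws with
  | nil => rfl
  | cons w ws ih =>
    have h1 := h w (by simp)
    have h2 := ih fun v hv => h v (by simp [hv])
    simp only [sysEdges] at h2
    simp only [sysEdges, List.flatMap_cons, List.length_append, walkEdges_length,
      List.flatten_cons, List.length_cons]
    omega

/-- Words of length `P` with exactly `V` distinct letters are few. -/
theorem card_words (P V : ℕ) :
    ((Finset.univ : Finset (Fin P → Fin n)).filter fun W =>
      (Finset.univ.image W).card = V).card ≤ P.choose V * (n ^ V * V ^ (P - V)) := by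
  classical
  let code : Finset (Σ S : Finset (Fin P), ({i // i ∈ S} → Fin n) ×
      ({i // i ∉ S} → {i // i ∈ S})) :=
    (Finset.powersetCard V (Finset.univ : Finset (Fin P))).sigma fun _ => Finset.univ
  let dec : (Σ S : Finset (Fin P), ({i // i ∈ S} → Fin n) ×
      ({i // i ∉ S} → {i // i ∈ S})) → (Fin P → Fin n) :=
    fun x i => if h : i ∈ x.1 then x.2.1 ⟨i, h⟩ else x.2.1 (x.2.2 ⟨i, h⟩)
  calc _ ≤ (code.image dec).card := by
        refine Finset.card_le_card fun W hW => ?_
        have hV : (Finset.univ.image W).card = V := (Finset.mem_filter.1 hW).2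
        have hex : ∀ v : {v // v ∈ Finset.univ.image W}, ∃ i, W i = v.1 := fun v => by
          exact (Finset.mem_image.1 v.2).imp fun i hi => hi.2
        choose r hr using hex
        let S : Finset (Fin P) := Finset.univ.image r
        have hS : S.card = V := by
          rw [Finset.card_image_of_injective]
          · simpa using hV
          · intro v v' h
            exact Subtype.ext (by rw [← hr v, ← hr v', h])
        let g : Fin P → {i // i ∈ S} := fun i =>
          ⟨r ⟨W i, by simp⟩, Finset.mem_image.2 ⟨⟨W i, by simp⟩, by simp, rfl⟩⟩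
        refine Finset.mem_image.2 ⟨⟨S, fun i => W i.1, fun i => g i.1⟩, ?_, funext fun i => ?_⟩
        · exact Finset.mem_sigma.2
            ⟨Finset.mem_powersetCard.2 ⟨Finset.subset_univ _, hS⟩, Finset.mem_univ _⟩
        · simp only [dec]
          split_ifs with h
          · rfl
          · exact hr ⟨W i, by simp⟩
    _ ≤ code.card := Finset.card_image_le
    _ = _ := by
        rw [Finset.card_sigma, Finset.sum_eq_card_nsmul (b := n ^ V * V ^ (P - V))]
        · simp
        · intro S hS
          have hc : S.card = V := (Finset.mem_powersetCard.1 hS).2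
          simp [Fintype.card_subtype_compl, hc]

theorem code_bound {k e : ℕ} (he : 1 ≤ e) (hek : e ≤ k) :
    (k + 2) ^ (2 * e) * ((k + 2 * e).choose (k - e) * (n ^ (k - e) * (k - e) ^ (3 * e))) ≤
      n ^ (k - e) * (4 * k) ^ (10 * e) := by
  have hk : 1 ≤ k := he.trans hek
  have h1 : (k + 2 * e).choose (k - e) ≤ (4 * k) ^ (3 * e) := by
    rw [Nat.choose_symm_of_eq_add (show k + 2 * e = (k - e) + 3 * e by omega)]
    exact (Nat.choose_le_pow _ _).trans (Nat.pow_le_pow_left (by omega) _)
  have h2 : (k + 2) ^ (2 * e) ≤ (4 * k) ^ (2 * e) := Nat.pow_le_pow_left (by omega) _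
  have h3 : (k - e) ^ (3 * e) ≤ (4 * k) ^ (3 * e) := Nat.pow_le_pow_left (by omega) _
  calc _ ≤ (4 * k) ^ (2 * e) * ((4 * k) ^ (3 * e) * (n ^ (k - e) * (4 * k) ^ (3 * e))) := by
        gcongr
    _ = n ^ (k - e) * (4 * k) ^ (8 * e) := by ring
    _ ≤ _ := Nat.mul_le_mul_left _ (Nat.pow_le_pow_right (by omega) (by omega))

end Comb

open Classical in
/-- There are few entangled multigraphs of given excess. -/
theorem entangled_card (hn : 1 ≤ n) (k e : ℕ) (he : 1 ≤ e) :
    ((orders (Edge n) k).filter fun α =>
      ∃ ws, SysOf α ws ∧ ws.length ≤ 2 * excess ws ∧ excess ws = e).card ≤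
      n ^ (k - e) * (4 * k) ^ (10 * e) := by
  have _ := hn
  let Wset := (Finset.univ : Finset (Fin (k + 2 * e) → Fin n)).filter fun W =>
    (Finset.univ.image W).card = k - e
  let dec : (Fin (2 * e) → Fin (k + 2)) × (Fin (k + 2 * e) → Fin n) → (Edge n → ℕ) :=
    fun x => ordOf (sysEdges
      (cut (((List.ofFn x.1).map Fin.val).filter fun m => decide (m ≠ 0)) (List.ofFn x.2)))
  set A := (orders (Edge n) k).filter fun α =>
      ∃ ws, SysOf α ws ∧ ws.length ≤ 2 * excess ws ∧ excess ws = e
  by_cases hek : e ≤ k
  swap
  · have : A = ∅ := by
      refine Finset.eq_empty_of_forall_notMem fun α hα => ?_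
      obtain ⟨hαk, ws, ⟨_, hperm⟩, _, hex⟩ := Finset.mem_filter.1 hα
      have hl := hperm.length_eq
      rw [List.length_map, length_multiList, (Finset.mem_piAntidiag.1 hαk).1] at hl
      simp only [excess] at hex
      omega
    simp [this]
  calc A.card ≤ ((Finset.univ ×ˢ Wset).image dec).card := by
        refine Finset.card_le_card fun α hα => ?_
        obtain ⟨hαk, ws, ⟨hlen, hperm⟩, hR, hex⟩ := Finset.mem_filter.1 hα
        have hl := hperm.length_eq
        rw [List.length_map, length_multiList, (Finset.mem_piAntidiag.1 hαk).1] at hl
        have hV : (sysVerts ws).card = k - e := by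
          simp only [excess] at hex
          omega
        rw [hex] at hR
        have hflat := sysEdges_length ws fun w hw => le_trans (by norm_num) (hlen w hw)
        have hwl : ∀ w ∈ ws, w.length < k + 2 := fun w hw => by
          have h1 : (walkEdges w).length ≤ (sysEdges ws).length :=
            List.Sublist.length_le (by
              obtain ⟨l1, l2, rfl⟩ := List.mem_iff_append.1 hw
              simp only [sysEdges, List.flatMap_append, List.flatMap_cons]
              exact (List.sublist_append_left _ _).trans (List.sublist_append_right _ _))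
          rw [walkEdges_length] at h1
          omega
        have hpos : 0 < ws.flatten.length := by omega
        let z : Fin n := ws.flatten[0]
        let W : Fin (k + 2 * e) → Fin n := fun i =>
          if h : i.1 < ws.flatten.length then ws.flatten[i.1] else z
        let lens : Fin (2 * e) → Fin (k + 2) := fun i =>
          if h : i.1 < ws.length then ⟨ws[i.1].length, hwl _ (List.getElem_mem h)⟩ else 0
        have hW : List.ofFn W =
            ws.flatten ++ List.replicate (k + 2 * e - ws.flatten.length) z := by
          refine List.ext_getElem (by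
            simp only [List.length_ofFn, List.length_append, List.length_replicate]
            omega) fun i h1 h2 => ?_
          simp only [List.getElem_ofFn, W, List.getElem_append, List.getElem_replicate]
        have hlens : (List.ofFn lens).map Fin.val =
            ws.map List.length ++ List.replicate (2 * e - ws.length) 0 := by
          refine List.ext_getElem (by simp; omega) fun i h1 h2 => ?_
          simp only [List.getElem_map, List.getElem_ofFn, lens, List.getElem_append,
            List.getElem_replicate, List.length_map]
          split_ifs <;> simp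
        refine Finset.mem_image.2 ⟨(lens, W), Finset.mem_product.2
          ⟨Finset.mem_univ _, Finset.mem_filter.2 ⟨Finset.mem_univ _, ?_⟩⟩, ?_⟩
        · rw [← hV]
          congr 1
          ext a
          simp only [sysVerts, List.mem_toFinset, Finset.mem_image, Finset.mem_univ, true_and]
          rw [← List.mem_ofFn, hW, List.mem_append, List.mem_replicate]
          refine ⟨?_, Or.inl⟩
          rintro (h | ⟨_, rfl⟩)
          · exact h
          · exact List.getElem_mem hpos
        · have hf : ((List.ofFn lens).map Fin.val).filter (fun m => decide (m ≠ 0)) =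
              ws.map List.length := by
            rw [hlens, List.filter_append, List.filter_eq_self.2, List.filter_eq_nil_iff.2,
              List.append_nil]
            · intro m hm; simp [(List.mem_replicate.1 hm).2]
            · intro m hm
              obtain ⟨w, hw, rfl⟩ := List.mem_map.1 hm
              have := hlen w hw
              simp only [decide_eq_true_eq]
              omega
          simp only [dec]
          rw [hf, hW, cut_flatten]
          funext d
          rw [ordOf, hperm.count_eq, count_multi]
    _ ≤ (Finset.univ ×ˢ Wset).card := Finset.card_image_le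
    _ ≤ (k + 2) ^ (2 * e) *
          ((k + 2 * e).choose (k - e) * (n ^ (k - e) * (k - e) ^ (3 * e))) := by
        rw [Finset.card_product]
        refine Nat.mul_le_mul (by simp) ?_
        have := card_words (n := n) (k + 2 * e) (k - e)
        rwa [show k + 2 * e - (k - e) = 3 * e by omega] at this
    _ ≤ _ := code_bound he hek

end Vale.Agent.P146
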