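import Vale.Agent.P146.Claim
import Vale.Agent.P146.Cycle
import Vale.Agent.P146.Graph
import Vale.Agent.P146.Interp

/-!
Assembly: the variance of the free energy is at most `C n^(1-1/64)`.
-/

namespace Vale.Agent.P146

open MeasureTheory ProbabilityTheory Filter Topology

variable {n : ℕ}

theorem sum_biUnion_le_of_nonneg {ι α : Type*} [DecidableEq α] {f : α → ℝ} (hf : ∀ a, 0 ≤ f a) (s : Finset ι)
    (t : ι → Finset α) : ∑ a ∈ s.biUnion t, f a ≤ ∑ i ∈ s, ∑ a ∈ t i, f a := by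
  classical
  induction s using Finset.induction_on with
  | empty => simp
  | insert i s hi ih =>
    rw [Finset.biUnion_insert, Finset.sum_insert hi]
    have h := Finset.sum_union_inter (s₁ := t i) (s₂ := s.biUnion t) (f := f)
    have h0 : 0 ≤ ∑ a ∈ t i ∩ s.biUnion t, f a := Finset.sum_nonneg fun a _ => hf a
    linarith

theorem wgt_nonneg {ι : Type*} [Fintype ι] (α : ι → ℕ) : 0 ≤ wgt α := by
  unfold wgt; positivity

theorem wgt_le_one {ι : Type*} [Fintype ι] (α : ι → ℕ) : wgt α ≤ 1 := by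
  unfold wgt
  refine inv_le_one_of_one_le₀ ?_
  exact_mod_cast Nat.one_le_iff_ne_zero.2
    (Finset.prod_ne_zero_iff.2 fun e _ => (α e).factorial_ne_zero)

theorem length_multiList {ι : Type*} [Fintype ι] (α : ι → ℕ) :
    (multiList α).length = ∑ e, α e := by
  simp [multiList, List.length_flatMap]

theorem pair_ne_of_sys {α : Edge n → ℕ} {ws : List (List (Fin n))} (hs : SysOf α ws)
    (hloop : ∀ a, α s(a, a) = 0) : ∀ p ∈ sysEdges ws, p.1 ≠ p.2 := by
  intro p hp heq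
  have hmem : s(p.1, p.2) ∈ multiList α := hs.2.mem_iff.1 (List.mem_map.2 ⟨p, hp, rfl⟩)
  simp only [multiList, List.mem_flatMap, List.mem_replicate] at hmem
  obtain ⟨e, -, hne, he⟩ := hmem
  rw [← he, ← heq] at hne
  exact hne (hloop _)

open Classical in
/-- One term of the entangled sum. -/
theorem entangled_term {β : ℝ} {K : ℕ} (hB : Big β n K) {k e : ℕ} (hk : k ≤ K) (hk1 : 1 ≤ k)
    {α : Edge n → ℕ} (hα : α ∈ orders (Edge n) k)
    (hw : ∃ ws, SysOf α ws ∧ ws.length ≤ 2 * excess ws ∧ excess ws = e) :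
    wgt α * coefOf (Fen β) α ^ 2 ≤ (Lam β K ^ e) ^ 2 / (n : ℝ) ^ k := by
  obtain ⟨hn, -⟩ := big_facts hB
  have hnp : (0 : ℝ) < n := Nat.cast_pos.2 (Nat.pos_of_ne_zero hn)
  by_cases hloop : ∃ a, α s(a, a) ≠ 0
  · rw [coef_diag_zero β α hloop]
    simp only [ne_eq, OfNat.ofNat_ne_zero, not_false_eq_true, zero_pow, mul_zero]
    positivity
  push Not at hloop
  obtain ⟨ws, hs, hR, he⟩ := hw
  have hlen : (sysEdges ws).length = k := by
    have h := hs.2.length_eq
    rw [List.length_map, length_multiList] at h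
    rw [h]
    exact (Finset.mem_piAntidiag.1 hα).1
  have hne : ws ≠ [] := by
    rintro rfl
    simp [sysEdges] at hlen
    omega
  have hc := chat_le hB ws hne hs.1 hR (hlen ▸ hk)
  rw [chat_eq_coef β _ (pair_ne_of_sys hs hloop) α hs.2, hlen, he] at hc
  have h2 := pow_le_pow_left₀ (abs_nonneg _) hc 2
  rw [sq_abs, mul_pow, ← pow_mul, mul_comm k 2, pow_mul, Real.sq_sqrt hnp.le] at h2
  rw [le_div_iff₀ (by positivity)]
  calc wgt α * coefOf (Fen β) α ^ 2 * (n : ℝ) ^ k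
      ≤ 1 * coefOf (Fen β) α ^ 2 * (n : ℝ) ^ k := by gcongr; exact wgt_le_one α
    _ = (n : ℝ) ^ k * coefOf (Fen β) α ^ 2 := by ring
    _ ≤ _ := h2

theorem entangled_const {β : ℝ} {K : ℕ} (hB : Big β n K) :
    (K : ℝ) ^ 2 * ((4 * (K : ℝ)) ^ 10 * Lam β K ^ 2) ≤ n := by
  obtain ⟨hK, hβ, hn⟩ := hB
  have hb : (1 : ℝ) ≤ 1 + β := by linarith
  calc (K : ℝ) ^ 2 * ((4 * (K : ℝ)) ^ 10 * Lam β K ^ 2)
      = (4 ^ 10 * 100 ^ 48) * ((1 + β) ^ 48 * (K : ℝ) ^ 60) := by simp only [Lam]; ring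
    _ ≤ 100000 ^ 60 * ((1 + β) ^ 60 * (K : ℝ) ^ 60) := by
        refine mul_le_mul (by norm_num) ?_ (by positivity) (by positivity)
        exact mul_le_mul_of_nonneg_right (pow_le_pow_right₀ hb (by norm_num)) (by positivity)
    _ = (100000 * (1 + β) * (K : ℝ)) ^ 60 := by ring
    _ ≤ n := hn

/-- The count of entangled orders of excess `e` times the size of one term. -/
theorem count_mul_term {m c L : ℝ} {k e : ℕ} (hm : 0 < m) (hek : e ≤ k) :
    m ^ (k - e) * c ^ (10 * e) * ((L ^ e) ^ 2 / m ^ k) = (c ^ 10 * L ^ 2 / m) ^ e := by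
  have hk : m ^ k = m ^ (k - e) * m ^ e := by
    rw [← pow_add, Nat.sub_add_cancel hek]
  rw [hk, div_pow, mul_pow]
  field_simp
  rw [← pow_mul, ← pow_mul, ← pow_mul, Nat.mul_comm e 2]

open Classical in
/-- The entangled orders of excess `e`. -/
theorem entangled_excess {β : ℝ} {K : ℕ} (hB : Big β n K) {k e : ℕ} (hk : k ≤ K) (he : 1 ≤ e)
    (hek : e ≤ k) (hx : (4 * (K : ℝ)) ^ 10 * Lam β K ^ 2 / n ≤ 1) :
    ∑ α ∈ (orders (Edge n) k).filter (fun α =>
        ∃ ws, SysOf α ws ∧ ws.length ≤ 2 * excess ws ∧ excess ws = e),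
      wgt α * coefOf (Fen β) α ^ 2 ≤ (4 * (K : ℝ)) ^ 10 * Lam β K ^ 2 / n := by
  obtain ⟨hn, -⟩ := big_facts hB
  have hnp : (0 : ℝ) < n := Nat.cast_pos.2 (Nat.pos_of_ne_zero hn)
  refine le_trans (Finset.sum_le_card_nsmul _ _ ((Lam β K ^ e) ^ 2 / (n : ℝ) ^ k) fun α hα => ?_) ?_
  · exact entangled_term hB hk (le_trans he hek) (Finset.mem_filter.1 hα).1 (Finset.mem_filter.1 hα).2
  rw [nsmul_eq_mul]
  refine le_trans (mul_le_mul_of_nonneg_right
    (Nat.cast_le.2 (entangled_card (Nat.pos_of_ne_zero hn) k e he)) (by positivity)) ?_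
  push_cast
  rw [count_mul_term hnp hek]
  have hkK : (k : ℝ) ≤ K := by exact_mod_cast hk
  have hle : (4 * (k : ℝ)) ^ 10 * Lam β K ^ 2 / n ≤ (4 * (K : ℝ)) ^ 10 * Lam β K ^ 2 / n := by
    gcongr
  refine le_trans ?_ hle
  exact pow_le_of_le_one (by positivity) (le_trans hle hx) (by omega)

open Classical in
/-- The entangled orders of one size. -/
theorem entangled_order {β : ℝ} {K : ℕ} (hB : Big β n K) {k : ℕ} (hk : k ≤ K) (hk1 : 1 ≤ k)
    (hx : (4 * (K : ℝ)) ^ 10 * Lam β K ^ 2 / n ≤ 1) :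
    ∑ α ∈ (orders (Edge n) k).filter (fun α => Entangled α),
      wgt α * coefOf (Fen β) α ^ 2 ≤ K * ((4 * (K : ℝ)) ^ 10 * Lam β K ^ 2 / n) := by
  have hsub : (orders (Edge n) k).filter (fun α => Entangled α) ⊆
      (Finset.Icc 1 k).biUnion fun e => (orders (Edge n) k).filter fun α =>
        ∃ ws, SysOf α ws ∧ ws.length ≤ 2 * excess ws ∧ excess ws = e := by
    intro α hα
    rw [Finset.mem_filter] at hα
    obtain ⟨hα, ws, hs, hR⟩ := hα
    have hlen : (sysEdges ws).length = k := by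
      have h := hs.2.length_eq
      rw [List.length_map, length_multiList] at h
      rw [h]
      exact (Finset.mem_piAntidiag.1 hα).1
    have hne : ws ≠ [] := by
      rintro rfl
      simp [sysEdges] at hlen
      omega
    refine Finset.mem_biUnion.2 ⟨excess ws, Finset.mem_Icc.2 ⟨excess_pos hne hR, ?_⟩,
      Finset.mem_filter.2 ⟨hα, ws, hs, hR, rfl⟩⟩
    unfold excess; omega
  have hnn : ∀ α : Edge n → ℕ, 0 ≤ wgt α * coefOf (Fen β) α ^ 2 := fun α =>
    mul_nonneg (wgt_nonneg α) (sq_nonneg _)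
  refine le_trans (Finset.sum_le_sum_of_subset_of_nonneg hsub fun α _ _ => hnn α) ?_
  refine le_trans (sum_biUnion_le_of_nonneg hnn _ _) ?_
  refine le_trans (Finset.sum_le_card_nsmul _ _ ((4 * (K : ℝ)) ^ 10 * Lam β K ^ 2 / n)
    fun e he => ?_) ?_
  · exact entangled_excess hB hk (Finset.mem_Icc.1 he).1 (Finset.mem_Icc.1 he).2 hx
  rw [nsmul_eq_mul, Nat.card_Icc]
  refine mul_le_mul_of_nonneg_right ?_ (by positivity)
  exact_mod_cast (by omega : k + 1 - 1 ≤ K)

open Classical in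
/-- All entangled terms together are bounded. -/
theorem entangled_total {β : ℝ} {K : ℕ} (hB : Big β n K) :
    ∑ k ∈ Finset.Icc 1 K,
        ∑ α ∈ (orders (Edge n) k).filter (fun α => Entangled α),
          wgt α * coefOf (Fen β) α ^ 2 ≤ 1 := by
  obtain ⟨hn, -⟩ := big_facts hB
  have hnp : (0 : ℝ) < n := Nat.cast_pos.2 (Nat.pos_of_ne_zero hn)
  set x : ℝ := (4 * (K : ℝ)) ^ 10 * Lam β K ^ 2 / n with hx
  have hx0 : 0 ≤ x := by positivity
  have hK1 : (1 : ℝ) ≤ K := by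
    have := hB.1
    exact_mod_cast (by omega : 1 ≤ K)
  have hx1 : (K : ℝ) ^ 2 * x ≤ 1 := by
    rw [hx, ← mul_div_assoc, div_le_one hnp]
    exact entangled_const hB
  have hxle : x ≤ 1 := le_trans (le_mul_of_one_le_left hx0 (one_le_pow₀ hK1)) hx1
  have hterm : ∀ k ∈ Finset.Icc 1 K,
      ∑ α ∈ (orders (Edge n) k).filter (fun α => Entangled α),
        wgt α * coefOf (Fen β) α ^ 2 ≤ K * x := fun k hk =>
    entangled_order hB (Finset.mem_Icc.1 hk).2 (Finset.mem_Icc.1 hk).1 hxle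
  refine le_trans (Finset.sum_le_card_nsmul _ _ _ hterm) ?_
  rw [nsmul_eq_mul, Nat.card_Icc, show K + 1 - 1 = K by omega]
  linarith [hx1, show (K : ℝ) ^ 2 * x = K * (K * x) by ring]

open Classical in
/-- The variance on the enlarged space when `n` is large compared with `K`. -/
theorem fen_var_big {β : ℝ} {K : ℕ} (hB : Big β n K) :
    (∫ g, Fen β g ^ 2 ∂gauss (Edge n)) - (∫ g, Fen β g ∂gauss (Edge n)) ^ 2 ≤
      100000 * (1 + β) ^ 4 * (K : ℝ) ^ 20 * Real.sqrt n + 1 + β ^ 2 * n / (K + 1) := by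
  have hnn : ∀ α : Edge n → ℕ, 0 ≤ wgt α * coefOf (Fen β) α ^ 2 := fun α =>
    mul_nonneg (wgt_nonneg α) (sq_nonneg _)
  refine le_trans (gauss_tail (Tame.fen β) K) (add_le_add ?_ ?_)
  · refine le_trans ?_ (add_le_add (freeCycle_total hB) (entangled_total hB))
    rw [← Finset.sum_add_distrib]
    refine Finset.sum_le_sum fun k hk => ?_
    rw [Finset.mem_Icc] at hk
    rw [Finset.sum_filter, Finset.sum_filter, ← Finset.sum_add_distrib]
    refine Finset.sum_le_sum fun α hα => ?_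
    have h0 := hnn α
    by_cases hloop : ∃ a, α s(a, a) ≠ 0
    · rw [coef_diag_zero β α hloop]; simp
    by_cases hodd : ∃ a, Odd (degree α a)
    · obtain ⟨a, ha⟩ := hodd
      rw [coef_odd_zero β α a ha]; simp
    push Not at hloop hodd
    simp only [Nat.not_odd_iff_even] at hodd
    rcases even_cover hk.1 hα hloop hodd with h | h
    · rw [if_pos h]; split_ifs <;> linarith
    · rw [if_pos h]; split_ifs <;> linarith
  · refine div_le_div_of_nonneg_right ?_ (by positivity)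
    calc ∫ g, ∑ e, pd e (Fen β) g ^ 2 ∂gauss (Edge n)
        ≤ ∫ _g, β ^ 2 * n ∂gauss (Edge n) :=
          integral_mono (Tame.sum _ fun e _ => ((Tame.fen β).pd e).pow 2).integrable
            (integrable_const _) fun g => Fen_grad_le β g
      _ = β ^ 2 * n := by simp

/-- The crude bound on the enlarged space. -/
theorem fen_var_crude (β : ℝ) (n : ℕ) :
    (∫ g, Fen β g ^ 2 ∂gauss (Edge n)) - (∫ g, Fen β g ∂gauss (Edge n)) ^ 2 ≤ β ^ 2 * n := by
  refine le_trans (gauss_poincare (Tame.fen β)) ?_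
  calc ∫ g, ∑ e, pd e (Fen β) g ^ 2 ∂gauss (Edge n)
      ≤ ∫ _g, β ^ 2 * n ∂gauss (Edge n) :=
        integral_mono (Tame.sum _ fun e _ => ((Tame.fen β).pd e).pow 2).integrable
          (integrable_const _) fun g => Fen_grad_le β g
    _ = β ^ 2 * n := by simp

/-- The variance of the free energy is computed on the enlarged space. -/
theorem freeEnergy_moments (β : ℝ) (n : ℕ) :
    MemLp (freeEnergy n β) 2 (disorder n) ∧
      variance (freeEnergy n β) (disorder n) =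
        (∫ g, Fen β g ^ 2 ∂gauss (Edge n)) - (∫ g, Fen β g ∂gauss (Edge n)) ^ 2 := by
  classical
  have hmap : Measurable fun (g : Cfg n) (p : Pair n) => g s(p.1.1, p.1.2) :=
    measurable_pi_lambda _ fun p => measurable_pi_apply _
  have hF : Continuous (freeEnergy n β) := by
    unfold freeEnergy hamiltonian
    exact Continuous.log (by fun_prop) fun g =>
      (Finset.sum_pos (fun s _ => Real.exp_pos _) Finset.univ_nonempty).ne'
  have hmem : MemLp (freeEnergy n β ∘ fun (g : Cfg n) (p : Pair n) => g s(p.1.1, p.1.2)) 2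
      (gauss (Edge n)) := (Tame.fen β).memLp_two
  rw [← disorder_map n]
  refine ⟨(memLp_map_measure_iff hF.aestronglyMeasurable hmap.aemeasurable).2 hmem, ?_⟩
  rw [variance_map hF.aestronglyMeasurable.aemeasurable hmap.aemeasurable, variance_eq_sub hmem]
  rfl

/-- The main theorem: the variance of the free energy is `O(n^(1-1/64))`. -/
theorem freeEnergy_variance_le {β : ℝ} (hβ : 0 ≤ β) :
    ∃ C : ℝ, ∀ n : ℕ, 2 ≤ n → MemLp (freeEnergy n β) 2 (disorder n) ∧
      variance (freeEnergy n β) (disorder n) ≤ C * (n : ℝ) ^ ((63 : ℝ) / 64) := by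
  set B : ℝ := (100000 * (1 + β)) ^ 60 with hB
  have hB0 : 0 ≤ B := by positivity
  obtain ⟨N, hN⟩ := eventually_atTop.1
    (((tendsto_rpow_atTop (by norm_num : (0 : ℝ) < 1 / 64)).comp
      tendsto_natCast_atTop_atTop).eventually_ge_atTop (max 2 B))
  refine ⟨100000 * (1 + β) ^ 4 + 1 + β ^ 2 + β ^ 2 * ((N : ℝ) + 1), fun n hn2 => ?_⟩
  obtain ⟨hmem, hvar⟩ := freeEnergy_moments β n
  refine ⟨hmem, hvar ▸ ?_⟩
  have hn1 : (1 : ℝ) ≤ n := by exact_mod_cast (by omega : 1 ≤ n)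
  have hp : (1 : ℝ) ≤ (n : ℝ) ^ ((63 : ℝ) / 64) := Real.one_le_rpow hn1 (by norm_num)
  by_cases hbig : n < N
  · refine le_trans (fen_var_crude β n) ?_
    have h1 : (n : ℝ) ≤ (N : ℝ) + 1 := by
      have : (n : ℝ) ≤ N := by exact_mod_cast hbig.le
      linarith
    have h2 : β ^ 2 * n ≤ β ^ 2 * ((N : ℝ) + 1) * (n : ℝ) ^ ((63 : ℝ) / 64) :=
      le_trans (mul_le_mul_of_nonneg_left h1 (sq_nonneg β))
        (le_mul_of_one_le_right (by positivity) hp)
    refine le_trans h2 (mul_le_mul_of_nonneg_right ?_ (by positivity))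
    have : 0 ≤ 100000 * (1 + β) ^ 4 + 1 + β ^ 2 := by positivity
    linarith
  rw [not_lt] at hbig
  obtain ⟨hy2, hyB⟩ := max_le_iff.1 (hN n hbig)
  set y : ℝ := (n : ℝ) ^ ((1 : ℝ) / 64) with hy
  change 2 ≤ y at hy2
  change B ≤ y at hyB
  have hy0 : 0 ≤ y := by linarith
  have hyn : y ^ 64 = n := by
    rw [hy, ← Real.rpow_mul_natCast (by positivity)]
    norm_num
  have hy63 : (n : ℝ) ^ ((63 : ℝ) / 64) = y ^ 63 := by
    rw [hy, ← Real.rpow_mul_natCast (by positivity)]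
    norm_num
  have hKy : (⌊y⌋₊ : ℝ) ≤ y := Nat.floor_le hy0
  have hK2 : 2 ≤ ⌊y⌋₊ := Nat.le_floor (by exact_mod_cast hy2)
  have hbigK : Big β n ⌊y⌋₊ := by
    refine ⟨hK2, hβ, ?_⟩
    calc (100000 * (1 + β) * (⌊y⌋₊ : ℝ)) ^ 60 ≤ (100000 * (1 + β) * y) ^ 60 := by gcongr
      _ = B * y ^ 60 := by rw [hB]; ring
      _ ≤ y ^ 4 * y ^ 60 := by
          refine mul_le_mul_of_nonneg_right (le_trans hyB ?_) (by positivity)
          exact le_self_pow₀ (by linarith) (by norm_num)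
      _ = n := by rw [← hyn]; ring
  have hmain := fen_var_big hbigK
  have hs : Real.sqrt n = y ^ 32 := by
    rw [← hyn, show y ^ 64 = (y ^ 32) ^ 2 by ring, Real.sqrt_sq (by positivity)]
  have h1 : (⌊y⌋₊ : ℝ) ^ 20 * Real.sqrt n ≤ y ^ 63 := by
    rw [hs]
    calc _ ≤ y ^ 20 * y ^ 32 := by gcongr
      _ = y ^ 52 := by ring
      _ ≤ _ := pow_le_pow_right₀ (by linarith) (by norm_num)
  have h2 : β ^ 2 * n / ((⌊y⌋₊ : ℝ) + 1) ≤ β ^ 2 * y ^ 63 := by
    rw [div_le_iff₀ (by positivity), ← hyn]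
    calc β ^ 2 * y ^ 64 = β ^ 2 * y ^ 63 * y := by ring
      _ ≤ _ := by gcongr; exact (Nat.lt_floor_add_one y).le
  rw [hy63] at hp ⊢
  have h3 : 0 ≤ β ^ 2 * ((N : ℝ) + 1) * y ^ 63 := by positivity
  have h4 := mul_le_mul_of_nonneg_left h1 (by positivity : (0 : ℝ) ≤ 100000 * (1 + β) ^ 4)
  linarith [mul_assoc (100000 * (1 + β) ^ 4) ((⌊y⌋₊ : ℝ) ^ 20) (Real.sqrt n)]

end Vale.Agent.P146
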