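import Vale.Agent.P146.Statement

namespace Vale.Agent.P146

open MeasureTheory ProbabilityTheory

/-- Standard Gaussian vector indexed by a finite type. -/
noncomputable def gauss (ι : Type*) [Fintype ι] : Measure (ι → ℝ) :=
  Measure.pi fun _ : ι => gaussianReal 0 1

/-- Derivative along one coordinate. -/
noncomputable def pd {ι : Type*} [Fintype ι] [DecidableEq ι] (e : ι) (f : (ι → ℝ) → ℝ) :
    (ι → ℝ) → ℝ := fun g => fderiv ℝ f g (Pi.single e 1)

/-- Iterated coordinate derivatives; the head of the list is applied first. -/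
noncomputable def pdL {ι : Type*} [Fintype ι] [DecidableEq ι] :
    List ι → ((ι → ℝ) → ℝ) → (ι → ℝ) → ℝ
  | [], f => f
  | e :: L, f => pdL L (pd e f)

/-- Smooth functions all of whose coordinate derivatives grow at most polynomially. -/
def Tame {ι : Type*} [Fintype ι] [DecidableEq ι] (f : (ι → ℝ) → ℝ) : Prop :=
  ContDiff ℝ (⊤ : ℕ∞) f ∧
    ∀ L : List ι, ∃ (C : ℝ) (p : ℕ), ∀ g, |pdL L f g| ≤ C * (1 + ‖g‖) ^ p

/-- All pairs of sites, the diagonal included. -/
abbrev Edge (n : ℕ) : Type := Sym2 (Fin n)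

/-- The disorder space with auxiliary diagonal variables. -/
abbrev Cfg (n : ℕ) : Type := Edge n → ℝ

/-- Expectation under the standard Gaussian law on `Cfg n`. -/
noncomputable def mean {n : ℕ} (f : Cfg n → ℝ) : ℝ := ∫ g, f g ∂gauss (Edge n)

/-- Normalisation of the entries: `√2` on the diagonal. -/
noncomputable def dfac {n : ℕ} (a b : Fin n) : ℝ := if a = b then Real.sqrt 2 else 1

/-- The symmetric Gaussian matrix. -/
noncomputable def mat {n : ℕ} (g : Cfg n) : Matrix (Fin n) (Fin n) ℝ :=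
  Matrix.of fun a b => dfac a b * g s(a, b) / Real.sqrt n

/-- Derivative along the matrix direction `E_ab + E_ba`. -/
noncomputable def Dab {n : ℕ} (p : Fin n × Fin n) (f : Cfg n → ℝ) : Cfg n → ℝ :=
  fun g => dfac p.1 p.2 * Real.sqrt n * pd s(p.1, p.2) f g

/-- Iterated matrix derivatives. -/
noncomputable def DL {n : ℕ} : List (Fin n × Fin n) → (Cfg n → ℝ) → Cfg n → ℝ
  | [], f => f
  | p :: L, f => DL L (Dab p f)

/-- Spin products. -/
def bond {n : ℕ} (s : Fin n → Bool) (p : Fin n × Fin n) : ℝ := spin (s p.1) * spin (s p.2)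

/-- The energy of a configuration, read off the off-diagonal variables. -/
noncomputable def energy {n : ℕ} (g : Cfg n) (s : Fin n → Bool) : ℝ :=
  hamiltonian n (fun p => g s(p.1.1, p.1.2)) s

/-- The free energy on the enlarged disorder space. -/
noncomputable def Fen {n : ℕ} (β : ℝ) (g : Cfg n) : ℝ :=
  freeEnergy n β (fun p => g s(p.1.1, p.1.2))

/-- The Gibbs weight. -/
noncomputable def gibbs {n : ℕ} (β : ℝ) (g : Cfg n) (s : Fin n → Bool) : ℝ :=
  Real.exp (β * energy g s) / ∑ u : Fin n → Bool, Real.exp (β * energy g u)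

/-- The normalised coefficient of a list of bonds. -/
noncomputable def chat {n : ℕ} (β : ℝ) (L : List (Fin n × Fin n)) : ℝ := mean (DL L (Fen β))

/-- A list of edges with the multiplicities given by `α`. -/
noncomputable def multiList {ι : Type*} [Fintype ι] (α : ι → ℕ) : List ι :=
  (Finset.univ : Finset ι).toList.flatMap fun e => List.replicate (α e) e

/-- The weight `1 / α!`. -/
noncomputable def wgt {ι : Type*} [Fintype ι] (α : ι → ℕ) : ℝ :=
  ((∏ e, (α e).factorial : ℕ) : ℝ)⁻¹

/-- The expected derivative of multi-order `α`. -/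
noncomputable def coefOf {ι : Type*} [Fintype ι] [DecidableEq ι] (f : (ι → ℝ) → ℝ) (α : ι → ℕ) :
    ℝ := ∫ g, pdL (multiList α) f g ∂gauss ι

/-- Multi-orders of total order `k`. -/
def orders (ι : Type*) [Fintype ι] [DecidableEq ι] (k : ℕ) : Finset (ι → ℕ) :=
  Finset.piAntidiag Finset.univ k

/-- Consecutive pairs of a walk. -/
def walkEdges {V : Type*} : List V → List (V × V)
  | [] => []
  | [_] => []
  | a :: b :: t => (a, b) :: walkEdges (b :: t)

/-- All edges of a system of walks. -/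
def sysEdges {V : Type*} (ws : List (List V)) : List (V × V) := ws.flatMap walkEdges

/-- Chebyshev matrices: `U 0 = 1`, `U 1 = X`, `U (m+2) = X * U (m+1) - U m`. -/
noncomputable def cheb {n : ℕ} (X : Matrix (Fin n) (Fin n) ℝ) : ℕ → Matrix (Fin n) (Fin n) ℝ
  | 0 => 1
  | 1 => X
  | m + 2 => X * cheb X (m + 1) - cheb X m

/-- The matrix entry of `U m` as a function of the disorder. -/
noncomputable def uEnt {n : ℕ} (m : ℕ) (a b : Fin n) (g : Cfg n) : ℝ := cheb (mat g) m a b

/-- Normalised trace of `U i`. -/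
noncomputable def trU {n : ℕ} (i : ℕ) (g : Cfg n) : ℝ := (∑ a, uEnt i a a g) / n

/-- The quadratic form of the matrix. -/
noncomputable def quad {n : ℕ} (g : Cfg n) (v : Fin n → ℝ) : ℝ :=
  ∑ a, ∑ b, v a * mat g a b * v b

/-- The good event: spectrum near `[-2,2]` and small traces. -/
def Good {n : ℕ} (K : ℕ) (g : Cfg n) : Prop :=
  (∀ v : Fin n → ℝ, |quad g v| ≤ (2 + 1 / (2 * (2 * (K : ℝ) + 2) ^ 2)) * ∑ a, v a ^ 2) ∧
    ∀ i : ℕ, 1 ≤ i → i ≤ 2 * K → |trU i g| ≤ 1 / Real.sqrt n

/-- The standing largeness hypothesis: `n` is huge compared with `K` and `β`. -/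
def Big (β : ℝ) (n K : ℕ) : Prop :=
  2 ≤ K ∧ 0 ≤ β ∧ (100000 * (1 + β) * (K : ℝ)) ^ 60 ≤ n

/-- The growth constant of the main claim. -/
noncomputable def Lam (β : ℝ) (K : ℕ) : ℝ := (100 * (1 + β) * (K : ℝ)) ^ 24

end Vale.Agent.P146
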