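import Mathlib

namespace Vale.Agent.P146

open MeasureTheory ProbabilityTheory

/-- Unordered pairs of distinct sites, written increasingly. -/
abbrev Pair (n : ℕ) : Type := {p : Fin n × Fin n // p.1 < p.2}

/-- The disorder: independent standard Gaussian variables, one for each pair. -/
noncomputable def disorder (n : ℕ) : Measure (Pair n → ℝ) :=
  Measure.pi fun _ : Pair n => gaussianReal 0 1

/-- The value of a spin. -/
def spin (b : Bool) : ℝ := if b then 1 else -1

/-- The Sherrington-Kirkpatrick Hamiltonian. -/
noncomputable def hamiltonian (n : ℕ) (g : Pair n → ℝ) (s : Fin n → Bool) : ℝ :=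
  (∑ p : Pair n, g p * spin (s p.1.1) * spin (s p.1.2)) / Real.sqrt n

/-- The free energy `log Z`. -/
noncomputable def freeEnergy (n : ℕ) (β : ℝ) (g : Pair n → ℝ) : ℝ :=
  Real.log (∑ s : Fin n → Bool, Real.exp (β * hamiltonian n g s))

end Vale.Agent.P146
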