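import Vale.Agent.P146.Model

/-!
Sums over walks.
-/

namespace Vale.Agent.P146

variable {n : ℕ}

/-- Sum of `Φ` over the walks of length `l` from `a` to `b`. -/
noncomputable def walkSum :
    ℕ → Fin n → Fin n → (List (Fin n × Fin n) → ℝ) → ℝ
  | 0, a, b, Φ => if a = b then Φ [] else 0
  | l + 1, a, b, Φ => ∑ c, walkSum l c b fun L => Φ ((a, c) :: L)

/-- Sum of `Φ` over families of walks. -/
noncomputable def multiWalk :
    List (ℕ × Fin n × Fin n) → (List (Fin n × Fin n) → ℝ) → ℝ
  | [], Φ => Φ []
  | (l, a, b) :: t, Φ => walkSum l a b fun L => multiWalk t fun M => Φ (L ++ M)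

theorem walkSum_const_mul (l : ℕ) (c : ℝ) (a b : Fin n) (Φ : List (Fin n × Fin n) → ℝ) :
    walkSum l a b (fun L => c * Φ L) = c * walkSum l a b Φ := by
  induction l generalizing a Φ with
  | zero => simp only [walkSum]; split_ifs <;> simp
  | succ l ih => simp only [walkSum, Finset.mul_sum, ih]

theorem walkSum_zero_fun (l : ℕ) (a b : Fin n) : walkSum l a b (fun _ => (0 : ℝ)) = 0 := by
  induction l generalizing a with
  | zero => simp [walkSum]
  | succ l ih => simp [walkSum, ih]

theorem walkSum_ite (l : ℕ) (p : Prop) [Decidable p] (a b : Fin n)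
    (Φ : List (Fin n × Fin n) → ℝ) :
    walkSum l a b (fun L => if p then Φ L else 0) = if p then walkSum l a b Φ else 0 := by
  split_ifs
  · rfl
  · exact walkSum_zero_fun l a b

end Vale.Agent.P146
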