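import Vale.Agent.P146.Cheb
import Vale.Agent.P146.DabRules

/-!
Linear combinations of products of Chebyshev entries and normalised traces.
-/

namespace Vale.Agent.P146

variable {n : ℕ} {σ : Type*}

/-- A product of Chebyshev entries, indexed by pairs of slots, and of traces. -/
structure Mon (σ : Type*) where
  /-- The entries. -/
  pairs : List (σ × σ × ℕ)
  /-- The traces. -/
  ts : List ℕ

/-- The slots of a monomial. -/
def Mon.slots (M : Mon σ) : List σ := M.pairs.flatMap fun p => [p.1, p.2.1]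

/-- Total index. -/
def Mon.tot (M : Mon σ) : ℕ := (M.pairs.map fun p => p.2.2).sum + M.ts.sum

/-- Product of the entries. -/
noncomputable def pairVal (l : List (σ × σ × ℕ)) (z : σ → Fin n) (g : Cfg n) : ℝ :=
  (l.map fun p => uEnt p.2.2 (z p.1) (z p.2.1) g).prod

/-- Product of the traces. -/
noncomputable def trVal (l : List ℕ) (g : Cfg n) : ℝ := (l.map fun i => trU i g).prod

/-- The value of a monomial. -/
noncomputable def Mon.val (M : Mon σ) (z : σ → Fin n) (g : Cfg n) : ℝ :=
  pairVal M.pairs z g * trVal M.ts g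

/-- Admissible monomials. -/
def Mon.Ok (M : Mon σ) (sl : List σ) (N : ℕ) : Prop :=
  M.slots.Perm sl ∧ M.tot ≤ N ∧ ∀ i ∈ M.ts, 1 ≤ i

/-- The value of a combination. -/
noncomputable def combVal (L : List (ℝ × Mon σ)) (z : σ → Fin n) (g : Cfg n) : ℝ :=
  (L.map fun cm => cm.1 * cm.2.val z g).sum

/-- The weight of a combination: each trace costs `τ`. -/
noncomputable def combWgt (τ : ℝ) (L : List (ℝ × Mon σ)) : ℝ :=
  (L.map fun cm => |cm.1| * τ ^ cm.2.ts.length).sum

/-- `f` is a combination of weight at most `W`. -/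
def Rep (τ : ℝ) (sl : List σ) (N : ℕ) (W : ℝ) (f : (σ → Fin n) → Cfg n → ℝ) : Prop :=
  ∃ L : List (ℝ × Mon σ), (∀ cm ∈ L, cm.2.Ok sl N) ∧ combWgt τ L ≤ W ∧ f = combVal L

variable {τ : ℝ} {sl sl' : List σ} {N N' : ℕ} {W W' : ℝ} {f f' : (σ → Fin n) → Cfg n → ℝ}

theorem Rep.zero (hW : 0 ≤ W) : Rep τ sl N W (fun _ _ => (0 : ℝ) : (σ → Fin n) → Cfg n → ℝ) :=
  ⟨[], by simp, by simpa [combWgt] using hW, by funext z g; simp [combVal]⟩

theorem Rep.congr (h : Rep τ sl N W f) (he : ∀ z g, f' z g = f z g) : Rep τ sl N W f' := by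
  have : f' = f := funext fun z => funext fun g => he z g
  rwa [this]

theorem Rep.mono (h : Rep τ sl N W f) (hsl : sl.Perm sl') (hN : N ≤ N') (hW : W ≤ W') :
    Rep τ sl' N' W' f := by
  obtain ⟨L, hok, hw, rfl⟩ := h
  exact ⟨L, fun cm hcm => ⟨(hok cm hcm).1.trans hsl, (hok cm hcm).2.1.trans hN, (hok cm hcm).2.2⟩,
    hw.trans hW, rfl⟩

theorem Rep.add (h : Rep τ sl N W f) (h' : Rep τ sl N W' f') :
    Rep τ sl N (W + W') (fun z g => f z g + f' z g) := by
  obtain ⟨L, hok, hw, rfl⟩ := h
  obtain ⟨L', hok', hw', rfl⟩ := h'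
  refine ⟨L ++ L', ?_, ?_, ?_⟩
  · intro cm hcm
    rcases List.mem_append.1 hcm with h | h
    · exact hok cm h
    · exact hok' cm h
  · simp only [combWgt, List.map_append, List.sum_append] at hw hw' ⊢
    linarith
  · funext z g
    simp [combVal, List.map_append, List.sum_append]

theorem Rep.smul (c : ℝ) (h : Rep τ sl N W f) :
    Rep τ sl N (|c| * W) (fun z g => c * f z g) := by
  obtain ⟨L, hok, hw, rfl⟩ := h
  refine ⟨L.map fun cm => (c * cm.1, cm.2), ?_, ?_, ?_⟩
  · intro cm hcm
    obtain ⟨d, hd, rfl⟩ := List.mem_map.1 hcm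
    exact hok d hd
  · refine le_trans (le_of_eq ?_) (mul_le_mul_of_nonneg_left hw (abs_nonneg c))
    simp only [combWgt, List.map_map, ← List.sum_map_mul_left]
    refine congrArg List.sum (List.map_congr_left fun cm _ => ?_)
    simp [abs_mul]; ring
  · funext z g
    simp only [combVal, List.map_map, ← List.sum_map_mul_left]
    refine congrArg List.sum (List.map_congr_left fun cm _ => ?_)
    simp; ring

theorem Rep.neg (h : Rep τ sl N W f) : Rep τ sl N W (fun z g => -f z g) := by
  have := h.smul (-1)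
  simp only [abs_neg, abs_one, one_mul] at this
  exact this.congr fun z g => by ring

theorem Rep.sum {α : Type*} (s : Finset α) {F : α → (σ → Fin n) → Cfg n → ℝ} {Wf : α → ℝ}
    (h : ∀ a ∈ s, Rep τ sl N (Wf a) (F a)) :
    Rep τ sl N (∑ a ∈ s, Wf a) (fun z g => ∑ a ∈ s, F a z g) := by
  classical
  induction s using Finset.induction_on with
  | empty => exact (Rep.zero (le_refl (0 : ℝ))).congr fun z g => by simp
  | insert a s ha ih =>
    rw [Finset.sum_insert ha]
    refine ((h a (Finset.mem_insert_self a s)).add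
      (ih fun b hb => h b (Finset.mem_insert_of_mem hb))).congr fun z g => ?_
    rw [Finset.sum_insert ha]

theorem Rep.unit : Rep τ ([] : List σ) 0 1 (fun _ _ => (1 : ℝ) : (σ → Fin n) → Cfg n → ℝ) := by
  refine ⟨[(1, ⟨[], []⟩)], ?_, ?_, ?_⟩
  · intro cm hcm
    simp only [List.mem_singleton] at hcm
    subst hcm
    simp [Mon.Ok, Mon.slots, Mon.tot]
  · simp [combWgt]
  · funext z g; simp [combVal, Mon.val, pairVal, trVal]

theorem Rep.consPair (x y : σ) (m : ℕ) (h : Rep τ sl N W f) :
    Rep τ (x :: y :: sl) (N + m) W (fun z g => uEnt m (z x) (z y) g * f z g) := by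
  obtain ⟨L, hok, hw, rfl⟩ := h
  refine ⟨L.map fun cm => (cm.1, ⟨(x, y, m) :: cm.2.pairs, cm.2.ts⟩), ?_, ?_, ?_⟩
  · intro cm hcm
    obtain ⟨d, hd, rfl⟩ := List.mem_map.1 hcm
    obtain ⟨h1, h2, h3⟩ := hok d hd
    refine ⟨?_, ?_, h3⟩
    · simpa [Mon.slots] using (h1.cons y).cons x
    · simp only [Mon.tot, List.map_cons, List.sum_cons] at h2 ⊢
      omega
  · simpa [combWgt, List.map_map, Function.comp_def] using hw
  · funext z g
    simp only [combVal, List.map_map, ← List.sum_map_mul_left]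
    refine congrArg List.sum (List.map_congr_left fun cm _ => ?_)
    simp [Mon.val, pairVal]; ring

theorem Rep.consTr (i : ℕ) (hi : 1 ≤ i) (hτ : 0 ≤ τ) (h : Rep τ sl N W f) :
    Rep τ sl (N + i) (τ * W) (fun z g => trU i g * f z g) := by
  obtain ⟨L, hok, hw, rfl⟩ := h
  refine ⟨L.map fun cm => (cm.1, ⟨cm.2.pairs, i :: cm.2.ts⟩), ?_, ?_, ?_⟩
  · intro cm hcm
    obtain ⟨d, hd, rfl⟩ := List.mem_map.1 hcm
    obtain ⟨h1, h2, h3⟩ := hok d hd
    refine ⟨h1, ?_, ?_⟩
    · simp only [Mon.tot, List.sum_cons] at h2 ⊢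
      omega
    · intro k hk
      rcases List.mem_cons.1 hk with rfl | hk
      · exact hi
      · exact h3 k hk
  · refine le_trans (le_of_eq ?_) (mul_le_mul_of_nonneg_left hw hτ)
    simp only [combWgt, List.map_map, ← List.sum_map_mul_left]
    refine congrArg List.sum (List.map_congr_left fun cm _ => ?_)
    simp [pow_succ]; ring
  · funext z g
    simp only [combVal, List.map_map, ← List.sum_map_mul_left]
    refine congrArg List.sum (List.map_congr_left fun cm _ => ?_)
    simp [Mon.val, trVal]; ring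

theorem Rep.pairList (l : List (σ × σ × ℕ)) :
    Rep τ (l.flatMap fun p => [p.1, p.2.1]) ((l.map fun p => p.2.2).sum) 1
      (pairVal l : (σ → Fin n) → Cfg n → ℝ) := by
  induction l with
  | nil => exact Rep.unit.congr fun z g => by simp [pairVal]
  | cons p t ih =>
    refine ((ih.consPair p.1 p.2.1 p.2.2).mono (List.Perm.refl _) ?_ le_rfl).congr fun z g => ?_
    · simp only [List.map_cons, List.sum_cons]; omega
    · simp [pairVal]

theorem Rep.withTr (l : List ℕ) (hl : ∀ i ∈ l, 1 ≤ i) (hτ : 0 ≤ τ) (h : Rep τ sl N W f) :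
    Rep τ sl (N + l.sum) (τ ^ l.length * W) (fun z g => trVal l g * f z g) := by
  induction l with
  | nil => simpa [trVal] using h
  | cons i t ih =>
    have := (ih fun k hk => hl k (List.mem_cons_of_mem _ hk)).consTr i
      (hl i List.mem_cons_self) hτ
    refine (this.mono (List.Perm.refl _) ?_ (le_of_eq ?_)).congr fun z g => ?_
    · simp only [List.sum_cons]; omega
    · simp [pow_succ]; ring
    · simp [trVal]; ring

theorem Rep.withPairs (l : List (σ × σ × ℕ)) (h : Rep τ sl N W f) :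
    Rep τ ((l.flatMap fun p => [p.1, p.2.1]) ++ sl) (N + (l.map fun p => p.2.2).sum) W
      (fun z g => pairVal l z g * f z g) := by
  induction l with
  | nil => simpa [pairVal] using h
  | cons p t ih =>
    refine ((ih.consPair p.1 p.2.1 p.2.2).mono (List.Perm.refl _) ?_ le_rfl).congr fun z g => ?_
    · simp only [List.map_cons, List.sum_cons]; omega
    · simp [pairVal]; ring

theorem Tame.pairVal (l : List (σ × σ × ℕ)) (z : σ → Fin n) : Tame (P146.pairVal l z) :=
  Tame.listProd l fun _ _ => Tame.uEnt _ _ _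

theorem Tame.trVal (l : List ℕ) : Tame (P146.trVal (n := n) l) :=
  Tame.listProd l fun _ _ => Tame.trU _

theorem Tame.monVal (M : Mon σ) (z : σ → Fin n) : Tame (M.val z) :=
  (Tame.pairVal M.pairs z).mul (Tame.trVal M.ts)

theorem Tame.combVal (L : List (ℝ × Mon σ)) (z : σ → Fin n) : Tame (P146.combVal L z) := by
  induction L with
  | nil => exact Tame.const 0
  | cons cm t ih => exact ((Tame.monVal cm.2 z).const_mul cm.1).add ih

theorem Rep.tame (h : Rep τ sl N W f) (z : σ → Fin n) : Tame (f z) := by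
  obtain ⟨L, -, -, rfl⟩ := h
  exact Tame.combVal L z

theorem combWgt_nonneg (hτ : 0 ≤ τ) (L : List (ℝ × Mon σ)) : 0 ≤ combWgt τ L :=
  List.sum_nonneg fun x hx => by
    obtain ⟨cm, -, rfl⟩ := List.mem_map.1 hx
    positivity

end Vale.Agent.P146
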