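import Vale.Agent.P146.WickRep

/-!
One integration by parts step on a product of Chebyshev entries.
-/

namespace Vale.Agent.P146

variable {n : ℕ} {σ : Type*}

theorem Rep.single {τ : ℝ} (x y : σ) (k : ℕ) :
    Rep τ [x, y] k 1 (fun (z : σ → Fin n) g => uEnt k (z x) (z y) g) :=
  ((Rep.unit.consPair x y k).mono (List.Perm.refl _) (by omega) le_rfl).congr
    fun z g => by simp

theorem Rep.mulEnt {τ : ℝ} (x y : σ) (i j : ℕ) :
    Rep τ [x, y] (i + j) ((i : ℝ) + j + 1)
      (fun (z : σ → Fin n) g => ∑ c, uEnt i (z x) c g * uEnt j c (z y) g) := by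
  have h := Rep.sum (Finset.range (min i j + 1)) (Wf := fun _ => (1 : ℝ))
    (F := fun l (z : σ → Fin n) g => uEnt (i + j - 2 * l) (z x) (z y) g)
    (τ := τ) (sl := [x, y]) (N := i + j)
    fun l _ => (Rep.single x y (i + j - 2 * l)).mono (List.Perm.refl _) (by omega) le_rfl
  refine (h.mono (List.Perm.refl _) le_rfl ?_).congr fun z g => uEnt_mul i j (z x) (z y) g
  simp only [Finset.sum_const, Finset.card_range, nsmul_eq_mul, mul_one]
  have : ((min i j + 1 : ℕ) : ℝ) ≤ ((i + j + 1 : ℕ) : ℝ) := Nat.cast_le.2 (by omega)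
  push_cast at this ⊢
  linarith

theorem Rep.mulEnt3 {τ : ℝ} (x y : σ) (p q m : ℕ) :
    Rep τ [x, y] (p + q + m) (((p : ℝ) + q + m + 1) ^ 2)
      (fun (z : σ → Fin n) g =>
        ∑ c, uEnt m c (z y) g * ∑ e, uEnt p (z x) e g * uEnt q e c g) := by
  have h := Rep.sum (Finset.range (min q m + 1)) (Wf := fun _ => ((p : ℝ) + q + m + 1))
    (F := fun l (z : σ → Fin n) g => ∑ e, uEnt p (z x) e g * uEnt (q + m - 2 * l) e (z y) g)
    (τ := τ) (sl := [x, y]) (N := p + q + m)
    fun l _ => (Rep.mulEnt x y p (q + m - 2 * l)).mono (List.Perm.refl _) (by omega) (by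
      have : ((q + m - 2 * l : ℕ) : ℝ) ≤ ((q + m : ℕ) : ℝ) := Nat.cast_le.2 (by omega)
      push_cast at this
      linarith)
  refine (h.mono (List.Perm.refl _) le_rfl ?_).congr fun z g => ?_
  · simp only [Finset.sum_const, Finset.card_range, nsmul_eq_mul, sq]
    refine mul_le_mul_of_nonneg_right ?_ (by positivity)
    have : ((min q m + 1 : ℕ) : ℝ) ≤ ((p + q + m + 1 : ℕ) : ℝ) := Nat.cast_le.2 (by omega)
    push_cast at this ⊢
    linarith
  · rw [Finset.sum_comm]
    simp only [Finset.mul_sum]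
    rw [Finset.sum_comm]
    refine Finset.sum_congr rfl fun e _ => ?_
    rw [← Finset.mul_sum, ← uEnt_mul, Finset.mul_sum]
    exact Finset.sum_congr rfl fun c _ => by ring

theorem perm4 (a b c d : σ) : [a, b, c, d].Perm [b, c, a, d] := by
  calc [a, b, c, d].Perm [b, a, c, d] := List.Perm.swap _ _ _
    _ |>.Perm [b, c, a, d] := (List.Perm.swap _ _ _).cons _

theorem pairVal_cons (p : σ × σ × ℕ) (t : List (σ × σ × ℕ)) (z : σ → Fin n) :
    pairVal (p :: t) z = fun g => uEnt p.2.2 (z p.1) (z p.2.1) g * pairVal t z g := by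
  funext g; simp [pairVal]

theorem trVal_cons (i : ℕ) (t : List ℕ) :
    trVal (n := n) (i :: t) = fun g => trU i g * trVal t g := by
  funext g; simp [trVal]

/-- A cross derivative between two entries. -/
theorem rep_cross {τ : ℝ} (x y x' y' : σ) (m m' : ℕ) :
    Rep τ [x, y, x', y'] (m + m') (2 * ((m : ℝ) + m' + 1) ^ 2 / n)
      (fun (z : σ → Fin n) g =>
        (∑ c, uEnt m c (z y) g * Dab (z x, c) (uEnt m' (z x') (z y')) g) / n) := by
  have hi : ∀ i ∈ Finset.range m', Rep τ [x, y, x', y'] (m + m') (2 * ((m : ℝ) + m' + 1))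
      (fun (z : σ → Fin n) g =>
        uEnt i (z x') (z x) g * (∑ c, uEnt m (z y) c g * uEnt (m' - 1 - i) c (z y') g) +
          uEnt (m' - 1 - i) (z x) (z y') g * (∑ c, uEnt i (z x') c g * uEnt m c (z y) g)) := by
    intro i hi
    rw [Finset.mem_range] at hi
    have h1 : ((m' - 1 - i : ℕ) : ℝ) ≤ m' := Nat.cast_le.2 (by omega)
    have h2 : (i : ℝ) ≤ m' := Nat.cast_le.2 hi.le
    refine (((((Rep.mulEnt y y' m (m' - 1 - i)).consPair x' x i).mono ?_ ?_ ?_).add
      (((Rep.mulEnt x' y i m).consPair x y' (m' - 1 - i)).mono ?_ ?_ ?_)).mono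
        (List.Perm.refl _) le_rfl (le_of_eq (two_mul ((m : ℝ) + m' + 1)).symm)).congr
          fun z g => rfl
    · exact (perm4 x' x y y')
    · omega
    · linarith
    · exact ((List.Perm.swap x' y' [y]).trans ((List.Perm.swap y y' []).cons x')).trans
        (List.Perm.swap y x' [y']) |>.cons x
    · omega
    · linarith
  refine (((Rep.sum (Finset.range m') hi).smul (n : ℝ)⁻¹).mono
    (List.Perm.refl _) le_rfl ?_).congr fun z g => ?_
  · rw [Finset.sum_const, Finset.card_range, nsmul_eq_mul, abs_of_nonneg (by positivity),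
      div_eq_inv_mul]
    refine mul_le_mul_of_nonneg_left ?_ (by positivity)
    have : (m' : ℝ) ≤ (m : ℝ) + m' + 1 := by
      linarith [Nat.cast_nonneg (α := ℝ) m]
    nlinarith
  · rw [div_eq_inv_mul]
    congr 1
    simp only [Dab_uEnt, Finset.mul_sum]
    rw [Finset.sum_comm]
    refine Finset.sum_congr rfl fun i _ => ?_
    rw [← Finset.sum_add_distrib]
    refine Finset.sum_congr rfl fun c _ => ?_
    rw [uEnt_symm m (z y) c g]
    ring

theorem rep_restDeriv {τ : ℝ} (x y : σ) (m B : ℕ) (rest : List (σ × σ × ℕ))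
    (hB : m + (rest.map fun p => p.2.2).sum ≤ B) :
    Rep τ (x :: y :: rest.flatMap fun p => [p.1, p.2.1]) (m + (rest.map fun p => p.2.2).sum)
      (rest.length * (2 * ((B : ℝ) + 1) ^ 2 / n))
      (fun (z : σ → Fin n) g =>
        (∑ c, uEnt m c (z y) g * Dab (z x, c) (pairVal rest z) g) / n) := by
  induction rest with
  | nil =>
    refine (Rep.zero (by simp)).congr fun z g => ?_
    have : pairVal ([] : List (σ × σ × ℕ)) z = fun _ : Cfg n => (1 : ℝ) := by
      funext g; simp [pairVal]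
    simp [this, Dab_const]
  | cons p t ih =>
    obtain ⟨x', y', m'⟩ := p
    simp only [List.map_cons, List.sum_cons] at hB
    have h1 := (rep_cross (τ := τ) (n := n) x y x' y' m m').withPairs t
    have h2 := (ih (by omega)).consPair x' y' m'
    refine (((h1.mono (sl' := x :: y :: ((x', y', m') :: t).flatMap fun p => [p.1, p.2.1])
      (W' := 2 * ((B : ℝ) + 1) ^ 2 / n) ?_ ?_ ?_).add (h2.mono ?_ ?_ le_rfl)).mono (List.Perm.refl _) le_rfl (le_of_eq ?_)).congr
        fun z g => ?_
    · simp only [List.flatMap_cons, List.cons_append, List.nil_append]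
      exact List.perm_append_comm.trans (by simp)
    · simp only [List.map_cons, List.sum_cons]; omega
    · have hmm : (m : ℝ) + m' ≤ B := by
        rw [← Nat.cast_add]; exact Nat.cast_le.2 (by omega)
      exact (show 2 * ((m : ℝ) + m' + 1) ^ 2 / n ≤ 2 * ((B : ℝ) + 1) ^ 2 / n by gcongr)
    · simp only [List.flatMap_cons, List.cons_append, List.nil_append]
      exact List.perm_append_comm (l₁ := [x', y']) (l₂ := [x, y]) |>.append_right
        (t.flatMap fun p => [p.1, p.2.1])
    · simp only [List.map_cons, List.sum_cons]; omega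
    · simp only [List.length_cons]; push_cast; ring
    · rw [pairVal_cons]
      simp only [Dab_mul _ (Tame.uEnt m' (z x') (z y')) (Tame.pairVal t z)]
      rw [← mul_div_assoc, ← mul_div_assoc, ← add_div, Finset.mul_sum, Finset.mul_sum,
        ← Finset.sum_add_distrib]
      congr 1
      refine Finset.sum_congr rfl fun c _ => ?_
      ring

theorem rep_trDeriv {τ : ℝ} (hτ : 0 < τ) (x y : σ) (m B : ℕ) (ts : List ℕ)
    (hts : ∀ i ∈ ts, 1 ≤ i) (hB : m + ts.sum ≤ B) :
    Rep τ [x, y] (m + ts.sum)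
      (ts.length * (2 * ((B : ℝ) + 1) ^ 3 / ((n : ℝ) ^ 2 * τ)) * τ ^ ts.length)
      (fun (z : σ → Fin n) g =>
        (∑ c, uEnt m c (z y) g * Dab (z x, c) (trVal ts) g) / n) := by
  induction ts with
  | nil =>
    refine (Rep.zero (by simp)).congr fun z g => ?_
    have : trVal (n := n) [] = fun _ : Cfg n => (1 : ℝ) := by funext g; simp [trVal]
    simp [this, Dab_const]
  | cons i t ih =>
    simp only [List.sum_cons] at hB
    have hi : 1 ≤ i := hts i List.mem_cons_self
    have ht : ∀ k ∈ t, 1 ≤ k := fun k hk => hts k (List.mem_cons_of_mem _ hk)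
    have hone : Rep τ [x, y] (m + i) (2 * ((B : ℝ) + 1) ^ 3 / (n : ℝ) ^ 2)
        (fun (z : σ → Fin n) g => (∑ c, uEnt m c (z y) g * Dab (z x, c) (trU i) g) / n) := by
      refine (((Rep.sum (Finset.range i) (Wf := fun _ => ((B : ℝ) + 1) ^ 2)
        fun p hp => (Rep.mulEnt3 x y p (i - 1 - p) m).mono (List.Perm.refl _) ?_ ?_).smul
          (2 / (n : ℝ) ^ 2)).mono (List.Perm.refl _) le_rfl ?_).congr fun z g => ?_
      · rw [Finset.mem_range] at hp; omega
      · rw [Finset.mem_range] at hp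
        refine pow_le_pow_left₀ (by positivity) ?_ 2
        have : ((p + (i - 1 - p) + m : ℕ) : ℝ) ≤ B := Nat.cast_le.2 (by omega)
        push_cast at this
        linarith
      · rw [Finset.sum_const, Finset.card_range, nsmul_eq_mul, abs_of_nonneg (by positivity),
          div_mul_eq_mul_div]
        refine div_le_div_of_nonneg_right ?_ (by positivity)
        have : (i : ℝ) ≤ B + 1 := by
          have : (i : ℝ) ≤ B := Nat.cast_le.2 (by omega)
          linarith
        calc 2 * ((i : ℝ) * ((B : ℝ) + 1) ^ 2) ≤ 2 * (((B : ℝ) + 1) * ((B : ℝ) + 1) ^ 2) := by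
              gcongr
          _ = 2 * ((B : ℝ) + 1) ^ 3 := by ring
      · simp only [Dab_trU, Finset.mul_sum, Finset.sum_div]
        rw [Finset.sum_comm]
        refine Finset.sum_congr rfl fun p _ => Finset.sum_congr rfl fun c _ =>
          Finset.sum_congr rfl fun e _ => ?_
        ring
    have h1 := hone.withTr t ht hτ.le
    have h2 := (ih ht (by omega)).consTr i hi hτ.le
    refine (((h1.mono (List.Perm.refl _) ?_ le_rfl).add
      (h2.mono (List.Perm.refl _) ?_ le_rfl)).mono (List.Perm.refl _) le_rfl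
        (le_of_eq ?_)).congr fun z g => ?_
    · simp only [List.sum_cons]; omega
    · simp only [List.sum_cons]; omega
    · simp only [List.length_cons, pow_succ]
      push_cast
      field_simp
      ring
    · rw [trVal_cons]
      simp only [Dab_mul _ (Tame.trU i) (Tame.trVal t)]
      rw [← mul_div_assoc, ← mul_div_assoc, ← add_div, Finset.mul_sum, Finset.mul_sum,
        ← Finset.sum_add_distrib]
      congr 1
      refine Finset.sum_congr rfl fun c _ => ?_
      ring

theorem rep_own {τ : ℝ} (hτ : 0 ≤ τ) (hn : n ≠ 0) (x y : σ) (m : ℕ) :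
    Rep τ [x, y] (m + 1) ((m : ℝ) * (((m : ℝ) + 1) / n + τ))
      (fun (z : σ → Fin n) g =>
        (∑ c, mat g (z x) c * uEnt m c (z y) g) -
          (∑ c, Dab (z x, c) (uEnt m c (z y)) g) / n - uEnt (m + 1) (z x) (z y) g) := by
  rcases m with _ | k
  · refine (Rep.zero (by simp)).congr fun z g => ?_
    simp [Dab_uEnt, mat_mul_uEnt_zero]
  have hn' : (n : ℝ) ≠ 0 := Nat.cast_ne_zero.2 hn
  have hA := Rep.sum (τ := τ) (sl := [x, y]) (N := k + 1 + 1) (Finset.range (k + 1))
    (F := fun i (z : σ → Fin n) g =>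
      (n : ℝ)⁻¹ * ∑ c, uEnt i (z x) c g * uEnt (k - i) c (z y) g)
    (Wf := fun _ => (((k + 1 : ℕ) : ℝ) + 1) / n) fun i hi => by
      rw [Finset.mem_range] at hi
      refine ((Rep.mulEnt x y i (k - i)).smul (n : ℝ)⁻¹).mono (List.Perm.refl _) (by omega) ?_
      rw [abs_of_nonneg (by positivity), div_eq_inv_mul]
      refine mul_le_mul_of_nonneg_left ?_ (by positivity)
      have : (((i + (k - i)) : ℕ) : ℝ) ≤ ((k + 1 : ℕ) : ℝ) := Nat.cast_le.2 (by omega)
      push_cast at this ⊢
      linarith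
  have hB := Rep.sum (τ := τ) (sl := [x, y]) (N := k + 1 + 1) (Finset.range k)
    (F := fun i (z : σ → Fin n) g => trU (i + 1) g * uEnt (k - (i + 1)) (z x) (z y) g)
    (Wf := fun _ => τ) fun i hi => by
      rw [Finset.mem_range] at hi
      exact ((Rep.single x y (k - (i + 1))).consTr (i + 1) (by omega) hτ).mono
        (List.Perm.refl _) (by omega) (le_of_eq (mul_one τ))
  refine ((hA.add hB).neg.mono (List.Perm.refl _) le_rfl ?_).congr fun z g => ?_
  · simp only [Finset.sum_const, Finset.card_range, nsmul_eq_mul]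
    push_cast
    nlinarith
  · have hd : (∑ c, Dab (z x, c) (uEnt (k + 1) c (z y)) g) / n =
        ∑ i ∈ Finset.range (k + 1),
          ((n : ℝ)⁻¹ * (∑ c, uEnt i (z x) c g * uEnt (k - i) c (z y) g) +
            trU i g * uEnt (k - i) (z x) (z y) g) := by
      simp only [Dab_uEnt, Nat.add_sub_cancel, trU, Finset.mul_sum, Finset.sum_mul,
        Finset.sum_div]
      rw [Finset.sum_comm]
      refine Finset.sum_congr rfl fun i _ => ?_
      rw [← Finset.sum_add_distrib]
      refine Finset.sum_congr rfl fun c _ => ?_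
      rw [uEnt_symm i c (z x) g]
      ring
    rw [hd, mat_mul_uEnt, Finset.sum_add_distrib]
    rw [Finset.sum_range_succ' (fun i => trU i g * uEnt (k - i) (z x) (z y) g) k, trU_zero hn]
    simp only [Nat.sub_zero, one_mul]
    ring

variable [DecidableEq σ]

/-- One step of integration by parts, moving the end at slot `x`. -/
noncomputable def stepOp (x : σ) (f : (σ → Fin n) → Cfg n → ℝ) (z : σ → Fin n) (g : Cfg n) :
    ℝ :=
  (∑ c, mat g (z x) c * f (Function.update z x c) g) -
    (∑ c, Dab (z x, c) (f (Function.update z x c)) g) / n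

theorem pairVal_update {l : List (σ × σ × ℕ)} {x : σ}
    (hx : x ∉ l.flatMap fun p => [p.1, p.2.1]) (z : σ → Fin n) (c : Fin n) :
    pairVal l (Function.update z x c) = pairVal l z := by
  funext g
  simp only [pairVal]
  congr 1
  refine List.map_congr_left fun p hp => ?_
  have h1 : p.1 ≠ x := fun h => hx (List.mem_flatMap.2 ⟨p, hp, by simp [h]⟩)
  have h2 : p.2.1 ≠ x := fun h => hx (List.mem_flatMap.2 ⟨p, hp, by simp [h]⟩)
  rw [Function.update_of_ne h1, Function.update_of_ne h2]

/-- The error of one step on a monomial. -/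
theorem stepOp_mon {K : ℕ} {τ : ℝ} (hn : n ≠ 0) (hτ : 0 < τ) (x y : σ) (m : ℕ)
    (rest : List (σ × σ × ℕ)) (ts : List ℕ) (hts : ∀ i ∈ ts, 1 ≤ i) (hxy : x ≠ y)
    (hx : x ∉ rest.flatMap fun p => [p.1, p.2.1])
    (hN : m + (rest.map fun p => p.2.2).sum + ts.sum + 1 ≤ 2 * K) (hP : rest.length ≤ K) :
    Rep τ (x :: y :: rest.flatMap fun p => [p.1, p.2.1])
      (m + (rest.map fun p => p.2.2).sum + ts.sum + 1)
      ((4 * ((K : ℝ) + 1) ^ 2 / n + 2 * ((K : ℝ) + 1) * τ + 8 * ((K : ℝ) + 1) ^ 3 / n +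
          32 * ((K : ℝ) + 1) ^ 4 / ((n : ℝ) ^ 2 * τ)) * τ ^ ts.length)
      (fun (z : σ → Fin n) g => stepOp x (Mon.val ⟨(x, y, m) :: rest, ts⟩) z g -
        Mon.val ⟨(x, y, m + 1) :: rest, ts⟩ z g) := by
  have hmK : (m : ℝ) + 1 ≤ 2 * ((K : ℝ) + 1) := by
    have : ((m : ℕ) : ℝ) ≤ ((2 * K : ℕ) : ℝ) := Nat.cast_le.2 (by omega)
    push_cast at this
    linarith
  have hlen : ts.length ≤ 2 * K := le_trans (List.length_le_sum_of_one_le ts hts) (by omega)
  have h1 := ((rep_own (n := n) hτ.le hn x y m).withPairs rest).withTr ts hts hτ.le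
  have h2 := (rep_restDeriv (n := n) (τ := τ) x y m (2 * K) rest (by omega)).withTr ts hts hτ.le
  have h3 := (rep_trDeriv (n := n) hτ x y m (2 * K) ts hts (by omega)).withPairs rest
  refine ((((h1.mono (sl' := x :: y :: rest.flatMap fun p => [p.1, p.2.1]) ?_ ?_ le_rfl).add
    (h2.neg.mono (List.Perm.refl _) ?_ le_rfl)).add (h3.neg.mono ?_ ?_ le_rfl)).mono
      (List.Perm.refl _) le_rfl ?_).congr fun z g => ?_
  · exact List.perm_append_comm.trans (by simp)
  · omega
  · omega
  · exact List.perm_append_comm.trans (by simp)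
  · omega
  · have hb : ((2 * K : ℕ) : ℝ) + 1 ≤ 2 * ((K : ℝ) + 1) := by push_cast; linarith
    have e1 : (m : ℝ) * (((m : ℝ) + 1) / n + τ) ≤
        4 * ((K : ℝ) + 1) ^ 2 / n + 2 * ((K : ℝ) + 1) * τ := by
      calc (m : ℝ) * (((m : ℝ) + 1) / n + τ)
          ≤ 2 * ((K : ℝ) + 1) * (2 * ((K : ℝ) + 1) / n + τ) := by
            gcongr; linarith
        _ = _ := by ring
    have e2 : (rest.length : ℝ) * (2 * (((2 * K : ℕ) : ℝ) + 1) ^ 2 / n) ≤
        8 * ((K : ℝ) + 1) ^ 3 / n := by
      have : (rest.length : ℝ) ≤ (K : ℝ) + 1 := by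
        have : (rest.length : ℝ) ≤ K := Nat.cast_le.2 hP
        linarith
      calc (rest.length : ℝ) * (2 * (((2 * K : ℕ) : ℝ) + 1) ^ 2 / n)
          ≤ ((K : ℝ) + 1) * (2 * (2 * ((K : ℝ) + 1)) ^ 2 / n) := by gcongr
        _ = _ := by ring
    have e3 : (ts.length : ℝ) * (2 * (((2 * K : ℕ) : ℝ) + 1) ^ 3 / ((n : ℝ) ^ 2 * τ)) ≤
        32 * ((K : ℝ) + 1) ^ 4 / ((n : ℝ) ^ 2 * τ) := by
      have : (ts.length : ℝ) ≤ 2 * ((K : ℝ) + 1) := by
        have : (ts.length : ℝ) ≤ ((2 * K : ℕ) : ℝ) := Nat.cast_le.2 hlen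
        push_cast at this
        linarith
      calc (ts.length : ℝ) * (2 * (((2 * K : ℕ) : ℝ) + 1) ^ 3 / ((n : ℝ) ^ 2 * τ))
          ≤ 2 * ((K : ℝ) + 1) * (2 * (2 * ((K : ℝ) + 1)) ^ 3 / ((n : ℝ) ^ 2 * τ)) := by gcongr
        _ = _ := by ring
    have hp := pow_nonneg hτ.le ts.length
    have := mul_le_mul_of_nonneg_left e1 hp
    have := mul_le_mul_of_nonneg_left e2 hp
    have := mul_le_mul_of_nonneg_right e3 hp
    nlinarith
  · have hpv : ∀ k c, Mon.val ⟨(x, y, k) :: rest, ts⟩ (Function.update z x c) =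
        fun g : Cfg n => uEnt k c (z y) g * pairVal rest z g * trVal ts g := by
      intro k c
      funext g
      simp only [Mon.val, pairVal_cons, pairVal_update hx, Function.update_self,
        Function.update_of_ne hxy.symm]
    simp only [stepOp, hpv]
    have hd : ∀ c, Dab (z x, c)
        (fun g => uEnt m c (z y) g * pairVal rest z g * trVal ts g) g =
        Dab (z x, c) (uEnt m c (z y)) g * pairVal rest z g * trVal ts g +
          uEnt m c (z y) g * Dab (z x, c) (pairVal rest z) g * trVal ts g +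
          uEnt m c (z y) g * pairVal rest z g * Dab (z x, c) (trVal ts) g := by
      intro c
      simp only [Dab_mul _ ((Tame.uEnt m c (z y)).mul (Tame.pairVal rest z)) (Tame.trVal ts),
        Dab_mul _ (Tame.uEnt m c (z y)) (Tame.pairVal rest z)]
      ring
    simp only [hd, Mon.val, pairVal_cons, Finset.sum_add_distrib]
    have s1 : ∑ c, mat g (z x) c * (uEnt m c (z y) g * pairVal rest z g * trVal ts g) =
        (∑ c, mat g (z x) c * uEnt m c (z y) g) * pairVal rest z g * trVal ts g := by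
      simp only [Finset.sum_mul, mul_assoc]
    have s2 : ∑ c, Dab (z x, c) (uEnt m c (z y)) g * pairVal rest z g * trVal ts g =
        (∑ c, Dab (z x, c) (uEnt m c (z y)) g) * pairVal rest z g * trVal ts g := by
      simp only [Finset.sum_mul]
    have s3 : ∑ c, uEnt m c (z y) g * Dab (z x, c) (pairVal rest z) g * trVal ts g =
        (∑ c, uEnt m c (z y) g * Dab (z x, c) (pairVal rest z) g) * trVal ts g := by
      simp only [Finset.sum_mul]
    have s4 : ∑ c, uEnt m c (z y) g * pairVal rest z g * Dab (z x, c) (trVal ts) g =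
        pairVal rest z g * ∑ c, uEnt m c (z y) g * Dab (z x, c) (trVal ts) g := by
      simp only [Finset.mul_sum]
      exact Finset.sum_congr rfl fun c _ => by ring
    rw [s1, s2, s3, s4]
    ring

end Vale.Agent.P146
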