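import Vale.Agent.P146.WickStep
import Vale.Agent.P146.Walks

/-!
Iterated integration by parts along walks.
-/

namespace Vale.Agent.P146

open MeasureTheory

variable {n : ℕ} {σ : Type*} [DecidableEq σ]

theorem mean_add {f h : Cfg n → ℝ} (hf : Tame f) (hh : Tame h) :
    mean (fun g => f g + h g) = mean f + mean h :=
  integral_add hf.integrable hh.integrable

theorem mean_sub {f h : Cfg n → ℝ} (hf : Tame f) (hh : Tame h) :
    mean (fun g => f g - h g) = mean f - mean h :=
  integral_sub hf.integrable hh.integrable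

theorem mean_const_mul (c : ℝ) (f : Cfg n → ℝ) : mean (fun g => c * f g) = c * mean f :=
  integral_const_mul c f

theorem mean_sum {α : Type*} (s : Finset α) {f : α → Cfg n → ℝ} (hf : ∀ a ∈ s, Tame (f a)) :
    mean (fun g => ∑ a ∈ s, f a g) = ∑ a ∈ s, mean (f a) :=
  integral_finset_sum s fun a ha => (hf a ha).integrable

theorem Tame.matEnt (a b : Fin n) : Tame (fun g : Cfg n => P146.mat g a b) := by
  have h := (Tame.coord (ι := Edge n) s(a, b)).const_mul (dfac a b / Real.sqrt n)
  have : (fun g : Cfg n => P146.mat g a b) =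
      fun g : Cfg n => dfac a b / Real.sqrt n * g s(a, b) := by
    funext g; simp [P146.mat]; ring
  rw [this]; exact h

theorem Tame.stepOp {x : σ} {f : (σ → Fin n) → Cfg n → ℝ} (hf : ∀ z, Tame (f z))
    (z : σ → Fin n) : Tame (P146.stepOp x f z) := by
  have h1 := Tame.sum Finset.univ (fun c (_ : c ∈ Finset.univ) =>
    (Tame.matEnt (z x) c).mul (hf (Function.update z x c)))
  have h2 := (Tame.sum Finset.univ (fun c (_ : c ∈ Finset.univ) =>
    (hf (Function.update z x c)).dab (z x, c))).const_mul (n : ℝ)⁻¹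
  have : P146.stepOp x f z = fun g => (∑ c, P146.mat g (z x) c * f (Function.update z x c) g) -
      (n : ℝ)⁻¹ * ∑ c, P146.Dab (z x, c) (f (Function.update z x c)) g := by
    funext g; simp [P146.stepOp, div_eq_inv_mul]
  rw [this]; exact h1.sub h2

theorem stepOp_combVal (x : σ) (L : List (ℝ × Mon σ)) (z : σ → Fin n) (g : Cfg n) :
    stepOp x (combVal L) z g = (L.map fun cm => cm.1 * stepOp x cm.2.val z g).sum := by
  induction L with
  | nil =>
    have : combVal (n := n) ([] : List (ℝ × Mon σ)) = fun _ _ => (0 : ℝ) := by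
      funext z g; simp [combVal]
    simp [this, stepOp, Dab_const]
  | cons cm t ih =>
    have hc : ∀ z', combVal (cm :: t) z' =
        fun g : Cfg n => cm.1 * cm.2.val z' g + combVal t z' g := by
      intro z'; funext g; simp [combVal]
    simp only [stepOp, hc, Dab_add _ ((Tame.monVal cm.2 _).const_mul cm.1) (Tame.combVal t _),
      Dab_const_mul _ _ (Tame.monVal cm.2 _), List.map_cons, List.sum_cons] at ih ⊢
    rw [← ih]
    simp only [mul_add, Finset.sum_add_distrib, mul_sub, Finset.mul_sum, add_div, Finset.sum_div]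
    have : ∀ c, mat g (z x) c * (cm.1 * cm.2.val (Function.update z x c) g) =
        cm.1 * (mat g (z x) c * cm.2.val (Function.update z x c) g) := fun c => by ring
    simp only [this, mul_div_assoc]
    ring

theorem stepOp_sub {x : σ} {f h : (σ → Fin n) → Cfg n → ℝ} (hf : ∀ z, Tame (f z))
    (hh : ∀ z, Tame (h z)) (z : σ → Fin n) (g : Cfg n) :
    stepOp x (fun z g => f z g - h z g) z g = stepOp x f z g - stepOp x h z g := by
  simp only [stepOp, mul_sub, Finset.sum_sub_distrib, Dab_sub _ (hf _) (hh _)]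
  ring

theorem exists_front {M : Mon σ} {sl : List σ} {N : ℕ} (hM : M.Ok sl N) (hnd : sl.Nodup) {x : σ}
    (hx : x ∈ sl) :
    ∃ (y : σ) (m : ℕ) (rest : List (σ × σ × ℕ)), x ≠ y ∧
      (x ∉ rest.flatMap fun p => [p.1, p.2.1]) ∧
      (x :: y :: rest.flatMap fun p => [p.1, p.2.1]).Perm sl ∧
      rest.length + 1 = M.pairs.length ∧
      m + (rest.map fun p => p.2.2).sum = (M.pairs.map fun p => p.2.2).sum ∧
      ∀ (z : σ → Fin n) g, M.val z g = Mon.val ⟨(x, y, m) :: rest, M.ts⟩ z g := by
  obtain ⟨hperm, -, -⟩ := hM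
  have hmem : x ∈ M.slots := hperm.mem_iff.2 hx
  obtain ⟨p, hp, hxp⟩ := List.mem_flatMap.1 hmem
  obtain ⟨A, B, hAB⟩ := List.mem_iff_append.1 hp
  have hperm' : (p :: (A ++ B)).Perm M.pairs := by rw [hAB]; exact List.perm_middle.symm
  have hsl : ([p.1, p.2.1] ++ (A ++ B).flatMap fun p => [p.1, p.2.1]).Perm sl :=
    (List.Perm.flatMap_right (fun p : σ × σ × ℕ => [p.1, p.2.1]) hperm').trans hperm
  have hnd' := hsl.nodup_iff.2 hnd
  have hval : ∀ (z : σ → Fin n) g, M.val z g = Mon.val ⟨p :: (A ++ B), M.ts⟩ z g := by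
    intro z g
    simp only [Mon.val, pairVal]
    rw [((hperm'.map _).prod_eq)]
  have hsum : p.2.2 + ((A ++ B).map fun p => p.2.2).sum = (M.pairs.map fun p => p.2.2).sum := by
    rw [← (hperm'.map _).sum_eq, List.map_cons, List.sum_cons]
  have hlen : (A ++ B).length + 1 = M.pairs.length := by
    rw [← hperm'.length_eq, List.length_cons]
  obtain ⟨a, b, m⟩ := p
  simp only [List.cons_append, List.nil_append, List.nodup_cons, List.mem_cons] at hnd'
  simp only [List.mem_cons, List.not_mem_nil, or_false] at hxp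
  rcases hxp with rfl | rfl
  · exact ⟨b, m, A ++ B, fun h => hnd'.1 (Or.inl h), fun h => hnd'.1 (Or.inr h), hsl, hlen, hsum,
      hval⟩
  · refine ⟨a, m, A ++ B, fun h => hnd'.1 (Or.inl h.symm), hnd'.2.1,
      (List.Perm.swap _ _ _).trans hsl, hlen, hsum, fun z g => ?_⟩
    rw [hval]
    simp only [Mon.val, pairVal_cons, uEnt_symm m (z a) (z x) g]

/-- The per-step growth of the weight. -/
noncomputable def stepEps (n K : ℕ) : ℝ :=
  4 * ((K : ℝ) + 1) ^ 2 / n + 2 * ((K : ℝ) + 1) * (1 / Real.sqrt n) +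
    8 * ((K : ℝ) + 1) ^ 3 / n + 32 * ((K : ℝ) + 1) ^ 4 / ((n : ℝ) ^ 2 * (1 / Real.sqrt n))

theorem stepEps_nonneg (n K : ℕ) : 0 ≤ stepEps n K := by
  unfold stepEps; positivity

theorem stepEps_le (hn : n ≠ 0) (K : ℕ) :
    stepEps n K ≤ 64 * ((K : ℝ) + 1) ^ 4 / Real.sqrt n := by
  have hn1 : (1 : ℝ) ≤ n := Nat.one_le_cast.2 (Nat.one_le_iff_ne_zero.2 hn)
  set s := Real.sqrt n with hs
  have hs1 : 1 ≤ s := Real.one_le_sqrt.2 hn1
  have hs2 : (n : ℝ) = s ^ 2 := (Real.sq_sqrt (by positivity)).symm
  set k := (K : ℝ) + 1 with hk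
  have hk1 : 1 ≤ k := by simp [hk]
  have a1 : 4 * k ^ 2 / (n : ℝ) ≤ 4 * k ^ 4 / s := by
    gcongr
    · norm_num
    · rw [hs2]; nlinarith
  have a2 : 2 * k * (1 / s) ≤ 2 * k ^ 4 / s := by
    rw [mul_one_div]
    gcongr
    exact le_self_pow₀ hk1 (by norm_num)
  have a3 : 8 * k ^ 3 / (n : ℝ) ≤ 8 * k ^ 4 / s := by
    gcongr
    · norm_num
    · rw [hs2]; nlinarith
  have a4 : 32 * k ^ 4 / ((n : ℝ) ^ 2 * (1 / s)) ≤ 32 * k ^ 4 / s := by
    gcongr
    rw [hs2, show (s ^ 2) ^ 2 * (1 / s) = s ^ 3 by field_simp]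
    exact le_self_pow₀ hs1 (by norm_num)
  have : 0 ≤ k ^ 4 / s := by positivity
  simp only [stepEps, ← hs, ← hk]
  calc _ ≤ 4 * k ^ 4 / s + 2 * k ^ 4 / s + 8 * k ^ 4 / s + 32 * k ^ 4 / s := by gcongr
    _ = 46 * (k ^ 4 / s) := by ring
    _ ≤ 64 * (k ^ 4 / s) := by linarith
    _ = _ := by ring

/-- The slack of one monomial step, with the main term removed. -/
theorem Rep.step_err {K : ℕ} (hn : n ≠ 0) {sl : List σ} (hnd : sl.Nodup)
    (hlen : sl.length ≤ 2 * K) {N : ℕ} (hN : N + 1 ≤ 2 * K) {M : Mon σ} (hM : M.Ok sl N) {x : σ}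
    (hx : x ∈ sl) :
    ∃ (y : σ) (m : ℕ) (rest : List (σ × σ × ℕ)),
      (⟨(x, y, m + 1) :: rest, M.ts⟩ : Mon σ).Ok sl (N + 1) ∧
      Rep (1 / Real.sqrt n) sl (N + 1) (stepEps n K * (1 / Real.sqrt n) ^ M.ts.length)
        (fun (z : σ → Fin n) g =>
          stepOp x M.val z g - Mon.val ⟨(x, y, m + 1) :: rest, M.ts⟩ z g) := by
  obtain ⟨y, m, rest, hxy, hxr, hperm, hl, hsum, hval⟩ := exists_front (n := n) hM hnd hx
  obtain ⟨-, htot, hts⟩ := hM
  simp only [Mon.tot] at htot
  have hpair : rest.length ≤ K := by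
    have h1 := hperm.length_eq
    have h2 : (rest.flatMap fun p => [p.1, p.2.1]).length = 2 * rest.length := by
      induction rest with
      | nil => rfl
      | cons p t ih => simp [List.flatMap_cons]; omega
    simp only [List.length_cons, h2] at h1
    omega
  refine ⟨y, m, rest, ⟨?_, ?_, hts⟩, ?_⟩
  · simpa [Mon.slots] using hperm
  · simp only [Mon.tot, List.map_cons, List.sum_cons]; omega
  have hval' : (M.val : (σ → Fin n) → Cfg n → ℝ) = Mon.val ⟨(x, y, m) :: rest, M.ts⟩ :=
    funext fun z => funext fun g => hval z g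
  rw [hval']
  have hτ : 0 < 1 / Real.sqrt n := by
    have : (0 : ℝ) < n := Nat.cast_pos.2 (Nat.pos_of_ne_zero hn)
    positivity
  exact (stepOp_mon (K := K) hn hτ x y m rest M.ts hts hxy hxr (by omega) hpair).mono hperm
    (by omega) le_rfl

theorem Rep.step {K : ℕ} (hn : n ≠ 0) {sl : List σ} (hnd : sl.Nodup) (hlen : sl.length ≤ 2 * K)
    {N : ℕ} (hN : N + 1 ≤ 2 * K) {W : ℝ} {f : (σ → Fin n) → Cfg n → ℝ}
    (hf : Rep (1 / Real.sqrt n) sl N W f) {x : σ} (hx : x ∈ sl) :
    Rep (1 / Real.sqrt n) sl (N + 1) ((1 + stepEps n K) * W) (stepOp x f) := by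
  obtain ⟨L, hok, hw, rfl⟩ := hf
  refine Rep.mono (W := (1 + stepEps n K) * combWgt (1 / Real.sqrt n) L) ?_ (List.Perm.refl _) le_rfl
    (mul_le_mul_of_nonneg_left hw (by linarith [stepEps_nonneg n K]))
  clear hw
  induction L with
  | nil =>
    refine (Rep.zero (by simp [combWgt])).congr fun z g => ?_
    rw [stepOp_combVal]; simp
  | cons cm t ih =>
    obtain ⟨y, m, rest, hmain, herr⟩ :=
      Rep.step_err hn hnd hlen hN (hok cm List.mem_cons_self) hx
    have hmainRep : Rep (1 / Real.sqrt n) sl (N + 1) ((1 / Real.sqrt n) ^ cm.2.ts.length)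
        (fun (z : σ → Fin n) g => Mon.val ⟨(x, y, m + 1) :: rest, cm.2.ts⟩ z g) := by
      refine ⟨[(1, ⟨(x, y, m + 1) :: rest, cm.2.ts⟩)], ?_, ?_, ?_⟩
      · intro d hd
        rw [List.mem_singleton] at hd
        subst hd
        exact hmain
      · simp [combWgt]
      · funext z g; simp [combVal]
    refine ((((hmainRep.add herr).smul cm.1).add
      (ih fun d hd => hok d (List.mem_cons_of_mem _ hd))).mono (List.Perm.refl _) le_rfl
        (le_of_eq ?_)).congr fun z g => ?_
    · simp only [combWgt, List.map_cons, List.sum_cons]; ring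
    · simp only [stepOp_combVal, List.map_cons, List.sum_cons, add_sub_cancel]

theorem Rep.iterate {K : ℕ} (hn : n ≠ 0) {sl : List σ} (hnd : sl.Nodup) (hlen : sl.length ≤ 2 * K)
    {x : σ} (hx : x ∈ sl) (l : ℕ) :
    ∀ {N : ℕ} {W : ℝ} {f : (σ → Fin n) → Cfg n → ℝ}, N + l ≤ 2 * K →
      Rep (1 / Real.sqrt n) sl N W f →
      Rep (1 / Real.sqrt n) sl (N + l) ((1 + stepEps n K) ^ l * W) ((stepOp x)^[l] f) := by
  induction l with
  | zero => intro N W f _ hf; simpa using hf
  | succ l ih =>
    intro N W f hN hf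
    rw [Function.iterate_succ_apply']
    refine (Rep.step hn hnd hlen (by omega) (ih (by omega) hf) hx).mono (List.Perm.refl _) le_rfl
      (le_of_eq ?_)
    rw [pow_succ]; ring

/-- One step of the reversal. -/
theorem reverse_step (hn : n ≠ 0) {G : Cfg n → ℝ} (hG : Tame G) (x : σ)
    {f : (σ → Fin n) → Cfg n → ℝ} (hf : ∀ z, Tame (f z)) (z : σ → Fin n) (a : Fin n) :
    ∑ c, mean (fun g => Dab (a, c) G g * f (Function.update z x c) g) =
      n * mean (fun g => G g * stepOp x f (Function.update z x a) g) := by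
  have hn' : (n : ℝ) ≠ 0 := Nat.cast_ne_zero.2 hn
  set H : Fin n → Cfg n → ℝ := fun c => f (Function.update z x c) with hH
  have hHt : ∀ c, Tame (H c) := fun c => hf _
  have key : ∀ c, mean (fun g => Dab (a, c) G g * H c g) =
      n * (mean (fun g => G g * (mat g a c * H c g)) -
        (n : ℝ)⁻¹ * mean (fun g => G g * Dab (a, c) (H c) g)) := by
    intro c
    have h1 := mean_mat_mul hn (hG.mul (hHt c)) a c
    rw [Dab_mul _ hG (hHt c), mean_add ((hG.dab _).mul (hHt c)) (hG.mul ((hHt c).dab _))] at h1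
    have h2 : (fun g => G g * (mat g a c * H c g)) = fun g => mat g a c * (G g * H c g) := by
      funext g; ring
    rw [h2, h1]
    field_simp
    ring
  rw [Finset.sum_congr rfl fun c _ => key c, ← Finset.mul_sum]
  congr 1
  have t1 : ∀ c, Tame (fun g => G g * (mat g a c * H c g)) := fun c =>
    hG.mul ((Tame.matEnt a c).mul (hHt c))
  have t2 : ∀ c, Tame (fun g => G g * P146.Dab (a, c) (H c) g) := fun c =>
    hG.mul ((hHt c).dab _)
  rw [Finset.sum_sub_distrib, ← Finset.mul_sum, ← mean_sum _ fun c _ => t1 c,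
    ← mean_sum _ fun c _ => t2 c, ← mean_const_mul,
    ← mean_sub (Tame.sum _ fun c _ => t1 c) ((Tame.sum _ fun c _ => t2 c).const_mul _)]
  congr 1
  funext g
  simp only [stepOp, Function.update_idem, Function.update_self, hH, mul_sub, Finset.mul_sum,
    div_eq_inv_mul]
  refine congrArg₂ (· - ·) rfl (Finset.sum_congr rfl fun c _ => ?_)
  ring

theorem DL_cons (p : Fin n × Fin n) (L : List (Fin n × Fin n)) (G : Cfg n → ℝ) :
    DL (p :: L) G = DL L (Dab p G) := rfl

theorem Tame.iterOp {x : σ} (l : ℕ) {f : (σ → Fin n) → Cfg n → ℝ} (hf : ∀ z, Tame (f z)) :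
    ∀ z, Tame ((P146.stepOp x)^[l] f z) := by
  induction l with
  | zero => simpa using hf
  | succ l ih =>
    intro z
    rw [Function.iterate_succ_apply']
    exact Tame.stepOp ih z

/-- Reversal along one walk. -/
theorem reverse_walk (hn : n ≠ 0) (x : σ) {f : (σ → Fin n) → Cfg n → ℝ} (hf : ∀ z, Tame (f z))
    (z : σ → Fin n) (l : ℕ) :
    ∀ (G : Cfg n → ℝ), Tame G → ∀ a,
      ∑ b, walkSum l a b (fun L => mean fun g => DL L G g * f (Function.update z x b) g) =
        (n : ℝ) ^ l * mean fun g => G g * (stepOp x)^[l] f (Function.update z x a) g := by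
  induction l with
  | zero =>
    intro G _ a
    simp [walkSum, DL]
  | succ l ih =>
    intro G hG a
    simp only [walkSum]
    rw [Finset.sum_comm]
    simp only [DL_cons]
    rw [Finset.sum_congr rfl fun c _ => ih (Dab (a, c) G) (hG.dab _) c, ← Finset.mul_sum,
      reverse_step hn hG x (Tame.iterOp l hf) z a, Function.iterate_succ_apply', pow_succ]
    ring

theorem nodup_slots_cons {x y : σ} {t : List σ} (h : (x :: y :: t).Nodup) :
    x ≠ y ∧ x ∉ t ∧ t.Nodup := by
  simp only [List.nodup_cons, List.mem_cons, not_or] at h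
  exact ⟨h.1.1, h.1.2, h.2.2⟩

/-- Reversal along a family of walks. -/
theorem reverse_multi {K : ℕ} (hn : n ≠ 0) (ps : List (ℕ × σ × σ))
    (hnd : (ps.flatMap fun p => [p.2.1, p.2.2]).Nodup) (hcard : ps.length ≤ K)
    (hlen : (ps.map Prod.fst).sum ≤ 2 * K) :
    ∃ f : (σ → Fin n) → Cfg n → ℝ,
      Rep (1 / Real.sqrt n) (ps.flatMap fun p => [p.2.1, p.2.2]) (ps.map Prod.fst).sum
        ((1 + stepEps n K) ^ (ps.map Prod.fst).sum) f ∧
      (∀ z z', (∀ s ∈ ps.flatMap fun p => [p.2.1, p.2.2], z s = z' s) → f z = f z') ∧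
      ∀ G : Cfg n → ℝ, Tame G → ∀ z : σ → Fin n,
        multiWalk (ps.map fun p => (p.1, z p.2.1, z p.2.2)) (fun L => mean (DL L G)) =
          (n : ℝ) ^ (ps.map Prod.fst).sum * mean fun g => G g * f z g := by
  induction ps with
  | nil =>
    refine ⟨fun _ _ => 1, ?_, fun _ _ _ => rfl, fun G hG z => ?_⟩
    · simpa using Rep.unit
    · simp [multiWalk, DL]
  | cons p t ih =>
    obtain ⟨l, x, y⟩ := p
    simp only [List.flatMap_cons, List.cons_append, List.nil_append] at hnd
    simp only [List.map_cons, List.sum_cons] at hlen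
    simp only [List.length_cons] at hcard
    obtain ⟨hxy, hxt, htnd⟩ := nodup_slots_cons hnd
    obtain ⟨ft, hrep, hdep, hid⟩ := ih htnd (by omega) (by omega)
    let f0 : (σ → Fin n) → Cfg n → ℝ := fun z g => uEnt 0 (z x) (z y) g * ft z g
    have hrep0 := hrep.consPair x y 0
    have hf0 : ∀ z, Tame (f0 z) := fun z => hrep0.tame z
    refine ⟨(stepOp x)^[l] f0, ?_, ?_, ?_⟩
    · simp only [List.flatMap_cons, List.cons_append, List.nil_append, List.map_cons, List.sum_cons]
      refine (Rep.iterate (K := K) hn hnd ?_ List.mem_cons_self l (by omega) hrep0).mono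
        (List.Perm.refl _) (by omega) (le_of_eq ?_)
      · have h2 : (t.flatMap fun p => [p.2.1, p.2.2]).length = 2 * t.length := by
          clear * -
          induction t with
          | nil => rfl
          | cons p t ih => simp [List.flatMap_cons]; omega
        simp only [List.length_cons, h2]; omega
      · rw [pow_add]
    · intro z z' hzz
      simp only [List.flatMap_cons, List.cons_append, List.nil_append] at hzz
      have : ∀ l, ∀ z z', (∀ s ∈ x :: y :: t.flatMap fun p => [p.2.1, p.2.2], z s = z' s) →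
          (stepOp x)^[l] f0 z = (stepOp x)^[l] f0 z' := by
        intro l
        induction l with
        | zero =>
          intro z z' h
          funext g
          simp only [Function.iterate_zero, id, f0]
          rw [h x (by simp), h y (by simp), hdep z z' fun s hs => h s (by simp [hs])]
        | succ l ihl =>
          intro z z' h
          funext g
          simp only [Function.iterate_succ_apply', stepOp]
          have hu : ∀ c, (stepOp x)^[l] f0 (Function.update z x c) =
              (stepOp x)^[l] f0 (Function.update z' x c) := fun c => ihl _ _ fun s hs => by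
            by_cases hsx : s = x
            · simp [hsx]
            · rw [Function.update_of_ne hsx, Function.update_of_ne hsx]; exact h s hs
          simp only [hu, h x (by simp)]
      exact this l z z' hzz
    · intro G hG z
      simp only [List.map_cons, multiWalk, List.sum_cons]
      have hinner : ∀ L, (multiWalk (t.map fun p => (p.1, z p.2.1, z p.2.2)) fun M =>
          mean (DL (L ++ M) G)) =
          (n : ℝ) ^ (t.map Prod.fst).sum * mean fun g => DL L G g * ft z g := by
        intro L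
        simp only [DL_append]
        exact hid (DL L G) (hG.dl L) z
      simp only [hinner, walkSum_const_mul]
      have key := reverse_walk hn x hf0 z l G hG (z x)
      rw [Function.update_eq_self] at key
      have hf : ∀ b L, (mean fun g => DL L G g * f0 (Function.update z x b) g) =
          if b = z y then mean (fun g => DL L G g * ft z g) else 0 := by
        intro b L
        have hd : ft (Function.update z x b) = ft z :=
          hdep _ _ fun s hs => Function.update_of_ne (fun h : s = x => hxt (h ▸ hs)) _ _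
        simp only [f0, hd, Function.update_self, Function.update_of_ne hxy.symm, uEnt_zero]
        split_ifs <;> simp [mean]
      simp only [hf, walkSum_ite, Finset.sum_ite_eq', Finset.mem_univ, if_true] at key
      rw [key, pow_add]
      ring

end Vale.Agent.P146
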